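import Mathlib

open Complex Finset
open scoped Real ComplexConjugate

namespace Vale.Agent.P110

/-- `ee x = exp (2 π i x)`. -/
noncomputable def ee (x : ℝ) : ℂ := Complex.exp (2 * π * I * x)

lemma ee_add (x y : ℝ) : ee (x + y) = ee x * ee y := by
  unfold ee; rw [← Complex.exp_add]; congr 1; push_cast; ring

@[simp] lemma ee_zero : ee 0 = 1 := by simp [ee]

lemma ee_eq (x : ℝ) : ee x = Complex.exp (((2 * π * x : ℝ) : ℂ) * I) := by
  unfold ee; congr 1; push_cast; ring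

@[simp] lemma norm_ee (x : ℝ) : ‖ee x‖ = 1 := by
  rw [ee_eq, Complex.norm_exp_ofReal_mul_I]

lemma ee_ne_zero (x : ℝ) : ee x ≠ 0 := Complex.exp_ne_zero _

@[simp] lemma ee_int (n : ℤ) : ee n = 1 := by
  unfold ee
  have := Complex.exp_int_mul_two_pi_mul_I n
  rw [← this]; congr 1; push_cast; ring

@[simp] lemma ee_nat (n : ℕ) : ee n = 1 := by
  have := ee_int n
  simpa using this

lemma ee_neg (x : ℝ) : ee (-x) = conj (ee x) := by
  unfold ee
  rw [← Complex.exp_conj]; congr 1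
  simp [Complex.conj_ofReal, map_ofNat]

lemma ee_sub (x y : ℝ) : ee (x - y) = ee x * conj (ee y) := by
  rw [sub_eq_add_neg, ee_add, ee_neg]

lemma ee_mul_neg (x : ℝ) : ee x * ee (-x) = 1 := by
  rw [← ee_add]; simp

lemma ee_nat_mul (n : ℕ) (x : ℝ) : ee (n * x) = ee x ^ n := by
  unfold ee
  rw [← Complex.exp_nat_mul]; congr 1; push_cast; ring

lemma ee_add_int (x : ℝ) (n : ℤ) : ee (x + n) = ee x := by
  rw [ee_add, ee_int, mul_one]

lemma ee_congr {x y : ℝ} (n : ℤ) (h : x = y + n) : ee x = ee y := by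
  rw [h, ee_add_int]

@[fun_prop, continuity] lemma continuous_ee : Continuous ee := by
  unfold ee; fun_prop

lemma hasDerivAt_ee (x : ℝ) : HasDerivAt ee (2 * π * I * ee x) x := by
  unfold ee
  have h1 : HasDerivAt (fun y : ℝ => (2 * π * I * y : ℂ)) (2 * π * I) x := by
    simpa using (Complex.ofRealCLM.hasDerivAt (x := x)).const_mul (2 * π * I : ℂ)
  simpa [mul_comm] using h1.cexp

lemma norm_ee_sub_one (x : ℝ) : ‖ee x - 1‖ = 2 * |Real.sin (π * x)| := by
  have h := Complex.norm_exp_I_mul_ofReal_sub_one (2 * π * x)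
  rw [ee_eq, mul_comm, h]
  have : 2 * π * x / 2 = π * x := by ring
  rw [this, Real.norm_eq_abs, abs_mul]; simp

lemma norm_ee_sub_one_le (x : ℝ) : ‖ee x - 1‖ ≤ 2 * π * |x| := by
  rw [norm_ee_sub_one]
  have := Real.abs_sin_le_abs (x := π * x)
  rw [abs_mul, abs_of_pos Real.pi_pos] at this
  linarith

lemma norm_ee_sub_ee (x y : ℝ) : ‖ee x - ee y‖ ≤ 2 * π * |x - y| := by
  have : ee x - ee y = ee y * (ee (x - y) - 1) := by
    rw [mul_sub, ← ee_add]; simp
  rw [this, norm_mul, norm_ee, one_mul]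
  exact norm_ee_sub_one_le _

lemma norm_ee_sub_one_ge {x : ℝ} (hx : |x| ≤ 1 / 2) : 4 * |x| ≤ ‖ee x - 1‖ := by
  rw [norm_ee_sub_one]
  have hp := Real.pi_pos
  have h1 : |π * x| ≤ π / 2 := by
    rw [abs_mul, abs_of_pos hp]; nlinarith
  have := Real.mul_abs_le_abs_sin h1
  rw [abs_mul, abs_of_pos hp] at this
  have h2 : 2 / π * (π * |x|) = 2 * |x| := by field_simp
  linarith

lemma ee_eq_one_iff {x : ℝ} : ee x = 1 ↔ ∃ n : ℤ, x = n := by
  constructor
  · intro h
    unfold ee at h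
    obtain ⟨n, hn⟩ := Complex.exp_eq_one_iff.1 h
    refine ⟨n, ?_⟩
    have h2 : (2 * π * I : ℂ) ≠ 0 := by
      simp [Real.pi_ne_zero]
    have : (x : ℂ) = n := by
      apply mul_left_cancel₀ h2; rw [hn]; ring
    exact_mod_cast this
  · rintro ⟨n, rfl⟩; exact ee_int n

lemma exists_ee {z : ℂ} (hz : ‖z‖ = 1) : ∃ x : ℝ, ee x = z := by
  refine ⟨Complex.arg z / (2 * π), ?_⟩
  rw [ee_eq]
  have hp := Real.pi_pos
  have : 2 * π * (Complex.arg z / (2 * π)) = Complex.arg z := by field_simp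
  rw [this]
  have h := Complex.norm_mul_exp_arg_mul_I z
  rw [hz] at h; simpa using h

lemma exists_polar (z : ℂ) : ∃ x : ℝ, z = (‖z‖ : ℝ) * ee x := by
  refine ⟨Complex.arg z / (2 * π), ?_⟩
  rw [ee_eq]
  have hp := Real.pi_pos
  have : 2 * π * (Complex.arg z / (2 * π)) = Complex.arg z := by field_simp
  rw [this, Complex.norm_mul_exp_arg_mul_I z]

/-- Orthogonality on the grid of `M` points. -/
lemma sum_ee_grid (M : ℕ) (hM : 0 < M) (n : ℤ) :
    ∑ j ∈ range M, ee (n * j / M) = if (M : ℤ) ∣ n then (M : ℂ) else 0 := by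
  have hM' : (M : ℝ) ≠ 0 := by positivity
  have h1 : ∀ j : ℕ, ee (n * j / M) = ee (n / M) ^ j := by
    intro j; rw [← ee_nat_mul]; congr 1; ring
  simp_rw [h1]
  split_ifs with h
  · obtain ⟨c, rfl⟩ := h
    have : ee ((((M : ℤ) * c : ℤ) : ℝ) / M) = 1 := by
      rw [← ee_int c]; congr 1; push_cast; field_simp
    rw [this]; simp
  · have hne : ee (n / M) ≠ 1 := by
      intro h2
      obtain ⟨c, hc⟩ := ee_eq_one_iff.1 h2
      apply h
      refine ⟨c, ?_⟩
      have : (n : ℝ) = M * c := by rw [← hc]; field_simp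
      exact_mod_cast this
    rw [geom_sum_eq hne, ← ee_nat_mul]
    have : (M : ℝ) * (n / M) = n := by field_simp
    rw [this]; simp

lemma sum_ee_grid' (M : ℕ) (hM : 0 < M) (n : ℤ) (hn : |n| < M) :
    ∑ j ∈ range M, ee (n * j / M) = if n = 0 then (M : ℂ) else 0 := by
  rw [sum_ee_grid M hM]
  have : (M : ℤ) ∣ n ↔ n = 0 :=
    ⟨fun h => Int.eq_zero_of_abs_lt_dvd h hn, fun h => by simp [h]⟩
  simp [this]

/-- Discrete Parseval. -/
lemma parseval_grid {ι : Type*} (s : Finset ι) (n : ι → ℤ) (d : ι → ℂ) (M : ℕ) (hM : 0 < M)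
    (hinj : ∀ i ∈ s, ∀ i' ∈ s, n i = n i' → i = i')
    (hd : ∀ i ∈ s, ∀ i' ∈ s, |n i - n i'| < M) :
    ∑ j ∈ range M, ‖∑ i ∈ s, d i * ee (n i * j / M)‖ ^ 2 = M * ∑ i ∈ s, ‖d i‖ ^ 2 := by
  classical
  have key : ∀ j : ℕ, ((‖∑ i ∈ s, d i * ee (n i * j / M)‖ ^ 2 : ℝ) : ℂ) =
      ∑ i ∈ s, ∑ i' ∈ s, d i * conj (d i') * ee (((n i - n i' : ℤ) : ℝ) * j / M) := by
    intro j
    rw [Complex.ofReal_pow, ← Complex.mul_conj', map_sum, Finset.sum_mul_sum]
    refine Finset.sum_congr rfl fun i _ => Finset.sum_congr rfl fun i' _ => ?_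
    have : ((n i - n i' : ℤ) : ℝ) * j / M = n i * j / M - n i' * j / M := by push_cast; ring
    rw [this, ee_sub, map_mul]; ring
  apply Complex.ofReal_injective
  push_cast [- Complex.ofReal_pow]
  simp_rw [key]
  rw [Finset.sum_comm, Finset.mul_sum]
  refine Finset.sum_congr rfl fun i hi => ?_
  rw [Finset.sum_comm]
  simp_rw [← Finset.mul_sum]
  rw [Finset.sum_eq_single i]
  · rw [sum_ee_grid' M hM _ (hd i hi i hi)]
    simp [Complex.mul_conj']; ring
  · intro i' hi' hne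
    rw [sum_ee_grid' M hM _ (hd i hi i' hi'), if_neg, mul_zero]
    intro h
    exact hne (hinj i hi i' hi' (by omega)).symm
  · intro h; exact absurd hi h

/-- Dirichlet kernel. -/
noncomputable def DD (n : ℕ) (u : ℝ) : ℂ := ∑ i ∈ range n, ee (i * u)

@[fun_prop, continuity] lemma continuous_DD (n : ℕ) : Continuous (DD n) := by
  unfold DD; fun_prop

lemma norm_DD_le (n : ℕ) (u : ℝ) : ‖DD n u‖ ≤ n := by
  unfold DD
  refine (norm_sum_le _ _).trans ?_
  simp

lemma DD_mul (n : ℕ) (u : ℝ) : DD n u * (ee u - 1) = ee (n * u) - 1 := by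
  unfold DD
  simp_rw [ee_nat_mul]
  exact geom_sum_mul _ _

lemma norm_DD_mul_le (n : ℕ) (u : ℝ) : ‖DD n u‖ * ‖ee u - 1‖ ≤ 2 := by
  rw [← norm_mul, DD_mul]
  refine (norm_sub_le _ _).trans ?_
  simp; norm_num

lemma norm_DD_le' (n : ℕ) {u : ℝ} (hu : |u| ≤ 1 / 2) : ‖DD n u‖ * |u| ≤ 1 / 2 := by
  have h1 := norm_DD_mul_le n u
  have h2 := norm_ee_sub_one_ge hu
  have h3 := norm_nonneg (DD n u)
  nlinarith

lemma parseval_DD (n M : ℕ) (hM : 0 < M) (h : n ≤ M) (θ : ℝ) :
    ∑ j ∈ range M, ‖DD n (j / M - θ)‖ ^ 2 = M * n := by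
  have := parseval_grid (range n) (fun i => (i : ℤ)) (fun i => ee (-(i * θ))) M hM
    (fun i _ i' _ h => by exact_mod_cast h)
    (fun i hi i' hi' => by
      have := mem_range.1 hi; have := mem_range.1 hi'
      rw [abs_lt]; constructor <;> omega)
  simp only [norm_ee, one_pow, sum_const, card_range, nsmul_eq_mul, mul_one] at this
  rw [← this]
  refine Finset.sum_congr rfl fun j _ => ?_
  unfold DD
  congr 2
  refine Finset.sum_congr rfl fun i _ => ?_
  rw [← ee_add]; congr 1; push_cast; ring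

lemma reproduce (M : ℕ) (m : ℕ) (hm : m < M) (θ : ℝ) :
    ∑ j ∈ range M, ee (m * (j / M)) * conj (DD M (j / M - θ)) = M * ee (m * θ) := by
  have hM : 0 < M := by omega
  unfold DD
  simp_rw [map_sum, Finset.mul_sum]
  rw [Finset.sum_comm]
  have h1 : ∀ i ∈ range M, ∑ j ∈ range M, ee (m * (j / M)) * conj (ee (i * (j / M - θ))) =
      ee (i * θ) * if ((m : ℤ) - i = 0) then (M : ℂ) else 0 := by
    intro i hi
    have := mem_range.1 hi
    rw [← sum_ee_grid' M hM _ (by rw [abs_lt]; constructor <;> omega), Finset.mul_sum]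
    refine Finset.sum_congr rfl fun j _ => ?_
    rw [← ee_neg, ← ee_add, ← ee_add]; congr 1; push_cast; ring
  rw [Finset.sum_congr rfl h1, Finset.sum_eq_single m]
  · simp [mul_comm]
  · intro i _ hne
    rw [if_neg, mul_zero]; omega
  · intro h; exact absurd (mem_range.2 hm) h

/-- From the grid of `2N` points to the whole circle. -/
lemma grid_to_sup (N : ℕ) (hN : 0 < N) (d : ℕ → ℂ) (B : ℝ)
    (hB : ∀ j ∈ range (2 * N), ‖∑ k ∈ range N, d k * ee (k * (j / (2 * N : ℕ)))‖ ≤ B) (θ : ℝ) :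
    ‖∑ k ∈ range N, d k * ee (k * θ)‖ ≤ 3 / 2 * B := by
  set M := 2 * N with hMdef
  have hM : 0 < M := by omega
  have hB0 : 0 ≤ B := (norm_nonneg _).trans (hB 0 (mem_range.2 hM))
  have key : ∑ j ∈ range M, (∑ k ∈ range N, d k * ee (k * (j / M))) * DD N (j / M - θ) *
      conj (DD M (j / M - θ)) = M * N * ∑ k ∈ range N, d k * ee (k * θ) := by
    simp_rw [Finset.sum_mul]
    rw [Finset.sum_comm, Finset.mul_sum]
    refine Finset.sum_congr rfl fun k hk => ?_
    have hk' := mem_range.1 hk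
    have h2 : ∀ j : ℕ, d k * ee (k * (j / M)) * DD N (j / M - θ) * conj (DD M (j / M - θ)) =
        ∑ i ∈ range N, d k * ee (-(i * θ)) *
          (ee (((k + i : ℕ) : ℝ) * (j / M)) * conj (DD M (j / M - θ))) := by
      intro j
      conv_lhs => rw [DD, Finset.mul_sum, Finset.sum_mul]
      refine Finset.sum_congr rfl fun i _ => ?_
      have : ee (k * (j / M)) * ee (i * (j / M - θ)) =
          ee (-(i * θ)) * ee (((k + i : ℕ) : ℝ) * (j / M)) := by
        rw [← ee_add, ← ee_add]; congr 1; push_cast; ring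
      linear_combination d k * conj (DD M (j / M - θ)) * this
    simp_rw [h2]
    rw [Finset.sum_comm]
    have h3 : ∀ i ∈ range N, ∑ j ∈ range M, d k * ee (-(i * θ)) *
          (ee (((k + i : ℕ) : ℝ) * (j / M)) * conj (DD M (j / M - θ))) =
          M * (d k * ee (k * θ)) := by
      intro i hi
      have := mem_range.1 hi
      rw [← Finset.mul_sum, reproduce M (k + i) (by omega)]
      have : ee (-(i * θ)) * ee (((k + i : ℕ) : ℝ) * θ) = ee (k * θ) := by
        rw [← ee_add]; congr 1; push_cast; ring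
      linear_combination d k * M * this
    rw [Finset.sum_congr rfl h3]
    simp; ring
  have hn := congrArg norm key
  rw [norm_mul, norm_mul, Complex.norm_natCast, Complex.norm_natCast] at hn
  have hle : ‖∑ j ∈ range M, (∑ k ∈ range N, d k * ee (k * (j / M))) * DD N (j / M - θ) *
      conj (DD M (j / M - θ))‖ ≤
      ∑ j ∈ range M, B / 2 * (‖DD N (j / M - θ)‖ ^ 2 + ‖DD M (j / M - θ)‖ ^ 2) := by
    refine (norm_sum_le _ _).trans (Finset.sum_le_sum fun j hj => ?_)
    rw [norm_mul, norm_mul, Complex.norm_conj]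
    have h1 := hB j hj
    have h2 := norm_nonneg (DD N (j / M - θ))
    have h3 := norm_nonneg (DD M (j / M - θ))
    have h4 : ‖DD N (j / M - θ)‖ * ‖DD M (j / M - θ)‖ ≤
        (‖DD N (j / M - θ)‖ ^ 2 + ‖DD M (j / M - θ)‖ ^ 2) / 2 := by
      nlinarith [sq_nonneg (‖DD N (j / M - θ)‖ - ‖DD M (j / M - θ)‖)]
    calc _ ≤ B * (‖DD N (j / M - θ)‖ * ‖DD M (j / M - θ)‖) := by
          rw [mul_assoc]; gcongr
      _ ≤ B * ((‖DD N (j / M - θ)‖ ^ 2 + ‖DD M (j / M - θ)‖ ^ 2) / 2) := by gcongr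
      _ = _ := by ring
  rw [← Finset.mul_sum, Finset.sum_add_distrib, parseval_DD N M hM (by omega),
    parseval_DD M M hM le_rfl, hn] at hle
  have hMN : (M : ℝ) = 2 * N := by rw [hMdef]; push_cast; ring
  have hN' : (0 : ℝ) < N := by exact_mod_cast hN
  rw [hMN] at hle
  have : 2 * (N : ℝ) * N * ‖∑ k ∈ range N, d k * ee (k * θ)‖ ≤ 2 * N * N * (3 / 2 * B) := by
    linarith
  exact le_of_mul_le_mul_left this (by positivity)

end Vale.Agent.P110
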