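import Vale.Agent.P110.Basic

open Finset
open scoped Real ComplexConjugate

namespace Vale.Agent.P110

lemma psi_eq (n : ℕ) [NeZero n] (j : ℤ) : ZMod.stdAddChar (j : ZMod n) = ee (j / n) := by
  rw [ZMod.stdAddChar_coe, ee]; congr 1; push_cast; ring

lemma gauss_norm (n : ℕ) [NeZero n] (c e : ZMod n) (hc : IsUnit (2 * c)) :
    ‖∑ x : ZMod n, ZMod.stdAddChar (c * x ^ 2 + e * x)‖ = √n := by
  set ψ := ZMod.stdAddChar (N := n)
  have hprim : ψ.IsPrimitive := ZMod.isPrimitive_stdAddChar n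
  have key : (∑ x : ZMod n, ψ (c * x ^ 2 + e * x)) * conj (∑ x : ZMod n, ψ (c * x ^ 2 + e * x)) =
      n := by
    rw [map_sum, Finset.mul_sum]
    have h1 : ∀ y : ZMod n, (∑ x : ZMod n, ψ (c * x ^ 2 + e * x)) * conj (ψ (c * y ^ 2 + e * y)) =
        ∑ h : ZMod n, ψ (c * h ^ 2 + e * h) * ψ (y * (2 * c * h)) := by
      intro y
      rw [← Equiv.sum_comp (Equiv.addRight y), Finset.sum_mul]
      refine Finset.sum_congr rfl fun h _ => ?_
      rw [← AddChar.map_neg_eq_conj, ← AddChar.map_add_eq_mul, ← AddChar.map_add_eq_mul]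
      congr 1
      simp only [Equiv.coe_addRight]; ring
    simp_rw [h1]
    rw [Finset.sum_comm]
    simp_rw [← Finset.mul_sum, AddChar.sum_mulShift _ hprim]
    rw [Finset.sum_eq_single 0]
    · simp
    · intro h _ hh
      rw [if_neg (by rwa [hc.mul_right_eq_zero])]; simp
    · simp
  rw [Complex.mul_conj'] at key
  have : ‖∑ x : ZMod n, ψ (c * x ^ 2 + e * x)‖ ^ 2 = n := by exact_mod_cast key
  rw [← this, Real.sqrt_sq (norm_nonneg _)]

lemma sum_range_zmod (n : ℕ) [NeZero n] (f : ZMod n → ℂ) :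
    ∑ u ∈ range n, f u = ∑ u : ZMod n, f u := by
  refine Finset.sum_nbij' (fun u => (u : ZMod n)) ZMod.val (by simp) (fun u _ => ?_)
    (fun u hu => ?_) (by simp) (by simp)
  · exact mem_range.2 (ZMod.val_lt u)
  · exact ZMod.val_cast_of_lt (mem_range.1 hu)

/-- A rational quadratic phase is a flat sum of linear phases. -/
lemma gauss_split {n : ℕ} (hn : 0 < n) (c d : ℤ) (hc : IsCoprime (2 * c) n) :
    ∃ ω : ℕ → ℝ, ∀ k : ℤ, ∑ u ∈ range n, ee (ω u - k * u / n) =
      (√n : ℝ) * ee ((c * k ^ 2 + d * k) / n) := by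
  have : NeZero n := ⟨hn.ne'⟩
  set ψ := ZMod.stdAddChar (N := n) with hψ
  have hprim : ψ.IsPrimitive := ZMod.isPrimitive_stdAddChar n
  have hu : IsUnit (2 * (c : ZMod n)) := by
    obtain ⟨a, b, hab⟩ := hc
    have := congrArg (Int.cast : ℤ → ZMod n) hab
    push_cast at this
    rw [ZMod.natCast_self, mul_zero, add_zero] at this
    exact IsUnit.of_mul_eq_one_right _ this
  choose ω hω using fun u : ZMod n => exists_polar (∑ x : ZMod n, ψ (c * x ^ 2 + (d + u) * x))
  simp only [hψ, gauss_norm n _ _ hu] at hω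
  refine ⟨fun u => ω u, fun k => ?_⟩
  have hs : ((√n : ℝ) : ℂ) ≠ 0 := by
    have : (0 : ℝ) < n := by exact_mod_cast hn
    exact_mod_cast (Real.sqrt_pos.2 this).ne'
  have hss : ((√n : ℝ) : ℂ) * (√n : ℝ) = n := by
    rw [← Complex.ofReal_mul, Real.mul_self_sqrt (by positivity)]; simp
  apply mul_left_cancel₀ hs
  have h1 : ∀ u : ℕ, ((√n : ℝ) : ℂ) * ee (ω u - k * u / n) =
      (fun v : ZMod n => ∑ x : ZMod n, ψ (c * x ^ 2 + d * x) * ψ (v * (x - k))) u := by
    intro u
    have h2 : ee (-(k * u / n)) = ψ (-(k * u)) := by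
      have := psi_eq n (-(k * u))
      push_cast at this
      rw [hψ, this, neg_div]
    rw [sub_eq_add_neg, ee_add, ← mul_assoc, ← hω, h2, Finset.sum_mul]
    refine Finset.sum_congr rfl fun x _ => ?_
    rw [← AddChar.map_add_eq_mul, ← AddChar.map_add_eq_mul]
    congr 1; ring
  rw [Finset.mul_sum, Finset.sum_congr rfl fun u _ => h1 u,
    sum_range_zmod n (fun v : ZMod n => ∑ x : ZMod n, ψ (c * x ^ 2 + d * x) * ψ (v * (x - k))),
    Finset.sum_comm]
  simp_rw [← Finset.mul_sum, AddChar.sum_mulShift _ hprim]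
  rw [Finset.sum_eq_single (k : ZMod n)]
  · have := psi_eq n (c * k ^ 2 + d * k)
    push_cast at this
    rw [this, ← mul_assoc, hss]; simp [mul_comm]
  · intro x _ hx
    rw [if_neg (sub_ne_zero.2 hx)]; simp
  · simp

lemma exists_index {S β : Type*} [Fintype S] [DecidableEq β] (f : S → β) :
    ∃ idx : S → ℕ, (∀ s, idx s < (univ.filter fun s' => f s' = f s).card) ∧
      ∀ s s', f s = f s' → idx s = idx s' → s = s' := by
  set e := Fintype.equivFin S
  have key : ∀ s s', f s = f s' → e s < e s' →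
      (univ.filter fun x => f x = f s ∧ e x < e s).card <
        (univ.filter fun x => f x = f s' ∧ e x < e s').card := by
    intro s s' h1 h2
    apply card_lt_card
    refine ⟨fun x hx => ?_, fun h => ?_⟩
    · have := (mem_filter.1 hx).2
      exact mem_filter.2 ⟨mem_univ _, this.1.trans h1, this.2.trans h2⟩
    · have := (mem_filter.1 (h (mem_filter.2 ⟨mem_univ s, h1, h2⟩))).2.2
      exact lt_irrefl _ this
  refine ⟨fun s => (univ.filter fun x => f x = f s ∧ e x < e s).card, fun s => ?_,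
    fun s s' h1 h2 => ?_⟩
  · apply card_lt_card
    refine ⟨fun x hx => mem_filter.2 ⟨mem_univ _, (mem_filter.1 hx).2.1⟩, fun h => ?_⟩
    have := (mem_filter.1 (h (mem_filter.2 ⟨mem_univ s, rfl⟩))).2.2
    exact lt_irrefl _ this
  · by_contra hne
    rcases lt_or_gt_of_ne (e.injective.ne hne) with h | h
    · exact (key s s' h1 h).ne h2
    · exact (key s' s h1.symm h).ne h2.symm

lemma exists_moduli {I : Type*} [Fintype I] (R : I → ℝ) (hR : ∀ j, 0 < R j) {η : ℝ} (hη : 0 < η)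
    (H : ℕ) : ∃ (V : ℕ) (p : I → ℕ), 0 < V ∧ (∀ i j, i ≠ j → (p i).Coprime (p j)) ∧
      (∀ j m, 0 < m → m ≤ H → (p j).Coprime m) ∧
      ∀ j, (1 + η) * R j * V ≤ p j ∧ p j ≤ (1 + 2 * η) * R j * V := by
  set e := Fintype.equivFin I
  set r := Fintype.card I + 1 with hr
  obtain ⟨V', hV, hV0⟩ := ((Filter.eventually_all.2 fun j =>
    (tendsto_natCast_atTop_atTop (R := ℝ)).eventually_ge_atTop (3 / (η * R j))).and
    (Filter.eventually_gt_atTop 0)).exists
  set t : I → ℕ := fun j => r * ⌈V' * ((1 + η) * R j)⌉₊ + e j with ht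
  set M := (H + ∑ j, t j).factorial with hM
  have hM0 : 0 < M := Nat.factorial_pos _
  have he : ∀ j, (e j : ℕ) < r := fun j => by have := (e j).2; omega
  have htne : ∀ i j, i ≠ j → t i ≠ t j := by
    intro i j hij h
    have h1 : t i % r = t j % r := by rw [h]
    simp only [ht, Nat.mul_add_mod, Nat.mod_eq_of_lt (he _)] at h1
    exact hij (e.injective (Fin.ext h1))
  have htle : ∀ j, t j ≤ ∑ j, t j := fun j =>
    Finset.single_le_sum (fun _ _ => Nat.zero_le _) (mem_univ j)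
  have key : ∀ i j, t i < t j → (t i * M + 1).Coprime (t j * M + 1) := fun i j h =>
    Nat.coprime_mul_succ (Nat.dvd_factorial (by omega) (by have := htle j; omega))
  refine ⟨r * V' * M, fun j => t j * M + 1, by positivity, fun i j hij => ?_,
    fun j m hm hmH => ?_, fun j => ?_⟩
  · rcases lt_or_gt_of_ne (htne i j hij) with h | h
    · exact key i j h
    · exact (key j i h).symm
  · have : m ∣ M := Nat.dvd_factorial hm (by omega)
    exact Nat.Coprime.coprime_dvd_right this (by simp)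
  · have h1 := Nat.le_ceil (V' * ((1 + η) * R j))
    have h2 := Nat.ceil_lt_add_one (a := V' * ((1 + η) * R j)) (by have := hR j; positivity)
    have h3 : ((e j : ℕ) : ℝ) ≤ r := by exact_mod_cast (he j).le
    have h4 : (1 : ℝ) ≤ r := by rw [hr]; push_cast; linarith [Nat.cast_nonneg (α := ℝ) (Fintype.card I)]
    have h5 : (1 : ℝ) ≤ M := by exact_mod_cast hM0
    have h6 := hV j
    rw [div_le_iff₀ (by have := hR j; positivity)] at h6
    have h7 : (0 : ℝ) ≤ (e j : ℕ) := by positivity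
    simp only [ht]
    push_cast
    generalize ((⌈V' * ((1 + η) * R j)⌉₊ : ℕ) : ℝ) = c at h1 h2 ⊢
    constructor
    · calc _ = r * (V' * ((1 + η) * R j)) * M := by ring
        _ ≤ (r * c + (e j : ℕ)) * M := by gcongr; nlinarith
        _ ≤ _ := by linarith
    · calc _ ≤ (r * (V' * ((1 + η) * R j) + 1) + r) * M + r * M := by
            gcongr; nlinarith
        _ = (1 + η) * R j * (r * V' * M) + 3 * (r * M) := by ring
        _ ≤ (1 + η) * R j * (r * V' * M) + V' * (η * R j) * (r * M) := by gcongr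
        _ = _ := by ring

section
variable {I : Type*} [Fintype I] [DecidableEq I] (p : I → ℕ)
  (hp : ∀ i j, i ≠ j → (p i).Coprime (p j))

lemma dvd_cof {i j : I} (h : i ≠ j) : (p i : ℤ) ∣ ∏ l ∈ univ.erase j, (p l : ℤ) :=
  Finset.dvd_prod_of_mem _ (by simp [h])

include hp

lemma coprime_cof (j : I) : IsCoprime (∏ l ∈ univ.erase j, (p l : ℤ)) (p j) :=
  IsCoprime.prod_left fun l hl => Nat.isCoprime_iff_coprime.2 (hp l j (mem_erase.1 hl).1)

lemma crt (A g : I → ℤ) (hA : ∀ j, IsCoprime (A j) (p j)) :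
    ∃ r : ℤ, ∀ j, (p j : ℤ) ∣ r * A j + g j := by
  choose a b hab using fun j => (coprime_cof p hp j).mul_left (hA j)
  refine ⟨∑ i, -(a i * g i) * ∏ l ∈ univ.erase i, (p l : ℤ), fun j => ?_⟩
  rw [← Finset.add_sum_erase _ _ (mem_univ j), add_mul, add_right_comm]
  refine dvd_add ⟨b j * g j, ?_⟩ (Dvd.dvd.mul_right (Finset.dvd_sum fun i hi =>
    Dvd.dvd.mul_left (dvd_cof p (mem_erase.1 hi).1.symm) _) _)
  linear_combination (-g j) * hab j

lemma quad_coeffs (A B : I → ℤ) (h2 : ∀ j, IsCoprime (2 : ℤ) (p j))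
    (hD : ∀ i j l, i ≠ j → IsCoprime (A i * B j - A j * B i) (p l)) :
    ∃ (a₁ a₂ : ℤ) (c : I → ℤ), ∀ j, A j * a₁ + B j * a₂ = p j * c j ∧
      IsCoprime (2 * c j) (∏ l ∈ univ.erase j, (p l : ℤ)) := by
  set n : I → ℤ := fun i => ∏ l ∈ univ.erase i, (p l : ℤ) with hn
  have hG : ∀ j, A j * ∑ i, n i * B i + B j * -∑ i, n i * A i =
      ∑ i, n i * (A j * B i - A i * B j) := by
    intro j
    rw [mul_neg, Finset.mul_sum, Finset.mul_sum, ← sub_eq_add_neg, ← Finset.sum_sub_distrib]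
    exact Finset.sum_congr rfl fun i _ => by ring
  have h1 : ∀ j, (p j : ℤ) ∣ ∑ i, n i * (A j * B i - A i * B j) := by
    intro j
    refine Finset.dvd_sum fun i _ => ?_
    by_cases h : j = i
    · subst h; simp
    · exact (dvd_cof p h).mul_right _
  choose c hc using h1
  refine ⟨∑ i, n i * B i, -∑ i, n i * A i, c, fun j => ⟨by rw [hG, hc], ?_⟩⟩
  refine IsCoprime.prod_right fun i hi => (h2 i).mul_left ?_
  refine IsCoprime.of_mul_left_right (x := (p j : ℤ)) (y := c j) (z := (p i : ℤ)) ?_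
  rw [← hc, ← Finset.add_sum_erase _ _ (mem_univ i)]
  obtain ⟨w, hw⟩ : (p i : ℤ) ∣ ∑ x ∈ univ.erase i, n x * (A j * B x - A x * B j) :=
    Finset.dvd_sum fun l hl => (dvd_cof p (mem_erase.1 hl).1.symm).mul_right _
  rw [hw]
  exact ((coprime_cof p hp i).mul_left (hD j i i (mem_erase.1 hi).1.symm)).add_mul_left_left w

end

end Vale.Agent.P110
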