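import Vale.Agent.P110.Cells
import Vale.Agent.P110.Gauss

open Finset
open scoped Real

namespace Vale.Agent.P110

def ColData {I : Type} (A : I → ℕ) (B : I → ℤ) (ρ : I → ℝ) (η : ℝ) : Prop :=
  ∃ (M : ℕ) (S : Type) (_ : Fintype S) (b₁ b₂ : S → ℤ) (y : S → I → ℕ), 0 < M ∧
    0 < Fintype.card S ∧ (∀ s j, y s j + A j ≤ M) ∧
    (∀ s j, (M : ℤ) ∣ y s j - (A j * b₁ s + B j * b₂ s)) ∧
    (∀ s s' i j, i ≠ j → ∀ e < A i, ∀ e' < A j, y s i + e ≠ y s' j + e') ∧
    (∀ s s' i j, ∀ e < A i, ∀ e' < A j, y s i + e + (y s' j + e') + 1 ≠ M) ∧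
    ∀ j y₀, ((univ.filter fun s => y s j = y₀).card : ℝ) * M * ρ j ^ 2 ≤ (1 + η) * Fintype.card S

lemma digit_eq {M a b a' b' : ℕ} (ha : a < M) (ha' : a' < M) (h : a + M * b = a' + M * b') :
    a = a' ∧ b = b' := by
  have h1 := congrArg (· % M) h
  simp only [Nat.add_mul_mod_self_left, Nat.mod_eq_of_lt ha, Nat.mod_eq_of_lt ha'] at h1
  subst h1
  exact ⟨rfl, Nat.eq_of_mul_eq_mul_left (by omega) (Nat.add_left_cancel h)⟩

lemma digit_refl {M a b a' b' q : ℕ} (ha : a < M) (ha' : a' < M)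
    (h : a + M * b + (a' + M * b') + 1 = q * M) : a + a' + 1 = M := by
  have h1 : M ∣ a + a' + 1 := by
    have : M ∣ a + a' + 1 + M * (b + b') := ⟨q, by linarith⟩
    exact (Nat.dvd_add_left (Dvd.intro _ rfl)).1 this
  obtain ⟨c, hc⟩ := h1
  have : c = 1 := by
    rcases c with _ | _ | c
    · omega
    · rfl
    · nlinarith
  rw [hc, this, mul_one]

lemma near_eq {A y y' e e' : ℕ} (h1 : y % A = y' % A) (he : e < A) (he' : e' < A)
    (h : y + e = y' + e') : y = y' := by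
  have h2 := Nat.mod_add_div y A
  have h3 := Nat.mod_add_div y' A
  have : y / A = y' / A := by
    rcases lt_trichotomy (y / A) (y' / A) with h4 | h4 | h4
    · have := Nat.mul_le_mul_left A (Nat.succ_le_of_lt h4)
      rw [Nat.mul_succ] at this; omega
    · exact h4
    · have := Nat.mul_le_mul_left A (Nat.succ_le_of_lt h4)
      rw [Nat.mul_succ] at this; omega
  rw [← h2, ← h3, h1, this]

lemma line_sum {n p M A col y : ℕ} (hn : 0 < n) (hp : 0 < p) (hM : 0 < M) {B b₁ b₂ f r d a₁ a₂ c k : ℤ}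
    {ω : ℕ → ℝ} {θ x : ℝ} (hf : y - (A * b₁ + B * b₂) = M * f) (hd : r * A + (f + col) = p * d)
    (hc : A * a₁ + B * a₂ = p * c)
    (hω : ∑ u ∈ range n, ee (ω u - k * u / n) = (√n : ℝ) * ee ((c * k ^ 2 + d * k) / n)) :
    ∑ u ∈ range n, ee (θ + ω u - k * (((y + M * (col + p * u) : ℕ) : ℝ) / (p * n * M : ℕ)) +
      A / (p * n * M : ℕ) * x) =
      (√n : ℝ) * ee (θ + A * ((x - k * b₁) / (p * n * M : ℕ) + (a₁ * k ^ 2 + k * r) / (p * n : ℕ)) +
        B * (-(k * b₂) / (p * n * M : ℕ) + a₂ * k ^ 2 / (p * n : ℕ))) := by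
  have hn' : (n : ℝ) ≠ 0 := by positivity
  have hp' : (p : ℝ) ≠ 0 := by positivity
  have hM' : (M : ℝ) ≠ 0 := by positivity
  have h1 : ∀ u : ℕ, ee (θ + ω u - k * (((y + M * (col + p * u) : ℕ) : ℝ) / (p * n * M : ℕ)) +
      A / (p * n * M : ℕ) * x) = ee (θ - k * (y + M * col) / (p * n * M) + A / (p * n * M) * x) *
        ee (ω u - k * u / n) := by
    intro u
    rw [← ee_add]; congr 1; push_cast; field_simp; ring
  simp_rw [h1]
  rw [← Finset.mul_sum, hω, mul_left_comm, ← ee_add]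
  congr 2
  have hf' : (y : ℝ) = A * b₁ + B * b₂ + M * f := by
    have : (y : ℝ) - (A * b₁ + B * b₂) = M * f := by exact_mod_cast hf
    linarith
  have hd' : (d : ℝ) = (r * A + (f + col)) / p := by
    rw [eq_div_iff hp']
    have : (r : ℝ) * A + (f + col) = p * d := by exact_mod_cast hd
    linarith
  have hc' : (c : ℝ) = (A * a₁ + B * a₂) / p := by
    rw [eq_div_iff hp']
    have : (A : ℝ) * a₁ + B * a₂ = p * c := by exact_mod_cast hc
    linarith
  rw [hf', hd', hc']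
  push_cast; field_simp; ring

lemma amp_close {ρ τ η : ℝ} (hρ : 0 < ρ) (hρ1 : ρ ≤ 1) (hη : 0 < η) (hτ : τ ≤ ρ ^ 2)
    (hτ' : ρ ^ 2 ≤ (1 + 2 * η) * τ) : |√τ - ρ| ≤ 2 * η := by
  have hτ0 : 0 ≤ τ := by
    by_contra h
    push Not at h
    nlinarith [sq_nonneg ρ]
  have h1 : √τ ≤ ρ := Real.sqrt_le_iff.2 ⟨hρ.le, hτ⟩
  have h2 := Real.sq_sqrt hτ0
  have h3 := Real.sqrt_nonneg τ
  have h4 : ρ ≤ (1 + 2 * η) * √τ := by
    apply le_of_sq_le_sq _ (by positivity) |>.trans le_rfl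
    rw [mul_pow, h2]; nlinarith [mul_nonneg hτ0 hη.le, mul_nonneg (mul_nonneg hτ0 hη.le) hη.le]
  rw [abs_le]; constructor <;> nlinarith

lemma exists_colours {I S : Type} [Fintype S] (A : I → ℕ) (hA : ∀ j, 0 < A j) (y : S → I → ℕ)
    (K : I → ℕ) (hK : ∀ j y₀, (univ.filter fun s => y s j = y₀).card ≤ K j) (V : ℕ) :
    ∃ col : S × Fin V → I → ℕ, (∀ s j, col s j < A j * K j * V) ∧
      ∀ s s' j, col s j = col s' j → ∀ e < A j, ∀ e' < A j, y s.1 j + e = y s'.1 j + e' →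
        s = s' := by
  choose idx h1 h2 using fun j => exists_index fun s => y s j
  have h3 : ∀ j s, idx j s < K j := fun j s => (h1 j s).trans_le (hK j _)
  refine ⟨fun s j => y s.1 j % A j + A j * (idx j s.1 + K j * s.2), fun s j => ?_,
    fun s s' j h e he e' he' hy => ?_⟩
  · have q1 := Nat.mod_lt (y s.1 j) (hA j)
    have q2 : idx j s.1 + K j * s.2 + 1 ≤ K j * V := by
      have := Nat.mul_le_mul_left (K j) (Nat.succ_le_of_lt s.2.2)
      have := h3 j s.1
      rw [Nat.mul_succ] at *; omega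
    have := Nat.mul_le_mul_left (A j) q2
    rw [mul_assoc]; dsimp only; rw [Nat.mul_succ] at this; omega
  · obtain ⟨q1, q2⟩ := digit_eq (Nat.mod_lt _ (hA j)) (Nat.mod_lt _ (hA j)) h
    obtain ⟨q3, q4⟩ := digit_eq (h3 j _) (h3 j _) q2
    exact Prod.ext (h2 j _ _ (near_eq q1 he he' hy) q3) (Fin.ext q4)

lemma moduli_setup {I S : Type} [Fintype I] [Fintype S] (A : I → ℕ) (B : I → ℤ) (ρ : I → ℝ)
    (hA : ∀ j, 0 < A j) (hD : ∀ i j, i ≠ j → (A i : ℤ) * B j ≠ A j * B i) (hρ : ∀ j, 0 < ρ j)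
    {η : ℝ} (hη : 0 < η) {M : ℕ} (hM : 0 < M) (hS : 0 < Fintype.card S) (y : S → I → ℕ)
    (hm : ∀ j y₀, ((univ.filter fun s => y s j = y₀).card : ℝ) * M * ρ j ^ 2 ≤
      (1 + η) * Fintype.card S) :
    ∃ (V : ℕ) (p : I → ℕ) (col : S × Fin V → I → ℕ), 0 < V ∧
      (∀ i j, i ≠ j → (p i).Coprime (p j)) ∧ (∀ j, IsCoprime (2 : ℤ) (p j)) ∧
      (∀ j, IsCoprime (A j : ℤ) (p j)) ∧
      (∀ i j l, i ≠ j → IsCoprime ((A i : ℤ) * B j - A j * B i) (p l)) ∧
      (∀ s j, col s j < p j) ∧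
      (∀ s s' j, col s j = col s' j → ∀ e < A j, ∀ e' < A j, y s.1 j + e = y s'.1 j + e' →
        s = s') ∧
      ∀ j, 0 < p j ∧ (A j : ℝ) / (p j * M) * Fintype.card (S × Fin V) ≤ ρ j ^ 2 ∧
        ρ j ^ 2 ≤ (1 + 2 * η) * ((A j : ℝ) / (p j * M) * Fintype.card (S × Fin V)) := by
  have hM' : (0 : ℝ) < M := by exact_mod_cast hM
  have hS' : (0 : ℝ) < Fintype.card S := by exact_mod_cast hS
  have hA' : ∀ j, (0 : ℝ) < A j := fun j => by exact_mod_cast hA j
  set R : I → ℝ := fun j => A j * Fintype.card S / (M * ρ j ^ 2) with hR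
  have hR0 : ∀ j, 0 < R j := fun j => by
    have := hA' j; have := hρ j
    simp only [hR]; positivity
  obtain ⟨V, p, hV, hp, hH, hb⟩ := exists_moduli R hR0 hη
    (2 + ∑ j, A j + ∑ i, ∑ j, ((A i : ℤ) * B j - A j * B i).natAbs)
  have hV' : (0 : ℝ) < V := by exact_mod_cast hV
  obtain ⟨col, hc1, hc2⟩ := exists_colours A hA y
    (fun j => ⌊(1 + η) * Fintype.card S / (M * ρ j ^ 2)⌋₊) (fun j y₀ => by
      apply Nat.le_floor
      have := hρ j
      rw [le_div_iff₀ (by positivity), ← mul_assoc]; exact hm j y₀) V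
  refine ⟨V, p, col, hV, hp, fun j => ?_, fun j => ?_, fun i j l hij => ?_, fun s j => ?_, hc2,
    fun j => ?_⟩
  · exact Nat.isCoprime_iff_coprime.2 (hH j 2 two_pos (by omega)).symm
  · have : A j ≤ ∑ j, A j := Finset.single_le_sum (fun _ _ => Nat.zero_le _) (mem_univ j)
    exact Nat.isCoprime_iff_coprime.2 (hH j _ (hA j) (by omega)).symm
  · have h1 : ((A i : ℤ) * B j - A j * B i).natAbs ≤
        ∑ i, ∑ j, ((A i : ℤ) * B j - A j * B i).natAbs :=
      (Finset.single_le_sum (f := fun j => ((A i : ℤ) * B j - A j * B i).natAbs)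
        (fun _ _ => Nat.zero_le _) (mem_univ j)).trans
        (Finset.single_le_sum (f := fun i => ∑ j, ((A i : ℤ) * B j - A j * B i).natAbs)
          (fun _ _ => Nat.zero_le _) (mem_univ i))
    have h2 := hH l _ (Int.natAbs_pos.2 (sub_ne_zero.2 (hD i j hij))) (by omega)
    rw [Int.isCoprime_iff_gcd_eq_one, Int.gcd_eq_natAbs, Int.natAbs_natCast]
    exact h2.symm
  · refine (hc1 s j).trans_le ?_
    have := hρ j
    have h1 : ((A j * ⌊(1 + η) * Fintype.card S / (M * ρ j ^ 2)⌋₊ * V : ℕ) : ℝ) ≤ p j := by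
      refine le_trans ?_ (hb j).1
      push_cast
      have h2 := Nat.floor_le (a := (1 + η) * Fintype.card S / (M * ρ j ^ 2)) (by positivity)
      calc _ ≤ A j * ((1 + η) * Fintype.card S / (M * ρ j ^ 2)) * V := by gcongr
        _ = _ := by simp only [hR]; ring
    exact_mod_cast h1
  · have := hρ j
    have h0 := hR0 j
    have hp0 : (0 : ℝ) < p j := lt_of_lt_of_le (by positivity) (hb j).1
    have e : (A j : ℝ) / (p j * M) * Fintype.card (S × Fin V) = ρ j ^ 2 * (R j * V / p j) := by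
      simp only [hR, Fintype.card_prod, Fintype.card_fin]; push_cast; field_simp
    rw [e]
    refine ⟨by exact_mod_cast hp0, ?_, ?_⟩
    · apply mul_le_of_le_one_right (by positivity)
      rw [div_le_one hp0]
      nlinarith [(hb j).1, mul_pos h0 hV']
    · rw [mul_left_comm]
      apply le_mul_of_one_le_right (by positivity)
      rw [← mul_div_assoc, one_le_div hp0]
      linarith [(hb j).2]

lemma slot_bound {I : Type} [Fintype I] {ρ τ φ : I → ℝ} {η η' s : ℝ} (hs : 0 < s) (hη' : 0 < η')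
    (hρ : ∀ j, 0 < ρ j) (hρ1 : ∑ j, 2 * ρ j ^ 2 = 1) (hτ0 : ∀ j, 0 ≤ τ j)
    (hτ : ∀ j, τ j * s ≤ ρ j ^ 2 ∧ ρ j ^ 2 ≤ (1 + 2 * η') * (τ j * s))
    (hF : |∑ j, 2 * ρ j * φ j| ≤ 1 + η) (hφ : ∀ j, |φ j| ≤ 1)
    (hI : Fintype.card I * (4 * η') ≤ η) :
    |∑ j, 2 * √(τ j) * φ j| ≤ (1 + 2 * η) / √s := by
  have hs' := Real.sqrt_pos.2 hs
  rw [le_div_iff₀ hs', ← abs_of_pos hs', ← abs_mul, Finset.sum_mul]
  have h1 : ∑ j, 2 * √(τ j) * φ j * √s =
      ∑ j, 2 * ρ j * φ j + ∑ j, 2 * (√(τ j * s) - ρ j) * φ j := by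
    rw [← Finset.sum_add_distrib]
    refine Finset.sum_congr rfl fun j _ => ?_
    rw [Real.sqrt_mul (hτ0 j)]; ring
  have h2 : |∑ j, 2 * (√(τ j * s) - ρ j) * φ j| ≤ ∑ _j : I, 4 * η' := by
    refine (Finset.abs_sum_le_sum_abs _ _).trans (Finset.sum_le_sum fun j _ => ?_)
    have h3 : 2 * ρ j ^ 2 ≤ 1 := hρ1 ▸ Finset.single_le_sum (f := fun j => 2 * ρ j ^ 2)
      (fun _ _ => by positivity) (mem_univ j)
    have h4 := amp_close (hρ j) (by nlinarith [hρ j]) hη' (hτ j).1 (hτ j).2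
    rw [abs_mul, abs_mul, abs_two]
    calc _ ≤ 2 * (2 * η') * 1 := by gcongr; exact hφ j
      _ = _ := by ring
  rw [Finset.sum_const, card_univ, nsmul_eq_mul] at h2
  rw [h1]
  refine (abs_add_le _ _).trans ?_
  linarith

theorem cells_of {I : Type} [Fintype I] [DecidableEq I] {A : I → ℕ} {B : I → ℤ} {ρ θ : I → ℝ}
    {η η' : ℝ} (hη' : 0 < η') (hI : Fintype.card I * (4 * η') ≤ η) (hη : η' ≤ η)
    (hA : ∀ j, 0 < A j) (hD : ∀ i j, i ≠ j → (A i : ℤ) * B j ≠ A j * B i) (hρ : ∀ j, 0 < ρ j)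
    (hρ1 : ∑ j, 2 * ρ j ^ 2 = 1)
    (hF : ∀ x y : ℝ, |∑ j, 2 * ρ j * (ee (θ j + A j * x + B j * y)).re| ≤ 1 + η)
    (hC : ColData A B ρ η') : CellDesign (2 * η) := by
  classical
  obtain ⟨M, S, _, b₁, b₂, y, hM, hS, hy, hdiv, hdis, hrefl, hm⟩ := hC
  obtain ⟨V, p, col, hV, hp, h2, hAp, hDp, hcol, hinj, hb⟩ :=
    moduli_setup A B ρ hA hD hρ hη' hM hS y hm
  set n : I → ℕ := fun j => ∏ l ∈ univ.erase j, p l with hn
  set q := ∏ l, p l with hq
  have hpn : ∀ j, p j * n j = q := fun j => Finset.mul_prod_erase _ _ (mem_univ j)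
  have hn0 : ∀ j, 0 < n j := fun j => Finset.prod_pos fun l _ => (hb l).1
  have hq0 : 0 < q := Finset.prod_pos fun l _ => (hb l).1
  choose f hf using hdiv
  choose r hr using fun s : S × Fin V => crt p hp (fun j => A j) (fun j => f s.1 j + col s j) hAp
  choose d hd using hr
  obtain ⟨a₁, a₂, c, hc⟩ := quad_coeffs p hp (fun j => A j) B h2 hDp
  choose ω hω using fun (s : S × Fin V) j => gauss_split (hn0 j) (c j) (d s j) (by
    simp only [hn]; push_cast; exact (hc j).2)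
  have hcell : ∀ s j e, e < A j → y s j + e < M := fun s j e he => by have := hy s j; omega
  have hS' : 0 < Fintype.card (S × Fin V) := by simp [hS, hV]
  have hM' : (0 : ℝ) < M := by exact_mod_cast hM
  have hτ : ∀ j, (n j : ℝ) * (A j / (q * M : ℕ)) = A j / (p j * M) := by
    intro j
    have : (0 : ℝ) < n j := by exact_mod_cast hn0 j
    have : (0 : ℝ) < p j := by exact_mod_cast (hb j).1
    rw [← hpn j]; push_cast; field_simp
  refine ⟨(S × Fin V) × (Σ j, Fin (n j)), S × Fin V, inferInstance, inferInstance, inferInstance,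
    q * M, fun i => y i.1.1 i.2.1 + M * (col i.1 i.2.1 + p i.2.1 * i.2.2), fun i => A i.2.1,
    fun i => θ i.2.1 + ω i.1 i.2.1 i.2.2, Prod.fst, by positivity, hS', fun i => hA _,
    ?_, ?_, ?_, ?_, ?_⟩
  · rintro ⟨s, j, u⟩
    have q1 : col s j + p j * u + 1 ≤ q := by
      have := Nat.mul_le_mul_left (p j) (Nat.succ_le_of_lt u.2)
      have := hcol s j
      rw [← hpn j]; rw [Nat.mul_succ] at *; omega
    have q2 := Nat.mul_le_mul_left M q1
    have := hy s.1 j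
    rw [mul_comm q]; dsimp only; rw [Nat.mul_succ] at q2; omega
  · rintro ⟨s, j, u⟩ ⟨s', j', u'⟩ hne e he e' he' h
    dsimp only at he he' h
    obtain ⟨q1, q2⟩ := digit_eq (b := col s j + p j * u) (b' := col s' j' + p j' * u')
      (hcell s.1 j e he) (hcell s'.1 j' e' he') (by omega)
    by_cases hj : j = j'
    · subst hj
      obtain ⟨q3, q4⟩ := digit_eq (hcol s j) (hcol s' j) q2
      obtain rfl := hinj s s' j q3 e he e' he' q1
      exact hne (by rw [Fin.ext q4])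
    · exact hdis _ _ _ _ hj e he e' he' q1
  · rintro ⟨s, j, u⟩ ⟨s', j', u'⟩ e he e' he' h
    dsimp only at he he' h
    exact hrefl _ _ _ _ e he e' he' (digit_refl (b := col s j + p j * u)
      (b' := col s' j' + p j' * u') (q := q) (hcell s.1 j e he) (hcell s'.1 j' e' he') (by omega))
  · rw [Fintype.sum_prod_type]
    simp only [Fintype.sum_sigma, sum_const, card_univ, Fintype.card_fin, nsmul_eq_mul]
    have hZ : (0 : ℝ) < (q * M : ℕ) := by positivity
    calc (1 - 2 * η) * (q * M : ℕ) ≤ (∑ j, (1 - 2 * η') * (2 * ρ j ^ 2)) * (q * M : ℕ) := by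
          rw [← Finset.mul_sum, hρ1, mul_one]; gcongr
      _ ≤ (∑ j, 2 * ((A j : ℝ) / (p j * M) * Fintype.card (S × Fin V))) * (q * M : ℕ) := by
          refine mul_le_mul_of_nonneg_right (Finset.sum_le_sum fun j _ => ?_) hZ.le
          have q1 := (hb j).2.2
          have q2 : 0 ≤ (A j : ℝ) / (p j * M) * Fintype.card (S × Fin V) := by positivity
          generalize (A j : ℝ) / (p j * M) * Fintype.card (S × Fin V) = t at q1 q2 ⊢
          by_cases q3 : 0 ≤ 1 - 2 * η'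
          · nlinarith [mul_le_mul_of_nonneg_left q1 q3, mul_nonneg q2 (sq_nonneg η')]
          · nlinarith [sq_nonneg (ρ j)]
      _ = _ := by
          rw [Finset.sum_mul, Finset.mul_sum, Finset.mul_sum]
          refine Finset.sum_congr rfl fun j _ => ?_
          rw [← hτ j]; field_simp
  · intro σ k x
    rw [Finset.sum_filter, Fintype.sum_prod_type, Finset.sum_eq_single σ (fun b _ hb => by
      simp [hb]) (by simp), Fintype.sum_sigma]
    simp only [if_true]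
    have e1 : ∀ j, ∑ u : Fin (n j), 2 * (ee (θ j + ω σ j u - k * (((y σ.1 j +
        M * (col σ j + p j * u) : ℕ) : ℝ) / (q * M : ℕ)) + A j / (q * M : ℕ) * x)).re *
          √(A j / (q * M : ℕ)) = 2 * √(A j / (p j * M)) * (ee (θ j +
          A j * ((x - k * b₁ σ.1) / (q * M : ℕ) + (a₁ * k ^ 2 + k * r σ) / q) +
          B j * (-(k * b₂ σ.1) / (q * M : ℕ) + a₂ * k ^ 2 / q))).re := by
      intro j
      have := line_sum (θ := θ j) (x := x) (hn0 j) (hb j).1 hM (hf σ.1 j) (hd σ j) (hc j).1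
        (hω σ j k)
      rw [hpn j, Finset.sum_range] at this
      rw [← Finset.sum_mul, ← Finset.mul_sum, ← Complex.re_sum, this, Complex.re_ofReal_mul,
        ← hτ j, Real.sqrt_mul (by positivity)]
      ring
    rw [Finset.sum_congr rfl fun j _ => e1 j]
    exact slot_bound (by exact_mod_cast hS') hη' hρ hρ1 (fun j => by positivity)
      (fun j => (hb j).2) (hF _ _)
      (fun j => (Complex.abs_re_le_norm _).trans (norm_ee _).le) hI

end Vale.Agent.P110
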