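import Vale.Agent.P110.Color
import Vale.Agent.P110.Lines

open Finset

namespace Vale.Agent.P110

def fold (L r : ℕ) : ℕ := if L < r then 2 * L - r else r

lemma fold_le {L r : ℕ} : fold L r ≤ L := by
  unfold fold; split_ifs <;> omega

lemma fold_div_lt {n W r : ℕ} (hW : 0 < W) : fold (n * W) r / W < n + 1 :=
  Nat.lt_succ_of_le (Nat.div_le_of_le_mul (by rw [mul_comm]; exact fold_le))

lemma good_shift {n W H y e : ℕ} (hy : y < 2 * (n * W) + 1) (h1 : H ≤ fold (n * W) y % W)
    (h2 : fold (n * W) y % W + H < W) (he : e < H) :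
    fold (n * W) (y + e) / W = fold (n * W) y / W ∧ (n * W < y + e ↔ n * W < y) ∧
      y + e < 2 * (n * W) + 1 ∧ y + e ≠ n * W := by
  have q1 := Nat.div_add_mod' (fold (n * W) y) W
  have q2 : fold (n * W) y ≤ n * W := fold_le
  generalize hQ : fold (n * W) y / W = Q at *
  generalize fold (n * W) y % W = R at *
  have q3 : Q + 1 ≤ n := by
    by_contra h
    have := Nat.mul_le_mul_right W (show n ≤ Q by omega)
    omega
  have q4 := Nat.mul_le_mul_right W q3
  rw [Nat.succ_mul] at q4
  unfold fold at *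
  refine ⟨Nat.div_eq_of_lt_le ?_ ?_, ?_, ?_, ?_⟩
  · split_ifs at * <;> omega
  · rw [add_mul, one_mul]; split_ifs at * <;> omega
  · split_ifs at * <;> omega
  · split_ifs at * <;> omega
  · split_ifs at * <;> omega

lemma count_fold (n W : ℕ) (P Q : Finset ℕ) (S : Finset (ZMod (2 * (n * W) + 1)))
    (h : ∀ g ∈ S, fold (n * W) g.val / W ∈ P ∧ fold (n * W) g.val % W ∈ Q) :
    S.card ≤ 2 * (P.card * Q.card) := by
  have := Finset.card_le_card_of_injOn (s := S) (t := (univ : Finset Bool) ×ˢ P ×ˢ Q)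
    (fun g => (decide (n * W < g.val), fold (n * W) g.val / W, fold (n * W) g.val % W))
    (fun g hg => by simpa [lt_or_ge] using h g hg) (fun g _ g' _ hgg => by
      simp only [Prod.mk.injEq, decide_eq_decide] at hgg
      have q1 := Nat.div_add_mod' (fold (n * W) g.val) W
      have q2 := Nat.div_add_mod' (fold (n * W) g'.val) W
      rw [hgg.2.1, hgg.2.2, q2] at q1
      have q3 := ZMod.val_lt g
      have q4 := ZMod.val_lt g'
      have q5 := hgg.1
      apply ZMod.val_injective
      unfold fold at q1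
      split_ifs at q1 <;> omega)
  simpa using this

lemma isUnit_of_dvd {n W : ℕ} {d : ℤ} (h : d ∣ W) : IsUnit (d : ZMod (2 * (n * W) + 1)) := by
  obtain ⟨t, ht⟩ := h
  have h1 := ZMod.natCast_self (2 * (n * W) + 1)
  have h2 := congrArg (Int.cast : ℤ → ZMod (2 * (n * W) + 1)) ht
  push_cast at h1 h2
  refine IsUnit.of_mul_eq_one (-(2 * n * t)) ?_
  linear_combination -h1 + 2 * n * h2

lemma colData_of {I : Type} [Fintype I] [DecidableEq I] {A : I → ℕ} {B : I → ℤ} {ρ : I → ℝ}
    {η κ : ℝ} (hη : 0 < η) (hρ : ∀ j, 0 < ρ j) (hρ1 : ∑ j, 2 * ρ j ^ 2 = 1) {n W H : ℕ}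
    (hW : 0 < W) (hH : ∀ j, A j < H) (hA : ∀ j, (A j : ℤ) ∣ W)
    (hD : ∀ i j, i ≠ j → (A i : ℤ) * B j - A j * B i ∣ W)
    (hκ : Fintype.card I * ((2 * ((n + 1) * (2 * H)) : ℕ) : ℝ) +
      Fintype.card I ^ 2 * ((2 * W : ℕ) : ℝ) ≤ κ * (2 * (n * W) + 1 : ℕ))
    (hsmall : κ * (∏ i, ρ i ^ 2 + Fintype.card I * ((1 + η) / (η ^ 2 * ∏ i, ρ i ^ 2) * 3)) ≤
      (∏ i, ρ i ^ 2) * (η / (1 + η))) : ColData A B ρ ((1 + η) ^ 2 - 1) := by
  set m : I → ZMod (2 * (n * W) + 1) × ZMod (2 * (n * W) + 1) → ZMod (2 * (n * W) + 1) :=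
    fun j ω => (A j : ℤ) * ω.1 + B j * ω.2 with hm
  obtain ⟨c, S, hS, h1, h2⟩ := abstract_colour m
    (fun g => (⟨fold (n * W) g.val / W, fold_div_lt hW⟩ : Fin (n + 1)))
    (fun g => decide (n * W < g.val)) (fun j => ρ j ^ 2) (fun j => pow_pos (hρ j) 2)
    (by rw [← hρ1, Fintype.sum_prod_type]; simp) (M := (2 * (n * W) + 1 : ℕ))
    (W := (2 * W : ℕ)) (by positivity) (by simp [sq]) (by simp) (by positivity)
    (fun j y => by
      have := Finset.card_le_card_of_injOn (s := univ.filter fun ω => m j ω = y) (t := univ)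
        Prod.snd (by simp) (fun ω h ω' h' h2 => by
          simp only [coe_filter, mem_univ, true_and, Set.mem_ofPred_eq, hm] at h h'
          refine Prod.ext ((isUnit_of_dvd (hA j)).mul_left_cancel ?_) h2
          rw [h2] at h
          linear_combination h - h')
      rw [card_univ, ZMod.card] at this
      exact_mod_cast this)
    (fun i j hij y b => by
      have q1 := Finset.card_le_card_of_injOn (s := univ.filter fun ω => m j ω = y ∧
          (⟨fold (n * W) (m i ω).val / W, fold_div_lt hW⟩ : Fin (n + 1)) = b)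
        (t := univ.filter fun g : ZMod (2 * (n * W) + 1) => fold (n * W) g.val / W = b) (m i)
        (fun ω h => by
          simp only [coe_filter, mem_univ, true_and, Set.mem_ofPred_eq] at h ⊢
          rw [← h.2]) (fun ω h ω' h' h2 => by
          simp only [coe_filter, mem_univ, true_and, Set.mem_ofPred_eq, hm] at h h' h2
          have hu := isUnit_of_dvd (n := n) (hD i j hij)
          push_cast at hu h h' h2
          refine Prod.ext (hu.mul_left_cancel ?_) (hu.mul_left_cancel ?_)
          · linear_combination (B j : ZMod (2 * (n * W) + 1)) * h2 -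
              (B i : ZMod (2 * (n * W) + 1)) * (h.1 - h'.1)
          · linear_combination (A i : ZMod (2 * (n * W) + 1)) * (h.1 - h'.1) -
              (A j : ZMod (2 * (n * W) + 1)) * h2)
      have q2 := count_fold n W {(b : ℕ)} (range W)
        (univ.filter fun g : ZMod (2 * (n * W) + 1) => fold (n * W) g.val / W = b)
        (fun g hg => ⟨by simpa using hg, mem_range.2 (Nat.mod_lt _ hW)⟩)
      rw [card_singleton, card_range, one_mul] at q2
      exact_mod_cast q1.trans q2)
    (univ.filter fun g => ¬ (H ≤ fold (n * W) g.val % W ∧ fold (n * W) g.val % W + H < W))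
    (W' := (2 * ((n + 1) * (2 * H)) : ℕ)) (by
      have q := count_fold n W (range (n + 1)) (range H ∪ Ico (W - H) W)
        (univ.filter fun g => ¬ (H ≤ fold (n * W) g.val % W ∧ fold (n * W) g.val % W + H < W))
        (fun g hg => ⟨mem_range.2 (fold_div_lt hW), by
          have := (mem_filter.1 hg).2
          have := Nat.mod_lt (fold (n * W) g.val) hW
          simp only [mem_union, mem_range, mem_Ico]; omega⟩)
      have q2 : (range H ∪ Ico (W - H) W).card ≤ 2 * H := by
        refine (card_union_le _ _).trans ?_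
        rw [card_range, Nat.card_Ico]; omega
      rw [card_range] at q
      exact_mod_cast q.trans (by gcongr)) hκ hη hsmall
  have hgood : ∀ s : S, ∀ j, ∀ e ≤ A j, fold (n * W) ((m j s.1).val + e) / W =
      fold (n * W) (m j s.1).val / W ∧ (n * W < (m j s.1).val + e ↔ n * W < (m j s.1).val) ∧
      (m j s.1).val + e < 2 * (n * W) + 1 ∧ (m j s.1).val + e ≠ n * W := by
    intro s j e he
    have := (h1 s.1 s.2 j).1
    simp only [mem_filter, mem_univ, true_and, not_not] at this
    exact good_shift (ZMod.val_lt _) this.1 this.2 (he.trans_lt (hH j))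
  have hcol : ∀ (s s' : S) i j, fold (n * W) (m i s.1).val / W = fold (n * W) (m j s'.1).val / W →
      i = j ∧ (n * W < (m i s.1).val ↔ n * W < (m j s'.1).val) := by
    intro s s' i j h
    have q1 := (h1 s.1 s.2 i).2
    have q2 := (h1 s'.1 s'.2 j).2
    simp only [h] at q1
    simpa using q1.symm.trans q2
  refine ⟨2 * (n * W) + 1, S, inferInstance, fun s => s.1.1.val, fun s => s.1.2.val,
    fun s j => (m j s.1).val, by omega, by simpa using hS, fun s j => (hgood s j _ le_rfl).2.2.1.le,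
    fun s j => ?_, fun s s' i j hij e he e' he' h => ?_, fun s s' i j e he e' he' h => ?_,
    fun j y₀ => ?_⟩
  · rw [← ZMod.intCast_zmod_eq_zero_iff_dvd]
    simp [hm]
  · have q1 := hgood s i e he.le
    have q2 := hgood s' j e' he'.le
    dsimp only at h
    exact hij (hcol s s' i j (by rw [← q1.1, ← q2.1, h])).1
  · have q1 := hgood s i e he.le
    have q2 := hgood s' j e' he'.le
    dsimp only at h
    have q3 : fold (n * W) ((m i s.1).val + e) = fold (n * W) ((m j s'.1).val + e') := by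
      unfold fold; split_ifs <;> omega
    have := (hcol s s' i j (by rw [← q1.1, ← q2.1, q3])).2
    omega
  · have q1 : (univ.filter fun s : S => (m j s.1).val = y₀).card ≤
        (S.filter fun ω => m j ω = (y₀ : ZMod (2 * (n * W) + 1))).card :=
      Finset.card_le_card_of_injOn Subtype.val (fun s hs => by
        simp only [coe_filter, mem_univ, true_and, Set.mem_ofPred_eq] at hs ⊢
        exact ⟨s.2, by rw [← hs]; simp⟩) Subtype.val_injective.injOn
    rw [add_sub_cancel, Fintype.card_coe]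
    refine le_trans ?_ (h2 j y₀)
    gcongr

theorem colData {I : Type} [Fintype I] [DecidableEq I] {A : I → ℕ} {B : I → ℤ} {ρ : I → ℝ}
    (hA : ∀ j, 0 < A j) (hD : ∀ i j, i ≠ j → (A i : ℤ) * B j ≠ A j * B i) (hρ : ∀ j, 0 < ρ j)
    (hρ1 : ∑ j, 2 * ρ j ^ 2 = 1) {η : ℝ} (hη : 0 < η) : ColData A B ρ η := by
  set e := √(1 + η) - 1 with he
  have he0 : 0 < e := by
    rw [he, sub_pos, Real.lt_sqrt (by norm_num)]; linarith
  have he1 : η = (1 + e) ^ 2 - 1 := by
    rw [he, add_sub_cancel, Real.sq_sqrt (by linarith)]; ring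
  have hP : 0 < ∏ i, ρ i ^ 2 := Finset.prod_pos fun i _ => pow_pos (hρ i) 2
  set κ := (∏ i, ρ i ^ 2) * (e / (1 + e)) /
    (∏ i, ρ i ^ 2 + Fintype.card I * ((1 + e) / (e ^ 2 * ∏ i, ρ i ^ 2) * 3)) with hκ
  have hκ0 : 0 < κ := by positivity
  set H := ∑ j, A j + 1 with hH
  obtain ⟨n, hn⟩ := exists_nat_gt (2 * Fintype.card I ^ 2 / κ)
  obtain ⟨K, hK⟩ := exists_nat_ge (8 * Fintype.card I * H / κ)
  have hn0 : (0 : ℝ) < n := lt_of_le_of_lt (by positivity) hn
  have hn1 : (1 : ℝ) ≤ n := by exact_mod_cast (Nat.cast_pos.1 hn0 : 0 < n)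
  have hAH : ∀ j, A j < H := fun j => Nat.lt_succ_of_le
    (Finset.single_le_sum (fun _ _ => Nat.zero_le _) (mem_univ j))
  rw [he1]
  refine colData_of (κ := κ) (n := n) (H := H)
    (W := (K + H + ∑ i, ∑ j, ((A i : ℤ) * B j - A j * B i).natAbs).factorial) he0 hρ hρ1
    (Nat.factorial_pos _) hAH (fun j => ?_) (fun i j hij => ?_) ?_
    (le_of_eq (div_mul_cancel₀ _ (by positivity)))
  · have := hAH j
    exact_mod_cast Nat.dvd_factorial (hA j) (by omega)
  · have h1 : ((A i : ℤ) * B j - A j * B i).natAbs ≤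
        ∑ i, ∑ j, ((A i : ℤ) * B j - A j * B i).natAbs :=
      (Finset.single_le_sum (f := fun j => ((A i : ℤ) * B j - A j * B i).natAbs)
        (fun _ _ => Nat.zero_le _) (mem_univ j)).trans
        (Finset.single_le_sum (f := fun i => ∑ j, ((A i : ℤ) * B j - A j * B i).natAbs)
          (fun _ _ => Nat.zero_le _) (mem_univ i))
    rw [← Int.natAbs_dvd, Int.natCast_dvd_natCast]
    exact Nat.dvd_factorial (Int.natAbs_pos.2 (sub_ne_zero.2 (hD i j hij))) (by omega)
  · have h1 : (K : ℝ) ≤ (K + H + ∑ i, ∑ j, ((A i : ℤ) * B j - A j * B i).natAbs).factorial := by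
      exact_mod_cast le_trans (by omega) (Nat.self_le_factorial _)
    generalize (K + H + ∑ i, ∑ j, ((A i : ℤ) * B j - A j * B i).natAbs).factorial = W at h1
    have h2 := hK.trans h1
    rw [div_le_iff₀ hκ0] at h2
    rw [div_lt_iff₀ hκ0] at hn
    push_cast
    have h3 : (0 : ℝ) ≤ W := by positivity
    have h4 : (0 : ℝ) ≤ Fintype.card I * H := by positivity
    nlinarith [mul_le_mul_of_nonneg_left h2 hn0.le, mul_le_mul_of_nonneg_left hn.le h3,
      mul_le_mul_of_nonneg_left hn1 h4]

end Vale.Agent.P110
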