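import Vale.Agent.P110.Core

open Finset
open scoped Real

namespace Vale.Agent.P110

lemma tiling_of_cells {ι : Type*} [Fintype ι] {W : ℕ} (hW : 0 < W) (y L : ι → ℕ)
    (hL : ∀ i, 0 < L i) (hy : ∀ i, y i + L i ≤ W)
    (hd : ∀ i j, i ≠ j → y i + L i ≤ y j ∨ y j + L j ≤ y i)
    (hc : ∀ c < W, ∃ i, y i ≤ c ∧ c < y i + L i) :
    Tiling (fun i => (y i : ℝ) / W) (fun i => (L i : ℝ) / W) := by
  have hW' : (0 : ℝ) < W := by exact_mod_cast hW
  refine ⟨fun i => div_pos (by exact_mod_cast hL i) hW', fun i => by positivity, fun i => ?_,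
    fun i j hij => ?_, ?_⟩
  · rw [← add_div, div_le_one hW']; exact_mod_cast hy i
  · rw [← add_div, ← add_div, div_le_div_iff_of_pos_right hW', div_le_div_iff_of_pos_right hW']
    exact_mod_cast hd i j hij
  · have h1 : (univ.biUnion fun i => Ico (y i) (y i + L i)) = range W := by
      ext c
      simp only [mem_biUnion, mem_univ, true_and, mem_Ico, mem_range]
      exact ⟨fun ⟨i, h⟩ => h.2.trans_le (hy i), hc c⟩
    have h2 := congrArg card h1
    rw [card_biUnion, card_range] at h2
    · simp only [Nat.card_Ico, add_tsub_cancel_left] at h2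
      rw [← Finset.sum_div, div_eq_one_iff_eq hW'.ne']
      exact_mod_cast h2
    · intro i _ j _ hij
      rw [Function.onFun, Finset.disjoint_left]
      intro c h1 h2
      rw [mem_Ico] at h1 h2
      have := hd i j hij
      omega

lemma tiling_double {ι : Type*} [Fintype ι] {W : ℕ} (hW : 0 < W) (y L : ι → ℕ)
    (hL : ∀ i, 0 < L i) (hy : ∀ i, y i + L i ≤ W)
    (hd : ∀ i j, i ≠ j → ∀ c, y i ≤ c → c < y i + L i → y j ≤ c → c < y j + L j → False)
    (hr : ∀ i j c c', y i ≤ c → c < y i + L i → y j ≤ c' → c' < y j + L j → c + c' + 1 ≠ W)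
    (hc : ∀ c < W, (∃ i, y i ≤ c ∧ c < y i + L i) ∨
      ∃ i, y i ≤ W - 1 - c ∧ W - 1 - c < y i + L i) :
    Tiling (Sum.elim (fun i => (y i : ℝ) / W) fun i => 1 - (y i : ℝ) / W - (L i : ℝ) / W)
      (Sum.elim (fun i => (L i : ℝ) / W) fun i => (L i : ℝ) / W) := by
  have hW' : (0 : ℝ) < W := by exact_mod_cast hW
  have hd' : ∀ i j, i ≠ j → y i + L i ≤ y j ∨ y j + L j ≤ y i := by
    intro i j hij
    by_contra h
    have := hL i
    have := hL j
    exact hd i j hij (max (y i) (y j)) (by omega) (by omega) (by omega) (by omega)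
  have hr' : ∀ i j, y i + L i ≤ W - y j - L j ∨ W - y j - L j + L j ≤ y i := by
    intro i j
    by_contra h
    have := hL i
    have := hL j
    have := hy i
    have := hy j
    exact hr i j (max (y i) (W - y j - L j)) (W - 1 - max (y i) (W - y j - L j))
      (by omega) (by omega) (by omega) (by omega) (by omega)
  have := tiling_of_cells hW (Sum.elim y fun i => W - y i - L i) (Sum.elim L L)
    (by rintro (i | i) <;> exact hL i)
    (by
      rintro (i | i)
      · exact hy i
      · have := hy i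
        simp only [Sum.elim_inr]; omega)
    (by
      rintro (i | i) (j | j) hij <;> simp only [Sum.elim_inl, Sum.elim_inr]
      · exact hd' i j (by simpa using hij)
      · exact hr' i j
      · exact (hr' j i).symm
      · have := hd' i j (by simpa using hij)
        have := hy i
        have := hy j
        omega)
    (by
      intro c hcW
      rcases hc c hcW with ⟨i, hi⟩ | ⟨i, hi⟩
      · exact ⟨Sum.inl i, hi⟩
      · refine ⟨Sum.inr i, ?_⟩
        have := hy i
        simp only [Sum.elim_inr]; omega)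
  have e1 : (Sum.elim (fun i => (y i : ℝ) / W) fun i => 1 - (y i : ℝ) / W - (L i : ℝ) / W) =
      fun i => ((Sum.elim y (fun i => W - y i - L i) i : ℕ) : ℝ) / W := by
    ext (i | i)
    · rfl
    · have := hy i
      simp only [Sum.elim_inr]
      rw [Nat.cast_sub (by omega), Nat.cast_sub (by omega)]; field_simp
  have e2 : (Sum.elim (fun i => (L i : ℝ) / W) fun i => (L i : ℝ) / W) =
      fun i => ((Sum.elim L L i : ℕ) : ℝ) / W := by
    ext (i | i) <;> rfl
  rw [e1, e2]; exact this

/-- Integer form of the design. -/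
def CellDesign (η : ℝ) : Prop :=
  ∃ (U S : Type) (_ : Fintype U) (_ : Fintype S) (_ : DecidableEq S) (Z : ℕ) (z A : U → ℕ)
    (ξ : U → ℝ) (s : U → S), 0 < Z ∧ 0 < Fintype.card S ∧ (∀ i, 0 < A i) ∧ (∀ i, z i + A i ≤ Z) ∧
      (∀ i j, i ≠ j → ∀ e < A i, ∀ e' < A j, z i + e ≠ z j + e') ∧
      (∀ i j, ∀ e < A i, ∀ e' < A j, z i + e + (z j + e') + 1 ≠ Z) ∧
      (1 - η) * Z ≤ 2 * ∑ i, (A i : ℝ) ∧ ∀ (σ : S) (k : ℤ) (x : ℝ),
        |∑ i with s i = σ, 2 * (ee (ξ i - k * (z i / Z) + A i / Z * x)).re * √(A i / Z)| ≤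
          (1 + η) / √(Fintype.card S)

theorem design_of_cells {η : ℝ} (hη : 0 < η) (hη1 : η ≤ 1) (h : CellDesign η) :
    Design (5 * η) := by
  classical
  obtain ⟨U, S, _, _, _, Z, z, A, ξ, s, hZ, hS, hA, hz, hd, hr, hcov, hb⟩ := h
  have hZ' : (0 : ℝ) < Z := by exact_mod_cast hZ
  have hS' : (0 : ℝ) < Fintype.card S := by exact_mod_cast hS
  set E := (range Z).filter fun c => ∀ i, ¬ (2 * z i ≤ c ∧ c < 2 * z i + 2 * A i) ∧
    ¬ (2 * z i ≤ 2 * Z - 1 - c ∧ 2 * Z - 1 - c < 2 * z i + 2 * A i) with hE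
  have hE' : ∀ c : E, c.1 < Z ∧ ∀ i, ¬ (2 * z i ≤ c.1 ∧ c.1 < 2 * z i + 2 * A i) ∧
    ¬ (2 * z i ≤ 2 * Z - 1 - c.1 ∧ 2 * Z - 1 - c.1 < 2 * z i + 2 * A i) := fun c => by
    have := mem_filter.1 c.2
    exact ⟨mem_range.1 this.1, this.2⟩
  have hT := tiling_double (ι := U ⊕ E) (W := 2 * Z) (by omega)
    (Sum.elim (fun i => 2 * z i) fun c => c.1) (Sum.elim (fun i => 2 * A i) fun _ => 1)
    (by
      rintro (i | c)
      · have := hA i
        simp only [Sum.elim_inl]; omega
      · simp)
    (by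
      rintro (i | c)
      · have := hz i
        simp only [Sum.elim_inl]; omega
      · have := (hE' c).1
        simp only [Sum.elim_inr]; omega)
    (by
      rintro (i | c) (j | c') hij x <;> simp only [Sum.elim_inl, Sum.elim_inr] <;>
        intro h1 h2 h3 h4
      · exact hd i j (by simpa using hij) (x / 2 - z i) (by omega) (x / 2 - z j) (by omega)
          (by omega)
      · have := ((hE' c').2 i).1
        omega
      · have := ((hE' c).2 j).1
        omega
      · exact hij (congrArg _ (Subtype.ext (by omega))))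
    (by
      rintro (i | c) (j | c') x x' <;> simp only [Sum.elim_inl, Sum.elim_inr] <;>
        intro h1 h2 h3 h4 h5
      · exact hr i j (x / 2 - z i) (by omega) (x' / 2 - z j) (by omega) (by omega)
      · have := ((hE' c').2 i).2
        omega
      · have := ((hE' c).2 j).2
        omega
      · have := (hE' c).1
        have := (hE' c').1
        omega)
    (by
      intro c hc
      by_cases h1 : ∃ i, 2 * z i ≤ c ∧ c < 2 * z i + 2 * A i
      · obtain ⟨i, hi⟩ := h1
        exact Or.inl ⟨Sum.inl i, hi⟩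
      by_cases h2 : ∃ i, 2 * z i ≤ 2 * Z - 1 - c ∧ 2 * Z - 1 - c < 2 * z i + 2 * A i
      · obtain ⟨i, hi⟩ := h2
        exact Or.inr ⟨Sum.inl i, hi⟩
      rw [not_exists] at h1 h2
      by_cases h3 : c < Z
      · exact Or.inl ⟨Sum.inr ⟨c, mem_filter.2 ⟨mem_range.2 h3, fun i => ⟨h1 i, h2 i⟩⟩⟩,
          by simp⟩
      · refine Or.inr ⟨Sum.inr ⟨2 * Z - 1 - c, mem_filter.2 ⟨mem_range.2 (by omega),
          fun i => ⟨h2 i, ?_⟩⟩⟩, by simp⟩
        rw [show 2 * Z - 1 - (2 * Z - 1 - c) = c by omega]; exact h1 i)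
  have htot := hT.total
  simp only [Fintype.sum_sum_type, Sum.elim_inl, Sum.elim_inr, sum_const, card_univ,
    nsmul_eq_mul] at htot
  push_cast at htot
  rw [← Finset.sum_div, ← Finset.mul_sum] at htot
  have hcE : (Fintype.card E : ℝ) ≤ η * Z := by
    field_simp at htot
    linarith
  refine ⟨U ⊕ E, S ⊕ E, inferInstance, inferInstance, inferInstance, _, _,
    Sum.elim ξ fun _ => 0, Sum.map s id,
    Sum.elim (fun _ => (1 + η) ^ 2 / Fintype.card S) fun _ => 2 / Z, hT, ?_, ?_, ?_⟩
  · rintro (σ | c) <;> simp only [Sum.elim_inl, Sum.elim_inr] <;> positivity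
  · simp only [Fintype.sum_sum_type, Sum.elim_inl, Sum.elim_inr, sum_const, card_univ,
      nsmul_eq_mul]
    have h1 : Fintype.card E * (2 / Z : ℝ) ≤ 2 * η := by
      rw [← mul_div_assoc, div_le_iff₀ hZ']; linarith
    rw [mul_div_cancel₀ _ hS'.ne']
    nlinarith
  · rintro (σ | c) k x
    · have := hb σ k x
      rw [Finset.sum_filter] at this
      rw [Finset.sum_filter, Fintype.sum_sum_type]
      simp only [Sum.elim_inl, Sum.map_inl, Sum.map_inr, Sum.inl.injEq, reduceCtorEq, if_false,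
        sum_const_zero, add_zero]
      rw [Real.sqrt_div' _ hS'.le, Real.sqrt_sq (by linarith)]
      push_cast
      simp only [mul_div_mul_left _ _ (two_ne_zero' ℝ)]
      exact this
    · rw [Finset.sum_filter, Fintype.sum_sum_type]
      simp only [Sum.elim_inr, Sum.map_inl, Sum.map_inr, Sum.inr.injEq, reduceCtorEq, if_false,
        sum_const_zero, zero_add, id, sum_ite_eq', mem_univ, if_true]
      rw [abs_mul, abs_mul, abs_two, abs_of_nonneg (Real.sqrt_nonneg _)]
      have q : √(2 / Z : ℝ) = 2 * 1 * √(((1 : ℕ) : ℝ) / (2 * Z : ℕ)) := by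
        rw [Real.sqrt_eq_iff_mul_self_eq (by positivity) (by positivity), mul_mul_mul_comm,
          Real.mul_self_sqrt (by positivity)]
        push_cast; field_simp
      rw [q]
      gcongr
      exact (Complex.abs_re_le_norm _).trans (norm_ee _).le

end Vale.Agent.P110
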