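import Vale.Agent.P110.Prob

open Finset

namespace Vale.Agent.P110

lemma var_le {C Ω G : Type*} [Fintype C] [Fintype Ω] [Fintype G] [DecidableEq G]
    (P : C → ℝ) (hP1 : ∑ c, P c = 1) (X : C → Ω → ℝ) (m : Ω → G) (T : Finset Ω)
    (ind : Ω → Ω → ℝ) {p M κ B : ℝ} (hp : 0 ≤ p) (hM : 0 ≤ M)
    (h0 : ∀ ω, 0 ≤ ∑ c, P c * X c ω) (h1 : ∀ ω ∈ T, p ≤ ∑ c, P c * X c ω)
    (h2 : ∀ ω ω', ∑ c, P c * (X c ω * X c ω') ≤ p ^ 2 + ind ω ω')
    (hf : ∀ y, ((univ.filter fun ω => m ω = y).card : ℝ) ≤ M)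
    (hB : ∑ y, ∑ ω with m ω = y, ∑ ω' with m ω' = y, ind ω ω' ≤ B)
    (hT : M ^ 2 * (1 - κ) ≤ T.card) (hG : (Fintype.card G : ℝ) = M) :
    ∑ c, P c * ∑ y, (∑ ω with m ω = y, X c ω - M * p) ^ 2 ≤ B + 2 * κ * M ^ 3 * p ^ 2 := by
  have e1 : ∀ c, P c * ∑ y, (∑ ω with m ω = y, X c ω - M * p) ^ 2 =
      ∑ y, ∑ ω with m ω = y, ∑ ω' with m ω' = y, P c * (X c ω * X c ω') -
        2 * (M * p) * ∑ ω, P c * X c ω + P c * (M * (M * p) ^ 2) := by
    intro c
    simp only [sub_sq, Finset.sum_add_distrib, Finset.sum_sub_distrib, sum_const, card_univ,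
      nsmul_eq_mul, hG, ← Finset.mul_sum, ← Finset.sum_mul]
    rw [Finset.sum_fiberwise univ m (X c)]
    simp only [sq]; ring
  simp_rw [e1]
  rw [Finset.sum_add_distrib, Finset.sum_sub_distrib, ← Finset.sum_mul, hP1, ← Finset.mul_sum]
  have q1 : ∑ c, ∑ y, ∑ ω with m ω = y, ∑ ω' with m ω' = y, P c * (X c ω * X c ω') ≤
      M * (M * (M * p ^ 2)) + B := by
    rw [Finset.sum_comm]
    calc _ ≤ ∑ y, (M * (M * p ^ 2) + ∑ ω with m ω = y, ∑ ω' with m ω' = y, ind ω ω') := by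
          refine Finset.sum_le_sum fun y _ => ?_
          rw [Finset.sum_comm]
          calc _ ≤ ∑ ω with m ω = y, ∑ ω' with m ω' = y, (p ^ 2 + ind ω ω') := by
                refine Finset.sum_le_sum fun ω _ => ?_
                rw [Finset.sum_comm]
                exact Finset.sum_le_sum fun ω' _ => h2 ω ω'
            _ ≤ _ := by
                simp only [Finset.sum_add_distrib, sum_const, nsmul_eq_mul]
                have := hf y
                gcongr
      _ ≤ _ := by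
          rw [Finset.sum_add_distrib, sum_const, card_univ, nsmul_eq_mul, hG]; linarith
  have q2 : M ^ 2 * (1 - κ) * p ≤ ∑ c, ∑ ω, P c * X c ω := by
    rw [Finset.sum_comm]
    calc _ ≤ T.card * p := by gcongr
      _ = ∑ _ω ∈ T, p := by simp
      _ ≤ ∑ ω ∈ T, ∑ c, P c * X c ω := Finset.sum_le_sum h1
      _ ≤ _ := Finset.sum_le_sum_of_subset_of_nonneg (subset_univ _) fun ω _ _ => h0 ω
  have q3 := mul_le_mul_of_nonneg_left q2 (show 0 ≤ 2 * (M * p) by positivity)
  nlinarith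

section
variable {I Ω G β : Type*} [Fintype I] [DecidableEq I] [Fintype Ω] [DecidableEq Ω] [Fintype G]
  [DecidableEq G] [Fintype β] [DecidableEq β] (m : I → Ω → G) (blk : G → β) (side : G → Bool)

omit [Fintype Ω] [DecidableEq Ω] [Fintype G] [DecidableEq G] in
lemma pair_mean (ε : I → ℝ) (hε : ∀ i, 0 < ε i) (hw : ∑ x : I × Bool, ε x.1 = 1) (J : Finset I)
    (ω ω' : Ω) :
    ∑ c : β → I × Bool, (∏ b, ε (c b).1) *
      ((if ∀ i ∈ J, c (blk (m i ω)) = (i, side (m i ω)) then (1 : ℝ) else 0) *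
        (if ∀ i ∈ J, c (blk (m i ω')) = (i, side (m i ω')) then (1 : ℝ) else 0)) ≤
      (∏ i ∈ J, ε i) ^ 2 +
        ∑ i ∈ J, ∑ i' ∈ J, if blk (m i' ω') = blk (m i ω) then (1 : ℝ) else 0 := by
  have hn : ∀ i i', (0 : ℝ) ≤ if blk (m i' ω') = blk (m i ω) then (1 : ℝ) else 0 := fun i i' => by
    split_ifs <;> norm_num
  by_cases h : ∃ i ∈ J, ∃ i' ∈ J, blk (m i' ω') = blk (m i ω)
  · obtain ⟨i, hi, i', hi', h⟩ := h
    have h1 := Finset.single_le_sum (fun i' _ => hn i i') hi'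
    have h2 := Finset.single_le_sum (f := fun i => ∑ i' ∈ J,
      if blk (m i' ω') = blk (m i ω) then (1 : ℝ) else 0)
      (fun i _ => Finset.sum_nonneg fun i' _ => hn i i') hi
    rw [if_pos h] at h1
    calc _ ≤ ∑ c : β → I × Bool, ∏ b, ε (c b).1 := Finset.sum_le_sum fun c _ =>
          mul_le_of_le_one_right (Finset.prod_nonneg fun b _ => (hε _).le)
            (by split_ifs <;> norm_num)
      _ = 1 := mean_one (fun x : I × Bool => ε x.1) hw
      _ ≤ _ := by nlinarith [sq_nonneg (∏ i ∈ J, ε i)]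
  · push Not at h
    have h1 := mean_le (fun x : I × Bool => ε x.1) (fun x => (hε _).le) hw (J.disjSum J)
      (Sum.elim (fun i => blk (m i ω)) fun i => blk (m i ω'))
      (Sum.elim (fun i => (i, side (m i ω))) fun i => (i, side (m i ω'))) (by
        rintro (i | i) hi (i' | i') hi' h1 h2
        · simp only [Sum.elim_inl, Prod.mk.injEq] at h2; rw [h2.1]
        · exact absurd h1.symm (h i (by simpa using hi) i' (by simpa using hi'))
        · exact absurd h1 (h i' (by simpa using hi') i (by simpa using hi))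
        · simp only [Sum.elim_inr, Prod.mk.injEq] at h2; rw [h2.1])
    rw [Finset.prod_disjSum] at h1
    simp only [Sum.elim_inl, Sum.elim_inr, Sum.forall, inl_mem_disjSum, inr_mem_disjSum] at h1
    have h2 : 0 ≤ ∑ i ∈ J, ∑ i' ∈ J, if blk (m i' ω') = blk (m i ω) then (1 : ℝ) else 0 :=
      Finset.sum_nonneg fun i _ => Finset.sum_nonneg fun i' _ => hn i i'
    refine le_trans (le_of_eq ?_) (h1.trans (by rw [← sq]; linarith))
    refine Finset.sum_congr rfl fun c _ => ?_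
    rw [ite_zero_mul_ite_zero, mul_one]

omit [Fintype β] [DecidableEq Ω] in
lemma pair_count {M W : ℝ} (hΩ : (Fintype.card Ω : ℝ) = M ^ 2) (hW0 : 0 ≤ W)
    (hW : ∀ i j, i ≠ j → ∀ y b,
      ((univ.filter fun ω => m j ω = y ∧ blk (m i ω) = b).card : ℝ) ≤ W) (j : I) :
    ∑ y, ∑ ω with m j ω = y, ∑ ω' with m j ω' = y, ∑ i ∈ univ.erase j, ∑ i' ∈ univ.erase j,
      (if blk (m i' ω') = blk (m i ω) then (1 : ℝ) else 0) ≤ M ^ 2 * (Fintype.card I ^ 2 * W) := by
  have h1 : ∀ y ω, ∑ ω' with m j ω' = y, ∑ i ∈ univ.erase j, ∑ i' ∈ univ.erase j,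
      (if blk (m i' ω') = blk (m i ω) then (1 : ℝ) else 0) ≤ Fintype.card I ^ 2 * W := by
    intro y ω
    have hc : ((univ.erase j).card : ℝ) ≤ Fintype.card I := by
      exact_mod_cast Finset.card_le_univ _
    rw [Finset.sum_comm]
    calc _ ≤ ∑ _i ∈ univ.erase j, ∑ _i' ∈ univ.erase j, W := by
          refine Finset.sum_le_sum fun i _ => ?_
          rw [Finset.sum_comm]
          refine Finset.sum_le_sum fun i' hi' => ?_
          rw [Finset.sum_boole, Finset.filter_filter]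
          exact hW i' j (mem_erase.1 hi').1 y _
      _ ≤ _ := by
          simp only [sum_const, nsmul_eq_mul]
          rw [sq, mul_assoc]; gcongr
  calc _ ≤ ∑ y, ∑ ω with m j ω = y, Fintype.card I ^ 2 * W :=
        Finset.sum_le_sum fun y _ => Finset.sum_le_sum fun ω _ => h1 y ω
    _ = _ := by
        rw [Finset.sum_fiberwise univ (m j) fun _ => (Fintype.card I : ℝ) ^ 2 * W, sum_const,
          card_univ, nsmul_eq_mul, hΩ]

omit [Fintype β] [DecidableEq Ω] in
lemma good_count {M W W' : ℝ} (hΩ : (Fintype.card Ω : ℝ) = M ^ 2) (hG : (Fintype.card G : ℝ) = M)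
    (hW0 : 0 ≤ W) (hf : ∀ j y, ((univ.filter fun ω => m j ω = y).card : ℝ) ≤ M)
    (hW : ∀ i j, i ≠ j → ∀ y b,
      ((univ.filter fun ω => m j ω = y ∧ blk (m i ω) = b).card : ℝ) ≤ W)
    (Gb : Finset G) (hGb : (Gb.card : ℝ) ≤ W') :
    M ^ 2 - M * (Fintype.card I * W' + Fintype.card I ^ 2 * W) ≤
      (univ.filter fun ω => (∀ j, m j ω ∉ Gb) ∧
        ∀ i j, blk (m i ω) = blk (m j ω) → i = j).card := by
  have hM : 0 ≤ M := by rw [← hG]; positivity
  have h1 : ∀ ω, (1 : ℝ) ≤ (if (∀ j, m j ω ∉ Gb) ∧ ∀ i j, blk (m i ω) = blk (m j ω) → i = j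
      then 1 else 0) + (∑ j, (if m j ω ∈ Gb then 1 else 0) +
        ∑ j, ∑ i, if i ≠ j ∧ blk (m i ω) = blk (m j ω) then 1 else 0) := by
    intro ω
    have n1 : ∀ j, (0 : ℝ) ≤ if m j ω ∈ Gb then 1 else 0 := fun j => by split_ifs <;> norm_num
    have n2 : ∀ j i, (0 : ℝ) ≤ if i ≠ j ∧ blk (m i ω) = blk (m j ω) then 1 else 0 :=
      fun j i => by split_ifs <;> norm_num
    have n3 := Finset.sum_nonneg (s := univ) fun j _ => n1 j
    have n4 := Finset.sum_nonneg (s := univ) fun j _ => Finset.sum_nonneg (s := univ)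
      fun i _ => n2 j i
    split_ifs with h
    · linarith
    · rw [not_and_or] at h
      push Not at h
      rcases h with ⟨j, hj⟩ | ⟨i, j, h1, h2⟩
      · have := Finset.single_le_sum (fun j _ => n1 j) (mem_univ j)
        rw [if_pos hj] at this; linarith
      · have q1 := Finset.single_le_sum (fun i _ => n2 j i) (mem_univ i)
        have q2 := Finset.single_le_sum (fun j _ => Finset.sum_nonneg (s := univ)
          fun i _ => n2 j i) (mem_univ j)
        rw [if_pos ⟨h2, h1⟩] at q1; linarith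
  have h2 := Finset.sum_le_sum (s := univ) fun ω _ => h1 ω
  rw [Finset.sum_add_distrib, Finset.sum_boole, Finset.sum_add_distrib, sum_const, card_univ,
    nsmul_eq_mul, hΩ] at h2
  have h3 : ∑ ω, ∑ j, (if m j ω ∈ Gb then (1 : ℝ) else 0) ≤ Fintype.card I * (W' * M) := by
    rw [Finset.sum_comm, ← nsmul_eq_mul, ← card_univ, ← sum_const]
    refine Finset.sum_le_sum fun j _ => ?_
    rw [← Finset.sum_fiberwise univ (m j)]
    calc _ ≤ ∑ y, if y ∈ Gb then M else 0 := by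
          refine Finset.sum_le_sum fun y _ => ?_
          rw [Finset.sum_congr rfl (g := fun _ => if y ∈ Gb then (1 : ℝ) else 0)
            fun ω hω => by rw [(mem_filter.1 hω).2], sum_const, nsmul_eq_mul]
          split_ifs
          · rw [mul_one]; exact hf j y
          · simp
      _ ≤ _ := by
          rw [Finset.sum_ite_mem, univ_inter, sum_const, nsmul_eq_mul]; gcongr
  have h4 : ∑ ω, ∑ j, ∑ i, (if i ≠ j ∧ blk (m i ω) = blk (m j ω) then (1 : ℝ) else 0) ≤
      Fintype.card I * (Fintype.card I * (M * W)) := by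
    rw [Finset.sum_comm, ← nsmul_eq_mul, ← card_univ, ← sum_const]
    refine Finset.sum_le_sum fun j _ => ?_
    rw [Finset.sum_comm, ← nsmul_eq_mul, ← sum_const]
    refine Finset.sum_le_sum fun i _ => ?_
    by_cases hij : i = j
    · simp [hij]; positivity
    rw [← Finset.sum_fiberwise univ (m j), ← hG, ← nsmul_eq_mul, ← card_univ, ← sum_const]
    refine Finset.sum_le_sum fun y _ => ?_
    rw [Finset.sum_congr rfl (g := fun ω => if blk (m i ω) = blk y then (1 : ℝ) else 0)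
      fun ω hω => by simp [hij, (mem_filter.1 hω).2], Finset.sum_boole, Finset.filter_filter]
    exact hW i j hij y _
  nlinarith

theorem abstract_colour (ε : I → ℝ) (hε : ∀ i, 0 < ε i) (hw : ∑ x : I × Bool, ε x.1 = 1)
    {M W W' κ η : ℝ} (hM : 0 < M) (hΩ : (Fintype.card Ω : ℝ) = M ^ 2)
    (hG : (Fintype.card G : ℝ) = M) (hW0 : 0 ≤ W)
    (hf : ∀ j y, ((univ.filter fun ω => m j ω = y).card : ℝ) ≤ M)
    (hW : ∀ i j, i ≠ j → ∀ y b,
      ((univ.filter fun ω => m j ω = y ∧ blk (m i ω) = b).card : ℝ) ≤ W)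
    (Gb : Finset G) (hGb : (Gb.card : ℝ) ≤ W')
    (hκ : Fintype.card I * W' + Fintype.card I ^ 2 * W ≤ κ * M) (hη : 0 < η)
    (hsmall : κ * (∏ i, ε i + Fintype.card I * ((1 + η) / (η ^ 2 * ∏ i, ε i) * 3)) ≤
      (∏ i, ε i) * (η / (1 + η))) :
    ∃ (c : β → I × Bool) (S : Finset Ω), S.Nonempty ∧
      (∀ ω ∈ S, ∀ j, m j ω ∉ Gb ∧ c (blk (m j ω)) = (j, side (m j ω))) ∧
      ∀ j y, ((S.filter fun ω => m j ω = y).card : ℝ) * M * ε j ≤ (1 + η) ^ 2 * S.card := by
  set T := univ.filter fun ω => (∀ j, m j ω ∉ Gb) ∧ ∀ i j, blk (m i ω) = blk (m j ω) → i = j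
    with hT
  have hW'0 : 0 ≤ W' := le_trans (by positivity) hGb
  have hκ1 : Fintype.card I ^ 2 * W ≤ κ * M := by
    have : 0 ≤ Fintype.card I * W' := by positivity
    linarith
  have hκ0 : 0 ≤ κ := by
    have : 0 ≤ κ * M := le_trans (by positivity) hκ1
    exact nonneg_of_mul_nonneg_left this hM
  have hTc : M ^ 2 * (1 - κ) ≤ T.card := by
    have := good_count m blk hΩ hG hW0 hf hW Gb hGb
    nlinarith [mul_le_mul_of_nonneg_left hκ hM.le]
  have hε1 : ∀ i, ε i ≤ 1 := fun i => hw ▸ Finset.single_le_sum (f := fun x : I × Bool => ε x.1)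
    (fun x _ => (hε _).le) (mem_univ (i, true))
  set Pi := ∏ i, ε i with hPi
  have hPi0 : 0 < Pi := Finset.prod_pos fun i _ => hε i
  set p : I → ℝ := fun j => ∏ i ∈ univ.erase j, ε i with hp
  have hp0 : ∀ j, 0 < p j := fun j => Finset.prod_pos fun i _ => hε i
  have hp1 : ∀ j, p j ≤ 1 := fun j =>
    Finset.prod_le_one (fun i _ => (hε i).le) fun i _ => hε1 i
  have hp2 : ∀ j, ε j * p j = Pi := fun j => Finset.mul_prod_erase _ _ (mem_univ j)
  have hp3 : ∀ j, Pi ≤ p j := fun j => by rw [← hp2 j]; nlinarith [hε1 j, hp0 j]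
  have hP0 : ∀ c : β → I × Bool, 0 ≤ ∏ b, ε (c b).1 := fun c =>
    Finset.prod_nonneg fun b _ => (hε _).le
  have hP1 := mean_one (β := β) (fun x : I × Bool => ε x.1) hw
  have hmean : ∀ (J : Finset I), ∀ ω ∈ T, ∑ c : β → I × Bool, (∏ b, ε (c b).1) *
      (if ∀ i ∈ J, c (blk (m i ω)) = (i, side (m i ω)) then (1 : ℝ) else 0) = ∏ i ∈ J, ε i :=
    fun J ω hω => by
      convert mean_eq (fun x : I × Bool => ε x.1) hw J (fun i => blk (m i ω))
        (fun i => (i, side (m i ω))) fun i _ j _ h => (mem_filter.1 hω).2.2 i j h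
  have hvar := fun j => var_le (fun c : β → I × Bool => ∏ b, ε (c b).1) hP1
    (fun c ω => if ∀ i ∈ univ.erase j, c (blk (m i ω)) = (i, side (m i ω)) then (1 : ℝ) else 0)
    (m j) T _ (hp0 j).le hM.le (fun ω => Finset.sum_nonneg fun c _ => mul_nonneg (hP0 c)
      (by split_ifs <;> norm_num)) (fun ω hω => (hmean _ ω hω).ge)
    (pair_mean m blk side ε hε hw _) (hf j) (pair_count m blk hΩ hW0 hW j) hTc hG
  obtain ⟨c, hc⟩ := exists_ge_mean (fun c : β → I × Bool => ∏ b, ε (c b).1) (fun c =>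
    ∑ ω ∈ T, (if ∀ i ∈ (univ : Finset I), c (blk (m i ω)) = (i, side (m i ω)) then (1 : ℝ) else 0) -
      ∑ j, (1 + η) / (η ^ 2 * (M * p j)) * ∑ y, (∑ ω with m j ω = y,
        (if ∀ i ∈ univ.erase j, c (blk (m i ω)) = (i, side (m i ω)) then (1 : ℝ) else 0) -
          M * p j) ^ 2) hP0 hP1 (m := M ^ 2 * Pi / (1 + η)) (by
    simp_rw [mul_sub, Finset.mul_sum _ _ (∏ b, ε _), Finset.sum_sub_distrib]
    rw [Finset.sum_comm, Finset.sum_congr rfl (hmean univ), Finset.sum_comm, sum_const,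
      nsmul_eq_mul]
    have q1 : ∑ j, ∑ c : β → I × Bool, (∏ b, ε (c b).1) * ((1 + η) / (η ^ 2 * (M * p j)) *
        ∑ y, (∑ ω with m j ω = y, (if ∀ i ∈ univ.erase j, c (blk (m i ω)) = (i, side (m i ω))
          then (1 : ℝ) else 0) - M * p j) ^ 2) ≤
        Fintype.card I * ((1 + η) / (η ^ 2 * Pi) * 3 * κ * M ^ 2) := by
      rw [← nsmul_eq_mul, ← card_univ, ← sum_const]
      refine Finset.sum_le_sum fun j _ => ?_
      simp_rw [mul_left_comm _ ((1 + η) / (η ^ 2 * (M * p j)))]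
      rw [← Finset.mul_sum]
      have q2 := hp0 j
      have q3 : M ^ 2 * (Fintype.card I ^ 2 * W) + 2 * κ * M ^ 3 * p j ^ 2 ≤ 3 * κ * M ^ 3 := by
        have q4 : p j ^ 2 ≤ 1 := pow_le_one₀ q2.le (hp1 j)
        have q5 : 0 ≤ κ * M ^ 3 := by positivity
        nlinarith [mul_le_mul_of_nonneg_left hκ1 (sq_nonneg M), mul_le_mul_of_nonneg_left q4 q5]
      calc _ ≤ (1 + η) / (η ^ 2 * (M * Pi)) * (3 * κ * M ^ 3) := by
            gcongr
            · exact Finset.sum_nonneg fun c _ => mul_nonneg (hP0 c) (by positivity)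
            · exact hp3 j
            · exact (hvar j).trans q3
        _ = _ := by field_simp
    have q2 : M ^ 2 * Pi / (1 + η) = M ^ 2 * Pi - M ^ 2 * (Pi * (η / (1 + η))) := by
      field_simp; ring
    have q3 := mul_le_mul_of_nonneg_left hsmall (sq_nonneg M)
    have q4 := mul_le_mul_of_nonneg_right hTc hPi0.le
    rw [← hPi]
    nlinarith)
  obtain ⟨S, hS, h1, h2, h3⟩ := prune m (fun ω i => c (blk (m i ω)) = (i, side (m i ω))) T
    (fun j => M * p j) (fun j => mul_pos hM (hp0 j)) hη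
  have h4 := hc.trans h3
  refine ⟨c, S, ?_, fun ω hω j => ⟨(mem_filter.1 (hS hω)).2.1 j, h1 ω hω j⟩, fun j y => ?_⟩
  · have : (0 : ℝ) < S.card := lt_of_lt_of_le (by positivity) h4
    exact card_pos.1 (by exact_mod_cast this)
  · have := hε j
    rw [div_le_iff₀ (by positivity)] at h4
    calc _ ≤ (1 + η) * (M * p j) * M * ε j := by gcongr; exact h2 j y
      _ = (1 + η) * (M ^ 2 * Pi) := by rw [← hp2 j]; ring
      _ ≤ (1 + η) * (S.card * (1 + η)) := by gcongr
      _ = _ := by ring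

end

end Vale.Agent.P110
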