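import Vale.Agent.P110.Finish

open Complex Set MeasureTheory Filter Topology
open scoped Real ComplexConjugate

namespace Vale.Agent.P110

lemma small_rate {δ m h : ℝ} (hδ : 0 < δ) (hδ1 : δ ≤ 1 / 4) {b p : ℝ → ℝ}
    (hb : IsRate δ (1 - δ) b) (hp : IsRate δ (3 * δ / 2) p) (hm : 0 < m) (h0 : 0 ≤ h)
    (h1 : h ≤ δ / 2) : IsRate δ (1 - δ) fun t => m * (b t + p (t - h)) := by
  have := hb.cont
  have := hp.cont
  refine ⟨by fun_prop, fun t => mul_nonneg hm.le (add_nonneg (hb.nonneg _) (hp.nonneg _)),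
    fun t ht => ?_, fun t ht => mul_pos hm (add_pos_of_pos_of_nonneg (hb.pos t ht) (hp.nonneg _))⟩
  rw [hb.zero t ht, hp.zero (t - h), add_zero, mul_zero]
  rcases ht with ht | ht
  · left; linarith
  · right; linarith

lemma small_moment {δ m h c : ℝ} {b p : ℝ → ℝ}
    (hb : IsRate δ (1 - δ) b) (hp : IsRate δ (3 * δ / 2) p)
    (hp1 : ∫ t in δ..(3 * δ / 2), p t = 1) (h0 : 0 ≤ h) (h1 : h ≤ δ / 2) (hc : 2 * δ ≤ c)
    (N k : ℝ) : ∫ σ in δ..c, m * (b σ + p (σ - h)) * (N * σ - k) =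
      m * ((∫ σ in δ..c, b σ * (N * σ - k)) + ∫ σ in δ..(3 * δ / 2), p σ * (N * σ - k)) +
        N * (m * h) := by
  have := hb.cont
  have := hp.cont
  have e := shift_moment hp hp1 h0 h1 hc N k
  have : ∀ σ, m * (b σ + p (σ - h)) * (N * σ - k) =
      m * (b σ * (N * σ - k) + p (σ - h) * (N * σ - k)) := fun σ => by ring
  simp_rw [this]
  rw [intervalIntegral.integral_const_mul,
    intervalIntegral.integral_add (Continuous.intervalIntegrable (by fun_prop) _ _)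
      (Continuous.intervalIntegrable (by fun_prop) _ _), e]
  ring

lemma unit_rates {δ α β l γ w N₁ y : ℝ} (hδ : 0 < δ) (hδ1 : δ ≤ 1 / 4) {b p g : ℝ → ℝ}
    (hb : IsRate δ (1 - δ) b) (hb1 : ∫ t in δ..(1 - δ), b t = 1) (hb2 : ∀ t, b t ≤ 4)
    (hp : IsRate δ (3 * δ / 2) p) (hp1 : ∫ t in δ..(3 * δ / 2), p t = 1) (hp2 : ∀ t, p t ≤ 4 / δ)
    (hg : IsRate α β g) (hg1 : ∫ t in α..β, g t = 1) (hα : 2 * δ ≤ α) (hβ : β ≤ 1 - δ)
    (hl : 0 < l) (hl1 : l ≤ 1) (hγ : 0 < γ) (hw : w * (1 + 4 * γ) = 1) (hN : 0 < N₁)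
    (hN1 : 1 ≤ N₁ * (l * w * γ) * (δ / 2)) (hy0 : 0 ≤ y) (hy1 : y ≤ 1) :
    ∃ u v : ℝ → ℝ, IsRate δ (1 - δ) u ∧ IsRate δ (1 - δ) v ∧
      ((∫ t in δ..(1 - δ), u t) + ∫ t in δ..(1 - δ), v t = l) ∧
      (∃ z : ℤ, N₁ * ((∫ σ in δ..(1 - δ), u σ * (σ - δ)) +
        ∫ σ in δ..(1 - δ), v σ * (σ - δ)) = z) ∧
      (∀ t, |√(u t) - √(l * w * g t)| ≤ √(γ * (4 + 4 / δ)) ∧ √(v t) ≤ √(γ * (4 + 4 / δ))) ∧
      ∀ N k c : ℝ, 2 * δ ≤ c → ∫ σ in δ..c, u σ * (N * σ - k) =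
        l * (w * ((∫ σ in δ..c, g σ * (N * σ - k)) + γ * ((∫ σ in δ..c, b σ * (N * σ - k)) +
          ∫ σ in δ..(3 * δ / 2), p σ * (N * σ - k)))) + N / N₁ * y := by
  have hw0 : 0 < w := by
    by_contra h
    push Not at h
    nlinarith
  have hw1 : w ≤ 1 := by nlinarith
  set m := l * w * γ with hm
  have hm0 : 0 < m := by positivity
  have hsh : ∀ x, 0 ≤ x → x ≤ 1 → 0 ≤ x / (N₁ * m) ∧ x / (N₁ * m) ≤ δ / 2 := fun x h0 h1 =>
    ⟨by positivity, by rw [div_le_iff₀ (by positivity)]; linarith⟩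
  have hmh : ∀ x, m * (x / (N₁ * m)) = x / N₁ := fun x => by field_simp
  have hgc := hg.cont
  have hbc := hb.cont
  have hpc := hp.cont
  have hgz : ∀ t, t ≤ δ ∨ 1 - δ ≤ t → g t = 0 := fun t ht =>
    hg.zero t (ht.imp (fun h => by linarith) fun h => by linarith)
  obtain ⟨h0, h1⟩ := hsh y hy0 hy1
  have hs := small_rate hδ hδ1 hb hp hm0 h0 h1
  set u : ℝ → ℝ := fun t => l * w * g t + m * (b t + p (t - y / (N₁ * m))) with hu
  have huM : ∀ N k c : ℝ, 2 * δ ≤ c → ∫ σ in δ..c, u σ * (N * σ - k) =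
      l * (w * ((∫ σ in δ..c, g σ * (N * σ - k)) + γ * ((∫ σ in δ..c, b σ * (N * σ - k)) +
        ∫ σ in δ..(3 * δ / 2), p σ * (N * σ - k)))) + N / N₁ * y := by
    intro N k c hc
    have e := small_moment (m := m) hb hp hp1 h0 h1 hc N k
    have : ∀ σ, u σ * (N * σ - k) = l * w * (g σ * (N * σ - k)) +
        m * (b σ + p (σ - y / (N₁ * m))) * (N * σ - k) := fun σ => by simp only [hu]; ring
    simp_rw [this]
    rw [intervalIntegral.integral_add (Continuous.intervalIntegrable (by fun_prop) _ _)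
      (Continuous.intervalIntegrable (by fun_prop) _ _), e, intervalIntegral.integral_const_mul,
      hmh, hm]
    ring
  set M := (∫ σ in δ..(1 - δ), u σ * (σ - δ)) +
    m * ((∫ σ in δ..(1 - δ), b σ * (1 * σ - δ)) + ∫ σ in δ..(3 * δ / 2), p σ * (1 * σ - δ))
    with hM
  obtain ⟨h0', h1'⟩ := hsh (⌈N₁ * M⌉ - N₁ * M) (by linarith [Int.le_ceil (N₁ * M)])
    (by linarith [Int.ceil_lt_add_one (N₁ * M)])
  have hsm : ∀ h t, m * (b t + p (t - h)) ≤ γ * (4 + 4 / δ) := by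
    intro h t
    have : m ≤ γ := by
      have : l * w ≤ 1 := by nlinarith
      rw [hm]; nlinarith
    have q1 := hb.nonneg t
    have q2 := hp.nonneg (t - h)
    gcongr
    · exact hb2 _
    · exact hp2 _
  refine ⟨u, fun t => m * (b t + p (t - (⌈N₁ * M⌉ - N₁ * M) / (N₁ * m))),
    ⟨by simp only [hu]; fun_prop, fun t => add_nonneg (mul_nonneg (by positivity) (hg.nonneg t))
      (hs.nonneg t), fun t ht => ?_, fun t ht => add_pos_of_nonneg_of_pos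
      (mul_nonneg (by positivity) (hg.nonneg t)) (hs.pos t ht)⟩,
    small_rate hδ hδ1 hb hp hm0 h0' h1', ?_, ⟨⌈N₁ * M⌉, ?_⟩, fun t => ⟨?_, ?_⟩, huM⟩
  · have := hs.zero t ht
    simp only [hu, hgz t ht, mul_zero, zero_add]; exact this
  · have e1 := huM 0 (-1) (1 - δ) (by linarith)
    have e2 := small_moment (m := m) hb hp hp1 h0' h1' (c := 1 - δ) (by linarith) 0 (-1)
    have e3 : ∫ t in δ..(1 - δ), g t = 1 := by
      rw [integral_extend' hgc (by linarith) hβ hg.zero, hg1]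
    simp only [zero_mul, sub_neg_eq_add, zero_add, mul_one, zero_div, add_zero, hb1, hp1,
      e3] at e1 e2
    rw [e1, e2, hm]
    linear_combination l * hw
  · have e2 := small_moment (m := m) hb hp hp1 h0' h1' (c := 1 - δ) (by linarith) 1 δ
    rw [hmh] at e2
    simp only [one_mul] at e2 hM
    rw [e2, ← add_assoc, ← hM]
    field_simp; ring
  · exact (abs_sqrt_add_sub (mul_nonneg (by positivity) (hg.nonneg t)) (hs.nonneg t)).trans
      (Real.sqrt_le_sqrt (hsm _ t))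
  · exact Real.sqrt_le_sqrt (hsm _ t)

/-- The combinatorial design used by the analytic construction. -/
def Design (η : ℝ) : Prop :=
  ∃ (U S : Type) (_ : Fintype U) (_ : Fintype S) (_ : DecidableEq S) (a l ξ : U → ℝ) (s : U → S)
    (lam : S → ℝ), Tiling (Sum.elim a fun i => 1 - a i - l i) (Sum.elim l l) ∧
      (∀ σ, 0 < lam σ) ∧ ∑ σ, lam σ ≤ 1 + η ∧ ∀ (σ : S) (k : ℤ) (x : ℝ),
        |∑ i with s i = σ, 2 * (ee (ξ i - k * a i + l i * x)).re * √(l i)| ≤ √(lam σ)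

lemma main_term {U S : Type*} [Fintype U] [DecidableEq S] {a l ξ ph : U → ℝ} {s : U → S}
    {lam G : S → ℝ} {w e B C : ℝ} (hl1 : ∀ i, l i ≤ 1) (hw0 : 0 ≤ w)
    (hw1 : w ≤ 1) (he : 0 ≤ e) (hB : 0 ≤ B) (hC : 0 ≤ C) (hG : ∀ σ, 0 ≤ G σ)
    (hD : ∀ (σ : S) (k : ℤ) (x : ℝ),
      |∑ i with s i = σ, 2 * (ee (ξ i - k * a i + l i * x)).re * √(l i)| ≤ √(lam σ))
    (hGB : ∀ σ, √(G σ) * √(lam σ) ≤ B) (hGC : ∀ σ, √(G σ) ≤ C)
    (h : ∀ σ, G σ ≠ 0 → (∀ σ', σ' ≠ σ → G σ' = 0) ∧ ∃ (k : ℤ) (x : ℝ), ∀ i, s i = σ →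
      ‖ee (ph i) - ee (ξ i - k * a i + l i * x)‖ ≤ e) :
    |∑ i, 2 * (ee (ph i)).re * √(l i * w * G (s i))| ≤ B + 2 * Fintype.card U * C * e := by
  by_cases h0 : ∀ σ, G σ = 0
  · simp only [h0, mul_zero, Real.sqrt_zero, Finset.sum_const_zero, abs_zero]; positivity
  push Not at h0
  obtain ⟨σ, hσ⟩ := h0
  obtain ⟨h1, k, x, h2⟩ := h σ hσ
  have e1 : ∑ i, 2 * (ee (ph i)).re * √(l i * w * G (s i)) =
      √w * √(G σ) * (∑ i with s i = σ, 2 * (ee (ξ i - k * a i + l i * x)).re * √(l i) +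
        ∑ i with s i = σ, 2 * (ee (ph i) - ee (ξ i - k * a i + l i * x)).re * √(l i)) := by
    rw [← Finset.sum_add_distrib, Finset.mul_sum, Finset.sum_filter]
    refine Finset.sum_congr rfl fun i _ => ?_
    split_ifs with hi
    · rw [hi, Real.sqrt_mul' _ (hG σ), Real.sqrt_mul' _ hw0, Complex.sub_re]; ring
    · rw [h1 _ hi]; simp
  have e2 : |∑ i with s i = σ, 2 * (ee (ph i) - ee (ξ i - k * a i + l i * x)).re * √(l i)| ≤
      2 * Fintype.card U * e := by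
    refine (Finset.abs_sum_le_sum_abs _ _).trans ?_
    calc _ ≤ ∑ i with s i = σ, 2 * e := Finset.sum_le_sum fun i hi => by
          rw [abs_mul, abs_mul, abs_two, abs_of_nonneg (Real.sqrt_nonneg _)]
          have q1 := (Complex.abs_re_le_norm _).trans (h2 i (Finset.mem_filter.1 hi).2)
          have q2 : √(l i) ≤ 1 := Real.sqrt_le_one.2 (hl1 i)
          calc _ ≤ 2 * e * 1 := by gcongr
            _ = _ := mul_one _
      _ ≤ ∑ _i : U, 2 * e := Finset.sum_le_sum_of_subset_of_nonneg (Finset.filter_subset _ _)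
          fun _ _ _ => by positivity
      _ = _ := by rw [Finset.sum_const, Finset.card_univ, nsmul_eq_mul]; ring
  have e3 : √w ≤ 1 := Real.sqrt_le_one.2 hw1
  rw [e1, abs_mul, abs_of_nonneg (by positivity)]
  calc _ ≤ 1 * √(G σ) * (√(lam σ) + 2 * Fintype.card U * e) := by
        gcongr
        exact (abs_add_le _ _).trans (add_le_add (hD σ k x) e2)
    _ = √(G σ) * √(lam σ) + 2 * Fintype.card U * √(G σ) * e := by ring
    _ ≤ _ := by gcongr; exacts [hGB σ, hGC σ]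

lemma phase_close {ξ a l X k δ H : ℝ} {Q j : ℕ} (hQ : 0 < Q) {N : ℝ} {k' : ℤ}
    (hk : N * δ - k = -k') (hH : H = l * X + (1 + Q * j) * (⌊Q * Int.fract (ξ - 1 / 8)⌋₊ / Q)) :
    ‖ee ((N * δ - k) * a + H + 1 / 8) - ee (ξ - k' * a + l * X)‖ ≤ 2 * π * (1 / Q) := by
  have hQ' : (0 : ℝ) < Q := by exact_mod_cast hQ
  set n := ⌊Q * Int.fract (ξ - 1 / 8)⌋₊ with hn
  have h1 : (n : ℝ) ≤ Q * Int.fract (ξ - 1 / 8) :=
    Nat.floor_le (mul_nonneg hQ'.le (Int.fract_nonneg _))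
  have h2 : Q * Int.fract (ξ - 1 / 8) < n + 1 := Nat.lt_floor_add_one _
  have e1 : ee ((N * δ - k) * a + H + 1 / 8) = ee (n / Q + 1 / 8 - k' * a + l * X) :=
    ee_congr (j * n) (by rw [hk, hH]; push_cast; field_simp; ring)
  have e2 : ee (ξ - k' * a + l * X) = ee (Int.fract (ξ - 1 / 8) + 1 / 8 - k' * a + l * X) :=
    ee_congr ⌊ξ - 1 / 8⌋ (by rw [Int.fract]; ring)
  rw [e1, e2]
  refine (norm_ee_sub_ee _ _).trans ?_
  have hp := Real.pi_pos
  gcongr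
  have : n / Q + 1 / 8 - k' * a + l * X - (Int.fract (ξ - 1 / 8) + 1 / 8 - k' * a + l * X) =
      (n - Q * Int.fract (ξ - 1 / 8)) / Q := by field_simp; ring
  rw [this, abs_div, abs_of_pos hQ']
  gcongr
  rw [abs_le]; constructor <;> linarith

lemma exists_windows {S : Type*} [Fintype S] {lam : S → ℝ} (hlam : ∀ σ, 0 < lam σ) {η δ : ℝ}
    (hη : 0 < η) (hη1 : η ≤ 1 / 8) (hδ1 : δ ≤ η / 12) (hs : ∑ σ, lam σ ≤ 1 + η / 8) :
    ∃ (α β : S → ℝ) (g : S → ℝ → ℝ) (C : ℝ), 0 ≤ C ∧ (∀ σ, IsRate (α σ) (β σ) (g σ) ∧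
      ∫ t in (α σ)..(β σ), g σ t = 1 ∧ 2 * δ ≤ α σ ∧ β σ ≤ 1 - δ ∧
      ∀ t, √(g σ t) * √(lam σ) ≤ 1 + η / 2 ∧ √(g σ t) ≤ C) ∧
      ∀ σ t, g σ t ≠ 0 → 2 * δ ≤ t ∧ ∀ σ', σ' ≠ σ → g σ' t = 0 := by
  set c := (1 - 3 * δ) / (1 + η / 8) with hc
  have h3 : 0 < 1 - 3 * δ := by linarith
  have hc0 : 0 < c := by positivity
  obtain ⟨α, hα, hd⟩ := windows lam hlam (p := 2 * δ) (q := 1 - δ) hc0 (by
    rw [hc, div_mul_eq_mul_div, div_le_iff₀ (by positivity)]; nlinarith)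
  choose g hg hg1 hg2 using fun σ => plateau (α := α σ) (β := α σ + c * lam σ) (η := η / 8)
    (by nlinarith [hlam σ]) (by positivity)
  simp only [add_sub_cancel_left] at hg1
  refine ⟨α, fun σ => α σ + c * lam σ, g, ∑ σ, √((1 + η / 8) / (c * lam σ)), by positivity,
    fun σ => ⟨hg σ, hg2 σ, (hα σ).1, (hα σ).2, fun t => ⟨?_, ?_⟩⟩, fun σ t ht => ?_⟩
  · rw [← Real.sqrt_mul' _ (hlam σ).le]
    apply Real.sqrt_le_iff.2 ⟨by positivity, ?_⟩
    have h1 := hg1 σ t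
    have h2 := hlam σ
    calc _ ≤ (1 + η / 8) / (c * lam σ) * lam σ := by gcongr
      _ = (1 + η / 8) ^ 2 / (1 - 3 * δ) := by rw [hc]; field_simp
      _ ≤ _ := by
        rw [div_le_iff₀ h3]
        have : (1 + η) * (1 - η / 4) ≤ (1 + η / 2) ^ 2 * (1 - 3 * δ) := by
          apply mul_le_mul <;> nlinarith
        nlinarith
  · exact (Real.sqrt_le_sqrt (hg1 σ t)).trans (Finset.single_le_sum
      (f := fun σ => √((1 + η / 8) / (c * lam σ))) (fun _ _ => by positivity) (Finset.mem_univ σ))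
  · have h1 : ¬ (t ≤ α σ ∨ α σ + c * lam σ ≤ t) := fun h => ht ((hg σ).zero t h)
    push Not at h1
    refine ⟨by linarith [(hα σ).1], fun σ' hσ => (hg σ').zero t ?_⟩
    rcases hd σ' σ hσ with h | h
    · right; linarith
    · left; linarith

theorem core {κ : ℝ} (hκ : 0 < κ) (hκ1 : κ ≤ 1) (hD : Design (κ ^ 4 / 8 / 8)) :
    ∃ᶠ N : ℕ in atTop, ∃ ε : ℕ → ℝ, (∀ k, ε k = 1 ∨ ε k = -1) ∧ ∀ θ : ℝ, |θ| ≤ 1 →
      |‖∑ k ∈ Finset.range N, (ε k : ℂ) * ee (k * θ)‖ - √N| ≤ 7207 * κ * √N := by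
  obtain ⟨U, S, _, _, _, a, l, ξ, s, lam, hT, hlam, hsum, hD⟩ := hD
  set η := κ ^ 4 / 8 with hη
  have hη0 : 0 < η := by positivity
  have hη1 : η ≤ 1 / 8 := by
    have := pow_le_one₀ hκ.le hκ1 (n := 4)
    linarith
  obtain ⟨D, hD0⟩ := exists_nat_ge (12 / η)
  have hD1 : (0 : ℝ) < D := lt_of_lt_of_le (by positivity) hD0
  set δ : ℝ := 1 / D with hδ
  have hδ0 : 0 < δ := by positivity
  have hδ1 : δ ≤ η / 12 := by
    rw [hδ, div_le_div_iff₀ hD1 (by norm_num)]; rw [div_le_iff₀ hη0] at hD0; linarith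
  obtain ⟨α, β, g, C, hC, hg, hg'⟩ := exists_windows hlam hη0 hη1 hδ1 hsum
  obtain ⟨b, hb, hb2, hb1⟩ := plateau (α := δ) (β := 1 - δ) (η := 1) (by linarith) one_pos
  obtain ⟨p, hp, hp2, hp1⟩ := plateau (α := δ) (β := 3 * δ / 2) (η := 1) (by linarith) one_pos
  have hb3 : ∀ t, b t ≤ 4 := fun t => (hb2 t).trans (by
    rw [div_le_iff₀ (by linarith)]; linarith)
  have hp3 : ∀ t, p t ≤ 4 / δ := fun t => (hp2 t).trans (le_of_eq (by field_simp; ring))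
  set G : ℝ := (Fintype.card U : ℝ) with hG
  have hG0 : 0 ≤ G := by positivity
  set γ := (η / (32 * (G + 1))) ^ 2 / (4 + 4 / δ) with hγ
  have hγ0 : 0 < γ := by positivity
  have hγ1 : √(γ * (4 + 4 / δ)) = η / (32 * (G + 1)) := by
    rw [hγ, div_mul_cancel₀ _ (by positivity), Real.sqrt_sq (by positivity)]
  have hγ2 : G * (2 * √(γ * (4 + 4 / δ))) ≤ η / 16 := by
    rw [hγ1, ← mul_div_assoc, ← mul_div_assoc, div_le_div_iff₀ (by positivity) (by norm_num)]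
    nlinarith
  set w := 1 / (1 + 4 * γ) with hw
  have hw0 : 0 < w := by positivity
  have hw1 : w * (1 + 4 * γ) = 1 := by rw [hw]; field_simp
  have hl0 : ∀ i, 0 < l i := fun i => hT.pos (Sum.inl i)
  have hl1 : ∀ i, l i ≤ 1 := fun i => by
    have h1 := hT.lo (Sum.inl i)
    have h2 := hT.hi (Sum.inl i)
    simp only [Sum.elim_inl] at h1 h2; linarith
  have hpi := Real.pi_pos
  obtain ⟨Q, hQ⟩ := exists_nat_gt (2 * G * C * (2 * π) / (η / 8))
  have hQ0 : (0 : ℝ) < Q := lt_of_le_of_lt (by positivity) hQ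
  have hQ1 : 2 * G * C * (2 * π * (1 / Q)) ≤ η / 8 := by
    rw [div_lt_iff₀ (by positivity)] at hQ
    rw [mul_one_div, ← mul_div_assoc, div_le_iff₀ hQ0]; linarith
  obtain ⟨n, hn, hn0⟩ := ((eventually_all.2 fun i =>
    (tendsto_natCast_atTop_atTop (R := ℝ)).eventually_ge_atTop (2 / (l i * w * γ))).and
    (eventually_gt_atTop 0)).exists
  have hn1 : (0 : ℝ) < n := by exact_mod_cast hn0
  choose u v hu hv hm hz hsq hph using fun i => unit_rates (N₁ := D * n)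
    (y := ⌊Q * Int.fract (ξ i - 1 / 8)⌋₊ / Q) hδ0 (by linarith) hb hb1 hb3 hp hp1 hp3
    (hg (s i)).1 (hg (s i)).2.1 (hg (s i)).2.2.1 (hg (s i)).2.2.2.1 (hl0 i) (hl1 i) hγ0 hw1
    (by positivity) (by
      have h1 := hn i
      have h2 := hl0 i
      rw [div_le_iff₀ (by positivity)] at h1
      have : D * n * (l i * w * γ) * (δ / 2) = n * (l i * w * γ) / 2 := by rw [hδ]; field_simp
      linarith) (by positivity) (by
      rw [div_le_one hQ0]
      refine (Nat.floor_le (mul_nonneg hQ0.le (Int.fract_nonneg _))).trans ?_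
      nlinarith [Int.fract_lt_one (ξ i - 1 / 8)])
  obtain ⟨T, hTc, hTp, hTb, hTe⟩ := path_exists hT (by linarith) hu hv hm
  refine finish hTc hTp hδ0 hTb hκ hκ1 ?_
  have hfr : ∃ᶠ N : ℕ in atTop, ∃ j : ℕ, N = D * n * (1 + Q * j) := by
    refine frequently_atTop.2 fun N => ⟨_, ?_, N, rfl⟩
    have h1 : 0 < D := by exact_mod_cast hD1
    have h2 : 0 < Q := by exact_mod_cast hQ0
    calc N ≤ 1 + Q * N := by nlinarith
      _ ≤ _ := Nat.le_mul_of_pos_left _ (Nat.mul_pos h1 hn0)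
  refine (hfr.and_eventually (hTe (η / 4) (by positivity))).mono ?_
  rintro N ⟨⟨j, hj⟩, hN⟩
  have hN' : (N : ℝ) = D * n * (1 + Q * j) := by rw [hj]; push_cast; ring
  have hNδ : N * δ = ((n * (1 + Q * j) : ℕ) : ℤ) := by
    rw [hN', hδ]; push_cast; field_simp
  obtain ⟨c1, c2⟩ := hN ⟨_, hNδ⟩ fun i => by
    obtain ⟨z, hz'⟩ := hz i
    exact ⟨(1 + Q * j) * z, by rw [hN']; push_cast; rw [← hz']; ring⟩
  refine ⟨c1, fun k => ?_⟩
  obtain ⟨r, hr, hr2⟩ := c2 k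
  refine ⟨r, hr, ?_⟩
  have m1 := main_term (ph := fun i => (N * δ - k) * a i +
    (∫ σ in δ..(k / N), u i σ * (N * σ - k)) + 1 / 8) (G := fun σ => g σ (k / N))
    (e := 2 * π * (1 / Q)) (B := 1 + η / 2) hl1 hw0.le (by nlinarith) (by positivity)
    (by positivity) hC (fun σ => (hg σ).1.nonneg _) hD (fun σ => ((hg σ).2.2.2.2 _).1)
    (fun σ => ((hg σ).2.2.2.2 _).2) (fun σ hσ => ⟨(hg' σ _ hσ).2, k - (n * (1 + Q * j) : ℕ),
      w * ((∫ t in δ..(k / N), g σ t * (N * t - k)) + γ * ((∫ t in δ..(k / N), b t * (N * t - k)) +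
        ∫ t in δ..(3 * δ / 2), p t * (N * t - k))), fun i hi =>
      phase_close (j := j) (by exact_mod_cast hQ0) (by rw [hNδ]; push_cast; ring) (by
        rw [hph i N k _ (hg' σ _ hσ).1, hi]
        congr 2
        rw [hN']; field_simp)⟩)
  have hγ3 : ∑ _i : U, 2 * √(γ * (4 + 4 / δ)) ≤ η / 16 := by
    rw [Finset.sum_const, Finset.card_univ, nsmul_eq_mul]; exact hγ2
  rw [← hG] at m1
  have m2 : ∑ i, 2 * √(v i (k / N)) ≤ η / 16 := by
    refine le_trans ?_ hγ3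
    exact Finset.sum_le_sum fun i _ => by linarith [(hsq i (k / N)).2]
  have m3 : |∑ i, 2 * (ee ((N * δ - k) * a i + (∫ σ in δ..(k / N), u i σ * (N * σ - k)) +
      1 / 8)).re * √(u i (k / N)) - ∑ i, 2 * (ee ((N * δ - k) * a i +
      (∫ σ in δ..(k / N), u i σ * (N * σ - k)) + 1 / 8)).re * √(l i * w * g (s i) (k / N))| ≤
      η / 16 := by
    refine le_trans ?_ hγ3
    rw [← Finset.sum_sub_distrib]
    refine (Finset.abs_sum_le_sum_abs _ _).trans (Finset.sum_le_sum fun i _ => ?_)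
    rw [← mul_sub, abs_mul, abs_mul, abs_two]
    have q1 := (Complex.abs_re_le_norm _).trans (norm_ee ((N * δ - k) * a i +
      (∫ σ in δ..(k / N), u i σ * (N * σ - k)) + 1 / 8)).le
    calc _ ≤ 2 * 1 * √(γ * (4 + 4 / δ)) := by gcongr; exact (hsq i _).1
      _ = _ := by rw [mul_one]
  rw [abs_le] at m1 m3 hr2 ⊢
  constructor <;> linarith [m1.1, m1.2, m3.1, m3.2, hr2.1, hr2.2]

end Vale.Agent.P110
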