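import Mathlib

open Finset

namespace Vale.Agent.P110

def sg (b : Bool) : ℝ := if b then 1 else -1

lemma mgf_le {α : Type*} [Fintype α] [DecidableEq α] (a : α → ℝ) (ha : ∀ k, |a k| ≤ 1) (t : ℝ) :
    ∑ s : α → Bool, Real.exp (t * ∑ k, sg (s k) * a k) ≤
      2 ^ Fintype.card α * Real.exp (t ^ 2 * Fintype.card α / 2) := by
  have h1 : ∀ s : α → Bool, Real.exp (t * ∑ k, sg (s k) * a k) =
      ∏ k, Real.exp (t * (sg (s k) * a k)) := by
    intro s; rw [Finset.mul_sum, Real.exp_sum]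
  simp_rw [h1]
  rw [← Fintype.prod_sum (fun k (b : Bool) => Real.exp (t * (sg b * a k)))]
  have h2 : ∀ k, ∑ b : Bool, Real.exp (t * (sg b * a k)) ≤ 2 * Real.exp (t ^ 2 / 2) := by
    intro k
    have h3 := Real.cosh_le_exp_half_sq (t * a k)
    rw [Real.cosh_eq] at h3
    have h4 : Real.exp ((t * a k) ^ 2 / 2) ≤ Real.exp (t ^ 2 / 2) := by
      apply Real.exp_le_exp.2
      have : a k ^ 2 ≤ 1 := by
        have := ha k
        rw [← sq_abs]; nlinarith [abs_nonneg (a k)]
      nlinarith [sq_nonneg t]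
    simp only [Fintype.sum_bool, sg, if_true, one_mul, Bool.false_eq_true, if_false, neg_mul,
      mul_neg]
    linarith
  calc _ ≤ ∏ _k : α, 2 * Real.exp (t ^ 2 / 2) :=
        Finset.prod_le_prod (fun k _ => Finset.sum_nonneg fun b _ => (Real.exp_pos _).le)
          (fun k _ => h2 k)
    _ = _ := by
        rw [Finset.prod_const, Finset.card_univ, mul_pow, ← Real.exp_nat_mul]
        congr 2; ring

lemma abs_round_le_exp {l : ℝ} (hl : 1 ≤ l) (x : ℝ) :
    ((round x).natAbs : ℝ) ≤ Real.exp (-l / 2) * (Real.exp (l * x) + Real.exp (-(l * x))) := by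
  have hc : ((round x).natAbs : ℝ) = |(round x : ℝ)| := by
    rw [← Int.cast_natCast, Int.natCast_natAbs, Int.cast_abs]
  rw [hc]
  by_cases hx : |x| < 1 / 2
  · have : round x = 0 := by
      rw [round_eq_zero_iff]; rw [abs_lt] at hx; constructor <;> linarith [hx.1, hx.2]
    rw [this]; simp; positivity
  · push Not at hx
    have h1 : |(round x : ℝ)| ≤ |x| + 1 / 2 := by
      have := abs_sub_round x
      have h2 := abs_sub_abs_le_abs_sub (round x : ℝ) x
      rw [abs_sub_comm] at h2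
      linarith
    have h2 : |x| + 1 / 2 ≤ Real.exp (l * (|x| - 1 / 2)) := by
      have := Real.add_one_le_exp (l * (|x| - 1 / 2))
      nlinarith
    have h3 : Real.exp (l * (|x| - 1 / 2)) = Real.exp (-l / 2) * Real.exp (l * |x|) := by
      rw [← Real.exp_add]; congr 1; ring
    have h4 : Real.exp (l * |x|) ≤ Real.exp (l * x) + Real.exp (-(l * x)) := by
      rcases abs_cases x with h | h
      · rw [h.1]; linarith [Real.exp_pos (-(l * x))]
      · rw [h.1, mul_neg]; linarith [Real.exp_pos (l * x)]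
    calc _ ≤ Real.exp (-l / 2) * Real.exp (l * |x|) := by linarith
      _ ≤ _ := by gcongr

lemma sum_pow_natAbs_le {ρ : ℝ} (h0 : 0 ≤ ρ) (h1 : ρ ≤ 1 / 2) (R : ℕ) :
    ∑ z ∈ Icc (-(R : ℤ)) R, ρ ^ z.natAbs ≤ 1 + 4 * ρ - 4 * ρ ^ (R + 1) := by
  induction R with
  | zero => simp
  | succ R ih =>
    have : Icc (-((R + 1 : ℕ) : ℤ)) ((R + 1 : ℕ) : ℤ) =
        insert (-((R + 1 : ℕ) : ℤ)) (insert ((R + 1 : ℕ) : ℤ) (Icc (-(R : ℤ)) R)) := by
      ext z; simp only [mem_Icc, mem_insert]; omega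
    rw [this, sum_insert (by simp only [mem_Icc, mem_insert]; omega),
      sum_insert (by simp only [mem_Icc]; omega), Int.natAbs_neg, Int.natAbs_natCast]
    have h2 : 0 ≤ ρ ^ (R + 1) := by positivity
    rw [pow_succ ρ (R + 1)]
    nlinarith

lemma sum_weight_le {κ : Type*} [Fintype κ] [DecidableEq κ] {ρ : ℝ} (h0 : 0 ≤ ρ) (h1 : ρ ≤ 1 / 2)
    (B : Finset (κ → ℤ)) :
    ∑ b ∈ B, ∏ i, ρ ^ (b i).natAbs ≤ Real.exp (4 * ρ * Fintype.card κ) := by
  set R := B.sup fun b => Finset.univ.sup fun i => (b i).natAbs with hR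
  have hsub : B ⊆ Fintype.piFinset fun _ => Icc (-(R : ℤ)) R := by
    intro b hb
    rw [Fintype.mem_piFinset]
    intro i
    have h2 : (b i).natAbs ≤ R :=
      le_trans (Finset.le_sup (f := fun i => (b i).natAbs) (mem_univ i))
        (Finset.le_sup (f := fun b : κ → ℤ => Finset.univ.sup fun i => (b i).natAbs) hb)
    rw [mem_Icc]; omega
  calc _ ≤ ∑ b ∈ Fintype.piFinset fun _ : κ => Icc (-(R : ℤ)) R, ∏ i, ρ ^ (b i).natAbs :=
        Finset.sum_le_sum_of_subset_of_nonneg hsub fun _ _ _ => by positivity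
    _ = ∏ _i : κ, ∑ z ∈ Icc (-(R : ℤ)) R, ρ ^ z.natAbs :=
        (Finset.prod_univ_sum (fun _ : κ => Icc (-(R : ℤ)) R) fun _ z => ρ ^ z.natAbs).symm
    _ ≤ ∏ _i : κ, Real.exp (4 * ρ) := by
        refine Finset.prod_le_prod (fun _ _ => by positivity) fun _ _ => ?_
        have := sum_pow_natAbs_le h0 h1 R
        have h2 := Real.add_one_le_exp (4 * ρ)
        have h3 : 0 ≤ ρ ^ (R + 1) := by positivity
        linarith
    _ = _ := by
        rw [Finset.prod_const, Finset.card_univ, ← Real.exp_nat_mul]; congr 1; ring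

lemma ball_le {α : Type*} [Fintype α] [DecidableEq α] (s₀ : α → Bool) (S : Finset (α → Bool))
    (hS : ∀ s ∈ S, 10 * (univ.filter fun k => s k ≠ s₀ k).card < Fintype.card α) :
    (S.card : ℝ) ≤ Real.exp (2 / 5 * Fintype.card α) := by
  set n := Fintype.card α
  have h1 : ∑ s : α → Bool, ∏ k, (if s k ≠ s₀ k then Real.exp (-2) else 1) ≤
      Real.exp (1 / 5 * n) := by
    rw [← Fintype.prod_sum (fun k (b : Bool) => if b ≠ s₀ k then Real.exp (-2) else 1)]
    have h2 : ∀ k, ∑ b : Bool, (if b ≠ s₀ k then Real.exp (-2) else 1) ≤ Real.exp (1 / 5) := by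
      intro k
      have h3 : Real.exp (-2) ≤ 1 / 5 := by
        rw [Real.exp_neg, one_div]
        apply inv_anti₀ (by norm_num)
        have := Real.quadratic_le_exp_of_nonneg (x := 2) (by norm_num)
        linarith
      have h4 := Real.add_one_le_exp (1 / 5)
      rw [Fintype.sum_bool]
      cases s₀ k <;> simp <;> linarith
    calc _ ≤ ∏ _k : α, Real.exp (1 / 5) :=
          Finset.prod_le_prod (fun k _ => Finset.sum_nonneg fun b _ => by
            split_ifs <;> positivity) (fun k _ => h2 k)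
      _ = _ := by
          rw [Finset.prod_const, Finset.card_univ, ← Real.exp_nat_mul]; congr 1; ring
  have h2 : ∀ s ∈ S, Real.exp (-(1 / 5 * n)) ≤
      ∏ k, (if s k ≠ s₀ k then Real.exp (-2) else 1) := by
    intro s hs
    rw [Finset.prod_ite, Finset.prod_const_one, mul_one, Finset.prod_const, ← Real.exp_nat_mul]
    apply Real.exp_le_exp.2
    have : (10 * ((univ.filter fun k => s k ≠ s₀ k).card : ℝ)) < n := by exact_mod_cast hS s hs
    linarith
  have h3 : S.card * Real.exp (-(1 / 5 * n)) ≤ Real.exp (1 / 5 * n) := by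
    calc _ = ∑ _s ∈ S, Real.exp (-(1 / 5 * n)) := by simp
      _ ≤ ∑ s ∈ S, ∏ k, (if s k ≠ s₀ k then Real.exp (-2) else 1) := Finset.sum_le_sum h2
      _ ≤ ∑ s : α → Bool, ∏ k, (if s k ≠ s₀ k then Real.exp (-2) else 1) :=
          Finset.sum_le_sum_of_subset_of_nonneg (subset_univ _) fun _ _ _ =>
            Finset.prod_nonneg fun k _ => by split_ifs <;> positivity
      _ ≤ _ := h1
  have h4 : Real.exp (2 / 5 * n) * Real.exp (-(1 / 5 * n)) = Real.exp (1 / 5 * n) := by
    rw [← Real.exp_add]; congr 1; ring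
  rw [← h4] at h3
  exact le_of_mul_le_mul_right h3 (Real.exp_pos _)

lemma sum_exp_ge {β : Type*} (S : Finset β) (x : β → ℝ) (x₀ : ℝ)
    (h : S.card * x₀ ≤ ∑ s ∈ S, x s) : S.card * Real.exp x₀ ≤ ∑ s ∈ S, Real.exp (x s) := by
  have h1 : ∀ s ∈ S, Real.exp x₀ * (1 + x s - x₀) ≤ Real.exp (x s) := by
    intro s _
    have := Real.add_one_le_exp (x s - x₀)
    have h2 : Real.exp (x s) = Real.exp x₀ * Real.exp (x s - x₀) := by
      rw [← Real.exp_add]; congr 1; ring
    rw [h2]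
    apply mul_le_mul_of_nonneg_left _ (Real.exp_pos _).le
    linarith
  refine le_trans ?_ (Finset.sum_le_sum h1)
  rw [← Finset.mul_sum, Finset.sum_sub_distrib, Finset.sum_add_distrib]
  simp only [sum_const, nsmul_eq_mul, mul_one]
  nlinarith [Real.exp_pos x₀]

lemma exp_small {l n m : ℝ} (hn : 0 < n) (hm : 0 < m) (hl : 0 < l)
    (h : 20 ^ 4 * m ≤ l ^ 4 * n) : 1600 * m ^ 2 * Real.exp (-l / 2) ≤ n ^ 2 := by
  have h1 := Real.pow_div_factorial_le_exp (l / 2) (by positivity) 8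
  have h2 : (Nat.factorial 8 : ℝ) = 40320 := by norm_num [Nat.factorial]
  rw [h2] at h1
  have h3 : Real.exp (-l / 2) * Real.exp (l / 2) = 1 := by
    rw [← Real.exp_add]; simp [neg_div]
  have h4 : (20 ^ 4 * m) ^ 2 ≤ (l ^ 4 * n) ^ 2 := by gcongr
  have h5 : 1600 * m ^ 2 ≤ n ^ 2 * Real.exp (l / 2) := by
    have : 1600 * m ^ 2 ≤ n ^ 2 * ((l / 2) ^ 8 / 40320) := by nlinarith
    refine this.trans ?_
    gcongr
  have h6 := Real.exp_pos (-l / 2)
  calc _ ≤ n ^ 2 * Real.exp (l / 2) * Real.exp (-l / 2) := by gcongr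
    _ = n ^ 2 := by rw [mul_assoc, mul_comm (Real.exp _), h3, mul_one]

lemma sum_round_le {α : Type*} [Fintype α] [DecidableEq α] (a : α → ℝ) (ha : ∀ k, |a k| ≤ 1)
    (hn : 0 < Fintype.card α) {Δ l : ℝ} (hl : 1 ≤ l) (hΔ : Δ = l * √(Fintype.card α)) :
    ∑ s : α → Bool, ((round ((∑ k, sg (s k) * a k) / Δ)).natAbs : ℝ) ≤
      2 ^ Fintype.card α * (4 * Real.exp (-l / 2)) := by
  set n := Fintype.card α
  have hn' : (0 : ℝ) < n := by exact_mod_cast hn
  have hσ : 0 < √(n : ℝ) := Real.sqrt_pos.2 hn'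
  set t := 1 / √(n : ℝ) with ht
  have ht2 : t ^ 2 * n / 2 = 1 / 2 := by
    rw [ht, div_pow, Real.sq_sqrt hn'.le]; field_simp
  have he : Real.exp (1 / 2) ≤ 2 := by
    have h1 : Real.exp (1 / 2) * Real.exp (1 / 2) = Real.exp 1 := by
      rw [← Real.exp_add]; norm_num
    have := Real.exp_one_lt_d9
    nlinarith [Real.exp_pos (1 / 2)]
  have h1 := mgf_le a ha t
  have h2 := mgf_le a ha (-t)
  rw [neg_sq] at h2
  rw [ht2] at h1 h2
  have h3 : ∀ s : α → Bool, ((round ((∑ k, sg (s k) * a k) / Δ)).natAbs : ℝ) ≤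
      Real.exp (-l / 2) * (Real.exp (t * ∑ k, sg (s k) * a k) +
        Real.exp (-t * ∑ k, sg (s k) * a k)) := by
    intro s
    have := abs_round_le_exp hl ((∑ k, sg (s k) * a k) / Δ)
    have h4 : l * ((∑ k, sg (s k) * a k) / Δ) = t * ∑ k, sg (s k) * a k := by
      rw [hΔ, ht]; field_simp
    rw [h4, ← neg_mul] at this
    exact this
  refine (Finset.sum_le_sum fun s _ => h3 s).trans ?_
  rw [← Finset.mul_sum, Finset.sum_add_distrib]
  have h5 := Real.exp_pos (-l / 2)
  have h6 : (0 : ℝ) < 2 ^ n := by positivity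
  calc _ ≤ Real.exp (-l / 2) * (2 ^ n * 2 + 2 ^ n * 2) := by
        gcongr
        · exact h1.trans (by gcongr)
        · exact h2.trans (by gcongr)
    _ = _ := by ring

/-- Two far-apart sign vectors in one cell. -/
lemma exists_pair {α κ : Type*} [Fintype α] [DecidableEq α] [Fintype κ] [DecidableEq κ]
    (a : κ → α → ℝ) (ha : ∀ i k, |a i k| ≤ 1) (hn : 0 < Fintype.card α)
    (hm : Fintype.card α ≤ Fintype.card κ) {D : ℝ} (hD : 0 ≤ D)
    (hD4 : (Fintype.card κ : ℝ) * Fintype.card α ≤ D ^ 4) :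
    ∃ s s' : α → Bool, Fintype.card α ≤ 10 * (univ.filter fun k => s k ≠ s' k).card ∧
      ∀ i, |∑ k, sg (s k) * a i k - ∑ k, sg (s' k) * a i k| ≤ 20 * D := by
  set n := Fintype.card α with hndef
  set m := Fintype.card κ with hmdef
  have hn' : (0 : ℝ) < n := by exact_mod_cast hn
  have hm' : (n : ℝ) ≤ m := by exact_mod_cast hm
  have hm0 : (0 : ℝ) < m := by linarith
  have hσ : 0 < √(n : ℝ) := Real.sqrt_pos.2 hn'
  have hD0 : 0 < D := by
    rcases hD.eq_or_lt with h | h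
    · rw [← h] at hD4; nlinarith [mul_pos hm0 hn']
    · exact h
  set l := 20 * D / √(n : ℝ) with hl
  have hl0 : 0 < l := by positivity
  have hl4 : l ^ 4 * n ^ 2 = 20 ^ 4 * D ^ 4 := by
    have : (n : ℝ) ^ 2 = √(n : ℝ) ^ 4 := by
      rw [show (4 : ℕ) = 2 * 2 by norm_num, pow_mul, Real.sq_sqrt hn'.le]
    rw [this, hl]; field_simp
  have hl5 : 20 ^ 4 * m ≤ l ^ 4 * n := by
    have : 20 ^ 4 * m * n ≤ l ^ 4 * n * n := by nlinarith
    exact le_of_mul_le_mul_right this hn'
  have hl1 : 1 ≤ l := by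
    by_contra h
    push Not at h
    have : l ^ 4 ≤ 1 := pow_le_one₀ hl0.le h.le
    nlinarith
  have hΔ : 20 * D = l * √(n : ℝ) := by rw [hl]; field_simp
  set b : (α → Bool) → κ → ℤ := fun s i => round ((∑ k, sg (s k) * a i k) / (20 * D)) with hb
  by_contra hcon
  push Not at hcon
  have hcell : ∀ c : κ → ℤ, ((univ.filter fun s => b s = c).card : ℝ) ≤ Real.exp (2 / 5 * n) := by
    intro c
    rcases (univ.filter fun s => b s = c).eq_empty_or_nonempty with h | ⟨s₀, hs₀⟩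
    · rw [h]; simp; positivity
    · apply ball_le s₀
      intro s hs
      by_contra h
      push Not at h
      obtain ⟨i, hi⟩ := hcon s s₀ h
      have h1 : b s i = b s₀ i := by rw [(mem_filter.1 hs).2, (mem_filter.1 hs₀).2]
      have h2 := abs_sub_round ((∑ k, sg (s k) * a i k) / (20 * D))
      have h3 := abs_sub_round ((∑ k, sg (s₀ k) * a i k) / (20 * D))
      simp only [hb] at h1
      rw [h1] at h2
      have h4 : |(∑ k, sg (s k) * a i k) / (20 * D) - (∑ k, sg (s₀ k) * a i k) / (20 * D)| ≤ 1 := by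
        rw [abs_le] at h2 h3 ⊢; constructor <;> linarith [h2.1, h2.2, h3.1, h3.2]
      rw [← sub_div, abs_div, abs_of_pos (by positivity : (0 : ℝ) < 20 * D),
        div_le_one (by positivity)] at h4
      linarith
  set ρ : ℝ := n / (40 * m) with hρ
  have hρ0 : 0 < ρ := by positivity
  have hρ1 : ρ ≤ 1 / 2 := by
    rw [hρ, div_le_iff₀ (by positivity)]; linarith
  have hup : ∑ s : α → Bool, ∏ i, ρ ^ (b s i).natAbs ≤
      Real.exp (2 / 5 * n) * Real.exp (4 * ρ * m) := by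
    rw [← Finset.sum_fiberwise_of_maps_to (t := univ.image b)
      (fun s _ => mem_image_of_mem b (mem_univ s))]
    calc _ ≤ ∑ c ∈ univ.image b, Real.exp (2 / 5 * n) * ∏ i, ρ ^ (c i).natAbs := by
          refine Finset.sum_le_sum fun c _ => ?_
          rw [Finset.sum_congr rfl (g := fun _ => ∏ i, ρ ^ (c i).natAbs)
            (fun s hs => by rw [(mem_filter.1 hs).2]), Finset.sum_const, nsmul_eq_mul]
          gcongr
          exact hcell c
      _ ≤ _ := by
          rw [← Finset.mul_sum]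
          gcongr
          exact sum_weight_le hρ0.le hρ1 _
  have hlow : ∀ s : α → Bool, Real.exp (-(1 / ρ) * ∑ i, ((b s i).natAbs : ℝ)) ≤
      ∏ i, ρ ^ (b s i).natAbs := by
    intro s
    rw [Finset.mul_sum, Real.exp_sum]
    refine Finset.prod_le_prod (fun _ _ => (Real.exp_pos _).le) fun i _ => ?_
    rw [mul_comm, Real.exp_nat_mul]
    gcongr
    rw [Real.exp_neg, inv_le_comm₀ (Real.exp_pos _) hρ0, ← one_div]
    linarith [Real.add_one_le_exp (1 / ρ)]
  have hmean : ((univ : Finset (α → Bool)).card : ℝ) * (-(1 / 10 * n)) ≤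
      ∑ s : α → Bool, -(1 / ρ) * ∑ i, ((b s i).natAbs : ℝ) := by
    rw [← Finset.mul_sum, Finset.sum_comm]
    have h1 : ∑ i, ∑ s : α → Bool, ((b s i).natAbs : ℝ) ≤
        ∑ _i : κ, 2 ^ n * (4 * Real.exp (-l / 2)) :=
      Finset.sum_le_sum fun i _ => sum_round_le (a i) (ha i) hn hl1 hΔ
    rw [Finset.sum_const, Finset.card_univ, nsmul_eq_mul] at h1
    have h2 := exp_small hn' hm0 hl0 hl5
    have h3 : ((univ : Finset (α → Bool)).card : ℝ) = 2 ^ n := by
      simp [hndef]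
    rw [h3]
    have h4 : 1 / ρ * (m * (2 ^ n * (4 * Real.exp (-l / 2)))) ≤ 2 ^ n * (1 / 10 * n) := by
      have : 1 / ρ * (m * (2 ^ n * (4 * Real.exp (-l / 2)))) =
          2 ^ n * (1600 * m ^ 2 * Real.exp (-l / 2) / (10 * n)) := by
        rw [hρ]; field_simp; ring
      rw [this]
      gcongr
      rw [div_le_iff₀ (by positivity)]; nlinarith
    have h5 : 1 / ρ * ∑ i, ∑ s : α → Bool, ((b s i).natAbs : ℝ) ≤
        1 / ρ * (m * (2 ^ n * (4 * Real.exp (-l / 2)))) := by gcongr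
    linarith
  have h6 := sum_exp_ge _ _ _ hmean
  have h7 := (h6.trans (Finset.sum_le_sum fun s _ => hlow s)).trans hup
  have h3 : ((univ : Finset (α → Bool)).card : ℝ) = Real.exp (Real.log 2 * n) := by
    rw [mul_comm, Real.exp_nat_mul, Real.exp_log (by norm_num)]; simp [hndef]
  have h8 : 4 * ρ * m = 1 / 10 * n := by rw [hρ]; field_simp; ring
  rw [h3, h8, ← Real.exp_add, ← Real.exp_add, Real.exp_le_exp] at h7
  have := Real.log_two_gt_d9
  nlinarith

end Vale.Agent.P110
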