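import Vale.Agent.P110.Basic
import Vale.Agent.P110.Disc

open Finset

namespace Vale.Agent.P110

lemma half_col {ι κ : Type*} [DecidableEq ι] [Fintype κ] [DecidableEq κ]
    (a : κ → ι → ℝ) (ha : ∀ i k, |a i k| ≤ 1) (T : Finset ι) (hT : T.Nonempty)
    (hm : T.card ≤ Fintype.card κ) {D : ℝ} (hD : 0 ≤ D)
    (hD4 : (Fintype.card κ : ℝ) * T.card ≤ D ^ 4) :
    ∃ U ⊆ T, T.card ≤ 10 * U.card ∧ ∃ s : ι → ℝ, (∀ k, s k = 1 ∨ s k = -1) ∧
      ∀ i, |∑ k ∈ U, s k * a i k| ≤ 10 * D := by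
  obtain ⟨s, s', h1, h2⟩ := exists_pair (α := T) (fun i k => a i k) (fun i k => ha i k)
    (by simpa using hT) (by simpa using hm) hD (by simpa using hD4)
  refine ⟨(univ.filter fun k => s k ≠ s' k).map (Function.Embedding.subtype _), ?_, ?_,
    fun k => if h : k ∈ T then sg (s ⟨k, h⟩) else 1, ?_, ?_⟩
  · intro k hk
    obtain ⟨k', -, rfl⟩ := Finset.mem_map.1 hk
    exact k'.2
  · simpa using h1
  · intro k
    by_cases h : k ∈ T
    · simp only [h, dite_true, sg]; split_ifs <;> simp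
    · simp [h]
  · intro i
    have h3 := h2 i
    rw [← Finset.sum_sub_distrib] at h3
    rw [Finset.sum_map, Finset.sum_filter]
    have h4 : ∑ k : T, (sg (s k) * a i k - sg (s' k) * a i k) =
        2 * ∑ k : T, if s k ≠ s' k then
          (if h : (Function.Embedding.subtype (· ∈ T) k) ∈ T then
            sg (s ⟨Function.Embedding.subtype (· ∈ T) k, h⟩) else 1) *
            a i (Function.Embedding.subtype (· ∈ T) k) else 0 := by
      rw [Finset.mul_sum]
      refine Finset.sum_congr rfl fun k _ => ?_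
      simp only [Function.Embedding.subtype_apply, k.2, dite_true, Subtype.coe_eta]
      cases s k <;> cases s' k <;> simp [sg] <;> ring
    rw [h4, abs_mul, abs_two] at h3
    linarith

lemma full_col {ι κ : Type*} [DecidableEq ι] [Fintype κ] [DecidableEq κ]
    (a : κ → ι → ℝ) (ha : ∀ i k, |a i k| ≤ 1) (n : ℕ) :
    ∀ (T : Finset ι), T.card = n → T.card ≤ Fintype.card κ → ∀ D : ℝ, 0 ≤ D →
      (Fintype.card κ : ℝ) * T.card ≤ D ^ 4 →
      ∃ s : ι → ℝ, (∀ k, s k = 1 ∨ s k = -1) ∧ ∀ i, |∑ k ∈ T, s k * a i k| ≤ 400 * D := by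
  induction n using Nat.strong_induction_on with
  | _ n ih =>
    intro T hn hm D hD hD4
    rcases T.eq_empty_or_nonempty with rfl | hT
    · exact ⟨fun _ => 1, fun _ => Or.inl rfl, fun i => by simp; positivity⟩
    obtain ⟨U, hU, hc, s, hs, hs2⟩ := half_col a ha T hT hm hD hD4
    have hpos := hT.card_pos
    have hcard : (T \ U).card + U.card = T.card := Finset.card_sdiff_add_card_eq_card hU
    obtain ⟨s', hs', hs2'⟩ := ih (T \ U).card (by omega) (T \ U) rfl (by omega) (39 / 40 * D)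
      (by positivity) (by
        have h1 : (10 * (T \ U).card : ℝ) ≤ 9 * T.card := by
          have : 10 * (T \ U).card ≤ 9 * T.card := by omega
          exact_mod_cast this
        have h2 : (0 : ℝ) ≤ Fintype.card κ := by positivity
        have h3 : 0 ≤ D ^ 4 := by positivity
        rw [mul_pow]
        nlinarith)
    refine ⟨fun k => if k ∈ U then s k else s' k, fun k => ?_, fun i => ?_⟩
    · dsimp only; split_ifs
      · exact hs k
      · exact hs' k
    · rw [← Finset.sum_sdiff hU]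
      have h1 : ∑ k ∈ T \ U, (if k ∈ U then s k else s' k) * a i k =
          ∑ k ∈ T \ U, s' k * a i k :=
        Finset.sum_congr rfl fun k hk => by rw [if_neg (mem_sdiff.1 hk).2]
      have h2 : ∑ k ∈ U, (if k ∈ U then s k else s' k) * a i k = ∑ k ∈ U, s k * a i k :=
        Finset.sum_congr rfl fun k hk => by rw [if_pos hk]
      rw [h1, h2]
      refine (abs_add_le _ _).trans ?_
      linarith [hs2 i, hs2' i]

lemma full_col_neg {ι κ : Type*} [DecidableEq ι] [Fintype κ] [DecidableEq κ]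
    (a : κ → ι → ℝ) (ha : ∀ i k, |a i k| ≤ 1) (T : Finset ι) (hm : T.card ≤ Fintype.card κ)
    (D : ℝ) (hD : 0 ≤ D) (hD4 : (Fintype.card κ : ℝ) * T.card ≤ D ^ 4) :
    ∃ s : ι → ℝ, (∀ k, s k = 1 ∨ s k = -1) ∧ ∑ k ∈ T, s k ≤ 0 ∧
      ∀ i, |∑ k ∈ T, s k * a i k| ≤ 400 * D := by
  obtain ⟨s, hs, hs2⟩ := full_col a ha _ T rfl hm D hD hD4
  by_cases h : ∑ k ∈ T, s k ≤ 0
  · exact ⟨s, hs, h, hs2⟩
  · refine ⟨fun k => -s k, fun k => ?_, ?_, fun i => ?_⟩
    · rcases hs k with h | h <;> simp [h]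
    · rw [Finset.sum_neg_distrib]; linarith
    · simp only [neg_mul, Finset.sum_neg_distrib, abs_neg]; exact hs2 i

lemma dyadic_round {ι κ : Type*} [DecidableEq ι] [Fintype κ] [DecidableEq κ]
    (a : κ → ι → ℝ) (ha : ∀ i k, |a i k| ≤ 1) (S : Finset ι) (hm : S.card ≤ Fintype.card κ)
    (D : ℝ) (hD : 0 ≤ D) (L : ℕ) :
    ∀ p : ι → ℕ, (∀ k, p k ≤ 2 ^ L) →
      (Fintype.card κ : ℝ) * ∑ k ∈ S, (p k : ℝ) ≤ D ^ 4 * 2 ^ L →
      ∃ z : ι → ℝ, (∀ k, z k = 0 ∨ z k = 1) ∧
        ∀ i, |∑ k ∈ S, (p k / 2 ^ L - z k) * a i k| ≤ 1200 * D * (1 - (3 / 4) ^ L) := by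
  induction L with
  | zero =>
    intro p hp _
    refine ⟨fun k => p k, fun k => ?_, fun i => by simp⟩
    have := hp k
    have h2 : p k = 0 ∨ p k = 1 := by omega
    rcases h2 with h | h <;> simp [h]
  | succ L ih =>
    intro p hp hsum
    set T := S.filter fun k => p k % 2 = 1 with hT
    have hTS : T ⊆ S := filter_subset _ _
    have hTc : (T.card : ℝ) ≤ ∑ k ∈ S, (p k : ℝ) := by
      calc (T.card : ℝ) = ∑ _k ∈ T, (1 : ℝ) := by simp
        _ ≤ ∑ k ∈ T, (p k : ℝ) := Finset.sum_le_sum fun k hk => by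
            have := (mem_filter.1 hk).2
            have h2 : 1 ≤ p k := by omega
            exact_mod_cast h2
        _ ≤ _ := Finset.sum_le_sum_of_subset_of_nonneg hTS fun _ _ _ => by positivity
    obtain ⟨s, hs, hs0, hs2⟩ := full_col_neg a ha T ((card_le_card hTS).trans hm)
      (D * (3 / 2) ^ (L + 1)) (by positivity) (by
        have h1 : (2 : ℝ) ^ (L + 1) ≤ ((3 / 2) ^ (L + 1)) ^ 4 := by
          rw [← pow_mul, mul_comm, pow_mul]; gcongr; norm_num
        calc _ ≤ (Fintype.card κ : ℝ) * ∑ k ∈ S, (p k : ℝ) := by gcongr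
          _ ≤ D ^ 4 * 2 ^ (L + 1) := hsum
          _ ≤ _ := by rw [mul_pow]; gcongr)
    set p' : ι → ℕ := fun k => if p k % 2 = 1 ∧ s k = 1 then p k / 2 + 1 else p k / 2 with hp'
    have hrel : ∀ k, (p' k : ℝ) * 2 = p k + if p k % 2 = 1 then s k else 0 := by
      intro k
      simp only [hp']
      by_cases h : p k % 2 = 1
      · rcases hs k with h2 | h2
        · have : (p k / 2 + 1) * 2 = p k + 1 := by omega
          simp only [h, h2, and_self, if_true]; exact_mod_cast this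
        · have h3 : s k ≠ 1 := by rw [h2]; norm_num
          have : (p k / 2) * 2 + 1 = p k := by omega
          have h4 : ((p k / 2 : ℕ) : ℝ) * 2 + 1 = p k := by exact_mod_cast this
          simp only [h, h3, and_false, if_false, if_true]; linarith
      · have : (p k / 2) * 2 = p k := by omega
        simp only [h, false_and, if_false, add_zero]; exact_mod_cast this
    obtain ⟨z, hz, hz2⟩ := ih p' (fun k => by
        have := hp k
        rw [pow_succ] at this
        simp only [hp']; split_ifs with h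
        · omega
        · omega) (by
        have h1 : (∑ k ∈ S, (p' k : ℝ)) * 2 = ∑ k ∈ S, (p k : ℝ) + ∑ k ∈ T, s k := by
          rw [Finset.sum_mul, hT, Finset.sum_filter, ← Finset.sum_add_distrib]
          exact Finset.sum_congr rfl fun k _ => hrel k
        have h2 : (0 : ℝ) ≤ Fintype.card κ := by positivity
        rw [pow_succ (2 : ℝ)] at hsum
        nlinarith)
    refine ⟨z, hz, fun i => ?_⟩
    have h1 : ∑ k ∈ S, (p k / 2 ^ (L + 1) - z k) * a i k =
        ∑ k ∈ S, (p' k / 2 ^ L - z k) * a i k - (∑ k ∈ T, s k * a i k) / 2 ^ (L + 1) := by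
      rw [hT, Finset.sum_filter, Finset.sum_div, ← Finset.sum_sub_distrib]
      refine Finset.sum_congr rfl fun k _ => ?_
      have := hrel k
      have h3 : (p' k : ℝ) = (p k + if p k % 2 = 1 then s k else 0) / 2 := by linarith
      rw [h3, pow_succ]
      split_ifs <;> field_simp <;> ring
    rw [h1]
    refine (abs_sub _ _).trans ?_
    have h2 : |(∑ k ∈ T, s k * a i k) / 2 ^ (L + 1)| ≤ 400 * D * (3 / 4) ^ (L + 1) := by
      rw [abs_div, abs_of_pos (by positivity : (0 : ℝ) < 2 ^ (L + 1)),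
        div_le_iff₀ (by positivity)]
      refine (hs2 i).trans (le_of_eq ?_)
      rw [mul_assoc (400 * D), ← mul_pow]; norm_num; ring
    have h3 := hz2 i
    rw [pow_succ (3 / 4 : ℝ)] at h2 ⊢
    linarith

lemma real_round {ι κ : Type*} [DecidableEq ι] [Fintype κ] [DecidableEq κ]
    (a : κ → ι → ℝ) (ha : ∀ i k, |a i k| ≤ 1) (S : Finset ι) (hm : S.card ≤ Fintype.card κ)
    (D : ℝ) (hD : 0 < D) (y : ι → ℝ) (hy0 : ∀ k, 0 ≤ y k) (hy1 : ∀ k, y k ≤ 1)
    (hsum : (Fintype.card κ : ℝ) * ∑ k ∈ S, y k ≤ D ^ 4) :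
    ∃ z : ι → ℝ, (∀ k, z k = 0 ∨ z k = 1) ∧
        ∀ i, |∑ k ∈ S, (y k - z k) * a i k| ≤ 1201 * D := by
  obtain ⟨L, hL⟩ := pow_unbounded_of_one_lt (S.card / D) (by norm_num : (1 : ℝ) < 2)
  have hfl : ∀ k, (⌊y k * 2 ^ L⌋₊ : ℝ) ≤ y k * 2 ^ L := fun k =>
    Nat.floor_le (by have := hy0 k; positivity)
  obtain ⟨z, hz, hz2⟩ := dyadic_round a ha S hm D hD.le L (fun k => ⌊y k * 2 ^ L⌋₊)
    (fun k => by
      apply Nat.floor_le_of_le
      have := hy1 k
      push_cast
      nlinarith [pow_pos (by norm_num : (0 : ℝ) < 2) L]) (by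
      calc _ ≤ (Fintype.card κ : ℝ) * ∑ k ∈ S, y k * 2 ^ L := by gcongr with k; exact hfl k
        _ = (Fintype.card κ : ℝ) * (∑ k ∈ S, y k) * 2 ^ L := by rw [← Finset.sum_mul]; ring
        _ ≤ _ := by gcongr)
  refine ⟨z, hz, fun i => ?_⟩
  have h1 : ∑ k ∈ S, (y k - z k) * a i k =
      ∑ k ∈ S, (⌊y k * 2 ^ L⌋₊ / 2 ^ L - z k) * a i k +
        ∑ k ∈ S, (y k - ⌊y k * 2 ^ L⌋₊ / 2 ^ L) * a i k := by
    rw [← Finset.sum_add_distrib]
    exact Finset.sum_congr rfl fun k _ => by ring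
  have h2 : |∑ k ∈ S, (y k - ⌊y k * 2 ^ L⌋₊ / 2 ^ L) * a i k| ≤ D := by
    refine (Finset.abs_sum_le_sum_abs _ _).trans ?_
    have h3 : ∀ k ∈ S, |(y k - ⌊y k * 2 ^ L⌋₊ / 2 ^ L) * a i k| ≤ 1 / 2 ^ L := by
      intro k _
      have h4 : y k - ⌊y k * 2 ^ L⌋₊ / 2 ^ L = (y k * 2 ^ L - ⌊y k * 2 ^ L⌋₊) / 2 ^ L := by
        field_simp
      have h5 := Nat.lt_floor_add_one (y k * 2 ^ L)
      have h6 : |y k * 2 ^ L - ⌊y k * 2 ^ L⌋₊| ≤ 1 := by
        rw [abs_le]; constructor <;> linarith [hfl k]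
      rw [abs_mul, h4, abs_div, abs_of_pos (by positivity : (0 : ℝ) < 2 ^ L)]
      rw [← mul_one (1 / 2 ^ L : ℝ)]
      gcongr
      exact ha i k
    refine (Finset.sum_le_sum h3).trans ?_
    rw [Finset.sum_const, nsmul_eq_mul, mul_one_div, div_le_iff₀ (by positivity)]
    rw [div_lt_iff₀ hD] at hL
    linarith
  rw [h1]
  refine (abs_add_le _ _).trans ?_
  have h3 := hz2 i
  have h4 : 0 ≤ D * (3 / 4) ^ L := by positivity
  linarith

/-- Rounding real coefficients in `[-1,1]` to signs. -/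
theorem round_signs (N : ℕ) (hN : 0 < N) (x : ℕ → ℝ) (hx : ∀ k, |x k| ≤ 1) (D : ℝ) (hD : 0 < D)
    (hsum : 2 * N * ∑ k ∈ range N, (1 - |x k|) ≤ D ^ 4) :
    ∃ ε : ℕ → ℝ, (∀ k, ε k = 1 ∨ ε k = -1) ∧
      ∀ θ : ℝ, ‖∑ k ∈ range N, ((x k - ε k : ℝ) : ℂ) * ee (k * θ)‖ ≤ 7206 * D := by
  set σ : ℕ → ℝ := fun k => if 0 ≤ x k then 1 else -1 with hσ
  have hσ1 : ∀ k, |σ k| = 1 := fun k => by simp only [hσ]; split_ifs <;> simp
  have hσ2 : ∀ k, x k = σ k * |x k| := fun k => by
    simp only [hσ]; split_ifs with h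
    · rw [abs_of_nonneg h, one_mul]
    · rw [abs_of_neg (not_le.1 h)]; ring
  set a : Fin (2 * N) × Bool → ℕ → ℝ := fun i k =>
    σ k * if i.2 then (ee (k * ((i.1 : ℕ) / (2 * N : ℕ)))).re
      else (ee (k * ((i.1 : ℕ) / (2 * N : ℕ)))).im with ha
  obtain ⟨z, hz, hz2⟩ := real_round a (fun i k => by
      simp only [ha]
      rw [abs_mul, hσ1, one_mul]
      split_ifs
      · exact (Complex.abs_re_le_norm _).trans (norm_ee _).le
      · exact (Complex.abs_im_le_norm _).trans (norm_ee _).le) (range N) (by simp; omega) D hD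
    (fun k => (1 - |x k|) / 2) (fun k => by linarith [hx k])
    (fun k => by linarith [abs_nonneg (x k)]) (by
      rw [← Finset.sum_div]
      simp only [Fintype.card_prod, Fintype.card_fin, Fintype.card_bool]
      push_cast; linarith)
  refine ⟨fun k => σ k * (1 - 2 * z k), fun k => ?_, fun θ => ?_⟩
  · simp only [hσ]
    rcases hz k with h | h <;> split_ifs <;> simp [h] <;> norm_num
  · refine (grid_to_sup N hN _ (4804 * D) (fun j hj => ?_) θ).trans (by linarith)
    refine (Complex.norm_le_abs_re_add_abs_im _).trans ?_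
    have h1 := hz2 (⟨j, mem_range.1 hj⟩, true)
    have h2 := hz2 (⟨j, mem_range.1 hj⟩, false)
    have h3 : ∀ k, x k - σ k * (1 - 2 * z k) = -2 * (((1 - |x k|) / 2 - z k) * σ k) := by
      intro k
      have := hσ2 k
      linarith
    simp only [ha, if_true, Bool.false_eq_true, if_false] at h1 h2
    rw [Complex.re_sum, Complex.im_sum]
    simp only [Complex.re_ofReal_mul, Complex.im_ofReal_mul, h3, mul_assoc]
    rw [← Finset.mul_sum, ← Finset.mul_sum, abs_mul, abs_mul]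
    norm_num
    norm_num at h1 h2
    linarith

end Vale.Agent.P110
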