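import Vale.Agent.P110.Path
import Vale.Agent.P110.Round

open Complex Set MeasureTheory Filter Topology
open scoped Real ComplexConjugate

namespace Vale.Agent.P110

lemma defect_le {N : ℕ} (hN : 0 < N) (x : ℕ → ℝ) (hx : ∀ k, |x k| ≤ 1) {η : ℝ} (hη : η ≤ 1)
    (h : ∀ θ : ℝ, |θ| ≤ 1 → √N * (1 - η) ≤ ‖∑ k ∈ Finset.range N, (x k : ℂ) * ee (k * θ)‖) :
    ∑ k ∈ Finset.range N, (1 - |x k|) ≤ 2 * η * N := by
  have hN' : (0 : ℝ) < N := by exact_mod_cast hN
  have hp := parseval_grid (Finset.range N) (fun i => (i : ℤ)) (fun k => (x k : ℂ)) N hN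
    (fun i _ i' _ h => by exact_mod_cast h)
    (fun i hi i' hi' => by
      have := Finset.mem_range.1 hi; have := Finset.mem_range.1 hi'
      rw [abs_lt]; constructor <;> omega)
  have h1 : ∑ _j ∈ Finset.range N, (N : ℝ) * (1 - η) ^ 2 ≤
      N * ∑ k ∈ Finset.range N, ‖(x k : ℂ)‖ ^ 2 := by
    rw [← hp]
    refine Finset.sum_le_sum fun j hj => ?_
    have hj' : (j : ℝ) ≤ N := by exact_mod_cast (Finset.mem_range.1 hj).le
    have h2 := h (j / N) (by
      rw [abs_of_nonneg (by positivity), div_le_one hN']; exact hj')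
    have h3 : (N : ℝ) * (1 - η) ^ 2 = (√N * (1 - η)) ^ 2 := by
      rw [mul_pow, Real.sq_sqrt hN'.le]
    rw [h3]
    simp only [Int.cast_natCast, mul_div_assoc]
    have : 0 ≤ √N * (1 - η) := mul_nonneg (Real.sqrt_nonneg _) (by linarith)
    gcongr
  rw [Finset.sum_const, Finset.card_range, nsmul_eq_mul] at h1
  have h2 := le_of_mul_le_mul_left h1 hN'
  have h3 : ∑ k ∈ Finset.range N, ‖(x k : ℂ)‖ ^ 2 ≤ ∑ k ∈ Finset.range N, |x k| :=
    Finset.sum_le_sum fun k _ => by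
      rw [Complex.norm_real, Real.norm_eq_abs]
      nlinarith [hx k, abs_nonneg (x k)]
  rw [Finset.sum_sub_distrib, Finset.sum_const, Finset.card_range, nsmul_eq_mul]
  nlinarith [sq_nonneg η]

theorem finish {T : ℝ → ℝ} (hT : Continuous T) (hper : Function.Periodic T 1) {δ : ℝ}
    (hδ : 0 < δ) (hb : ∀ x, δ ≤ T x ∧ T x ≤ 1 - δ) {κ : ℝ} (hκ : 0 < κ) (hκ1 : κ ≤ 1)
    (h : ∃ᶠ N : ℕ in atTop, (∃ z : ℤ, N * ∫ x in (0 : ℝ)..1, T x = z) ∧ ∀ k : ℕ, ∃ r : ℝ,
      (√N : ℝ) * (∫ y in (0 : ℝ)..1, ee (N * ∫ x in (0 : ℝ)..y, T x) * ee (-(k * y))) = r ∧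
        |r| ≤ 1 + κ ^ 4 / 8) :
    ∃ᶠ N : ℕ in atTop, ∃ ε : ℕ → ℝ, (∀ k, ε k = 1 ∨ ε k = -1) ∧ ∀ θ : ℝ, |θ| ≤ 1 →
      |‖∑ k ∈ Finset.range N, (ε k : ℂ) * ee (k * θ)‖ - √N| ≤ 7207 * κ * √N := by
  set η := κ ^ 4 / 8 with hη
  have hη0 : 0 < η := by positivity
  have hη1 : η ≤ κ / 8 := by
    have : κ ^ 4 ≤ κ := by
      have := pow_le_one₀ hκ.le hκ1 (n := 3)
      nlinarith
    linarith
  refine ((h.and_eventually (kernel_approx hT hper hδ hb hη0)).and_eventually
    (eventually_gt_atTop 0)).mono ?_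
  rintro N ⟨⟨⟨h1, h2⟩, h3⟩, hN⟩
  obtain ⟨χ, hχ, hK⟩ := h3 h1
  choose r hr hr1 using h2
  have hN' : (0 : ℝ) < N := by exact_mod_cast hN
  have hs : 0 < √(N : ℝ) := Real.sqrt_pos.2 hN'
  set x : ℕ → ℝ := fun k => χ k * r k / (1 + η) with hx
  have hx1 : ∀ k, |x k| ≤ 1 := by
    intro k
    simp only [hx]
    rw [abs_div, abs_mul, abs_of_nonneg (hχ k).1, abs_of_pos (by linarith : 0 < 1 + η),
      div_le_one (by linarith)]
    nlinarith [hχ k, hr1 k, abs_nonneg (r k)]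
  have hP : ∀ θ : ℝ, |θ| ≤ 1 →
      √N * (1 - 2 * η) ≤ ‖∑ k ∈ Finset.range N, (x k : ℂ) * ee (k * θ)‖ ∧
      ‖∑ k ∈ Finset.range N, (x k : ℂ) * ee (k * θ)‖ ≤ √N := by
    intro θ hθ
    have q := hK θ hθ
    have e : ∑ k ∈ Finset.range N, (x k : ℂ) * ee (k * θ) = ((√N / (1 + η) : ℝ) : ℂ) *
        ∑ k ∈ Finset.range N, (χ k : ℂ) *
          (∫ y in (0 : ℝ)..1, ee (N * ∫ x in (0 : ℝ)..y, T x) * ee (-(k * y))) * ee (k * θ) := by
      rw [Finset.mul_sum]
      refine Finset.sum_congr rfl fun k _ => ?_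
      simp only [hx]
      push_cast
      rw [← hr k]; ring
    rw [e, norm_mul, Complex.norm_real, Real.norm_eq_abs, abs_of_pos (by positivity)]
    have q2 := (abs_norm_sub_norm_le _ _).trans q
    rw [norm_ee, abs_le] at q2
    set W := ‖∑ k ∈ Finset.range N, (χ k : ℂ) *
          (∫ y in (0 : ℝ)..1, ee (N * ∫ x in (0 : ℝ)..y, T x) * ee (-(k * y))) * ee (k * θ)‖
    rw [div_mul_eq_mul_div, le_div_iff₀ (by linarith), div_le_iff₀ (by linarith), mul_assoc]
    constructor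
    · gcongr; nlinarith [q2.1]
    · gcongr; linarith [q2.2]
  have hd := defect_le hN x hx1 (η := 2 * η) (by linarith) fun θ hθ => (hP θ hθ).1
  obtain ⟨ε, hε, hε2⟩ := round_signs N hN x hx1 (κ * √N) (by positivity) (by
    have : (κ * √N) ^ 4 = 8 * η * N ^ 2 := by
      rw [mul_pow, show (4 : ℕ) = 2 * 2 by norm_num, pow_mul √(N : ℝ), Real.sq_sqrt hN'.le, hη]
      ring
    rw [this]; nlinarith)
  refine ⟨ε, hε, fun θ hθ => ?_⟩
  have q1 := hε2 θ
  have q2 := hP θ hθ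
  simp only [Complex.ofReal_sub, sub_mul, Finset.sum_sub_distrib] at q1
  have q3 := (abs_norm_sub_norm_le _ _).trans q1
  rw [abs_le] at q3 ⊢
  constructor <;> nlinarith [q3.1, q3.2, q2.1, q2.2]

lemma plateau {α β η : ℝ} (h : α < β) (hη : 0 < η) :
    ∃ g : ℝ → ℝ, IsRate α β g ∧ (∀ t, g t ≤ (1 + η) / (β - α)) ∧ ∫ t in α..β, g t = 1 := by
  have hl : 0 < β - α := by linarith
  set ρ := η / (2 * (1 + η)) * (β - α) with hρ
  have hρ0 : 0 < ρ := by positivity
  have hρ1 : β - α - 2 * ρ = (β - α) / (1 + η) := by rw [hρ]; field_simp; ring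
  have hρ2 : 0 < (β - α) / (1 + η) := by positivity
  set g : ℝ → ℝ := fun t => max 0 (min 1 (min (t - α) (β - t) / ρ)) with hg
  have hgc : Continuous g := by fun_prop
  have hg0 : ∀ t, 0 ≤ g t := fun t => le_max_left _ _
  have hg1 : ∀ t, g t ≤ 1 := fun t => max_le zero_le_one (min_le_left _ _)
  have hI : (β - α) / (1 + η) ≤ ∫ t in α..β, g t := by
    have h1 : ∫ t in (α + ρ)..(β - ρ), g t = β - α - 2 * ρ := by
      rw [intervalIntegral.integral_congr (g := fun _ => (1 : ℝ)) fun t ht => ?_]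
      · simp; ring
      · rw [uIcc_of_le (by linarith)] at ht
        have : 1 ≤ min (t - α) (β - t) / ρ := by
          rw [le_div_iff₀ hρ0, le_min_iff]; constructor <;> linarith [ht.1, ht.2]
        simp only [hg, min_eq_left this, max_eq_right zero_le_one]
    rw [← hρ1, ← h1]
    exact intervalIntegral.integral_mono_interval (by linarith) (by linarith) (by linarith)
      (Eventually.of_forall hg0) (hgc.intervalIntegrable _ _)
  have hI0 := hρ2.trans_le hI
  refine ⟨fun t => g t / ∫ t in α..β, g t, ⟨by fun_prop, fun t => div_nonneg (hg0 t) hI0.le,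
    fun t ht => ?_, fun t ht => div_pos ?_ hI0⟩, fun t => ?_, ?_⟩
  · have : min (t - α) (β - t) / ρ ≤ 0 := by
      apply div_nonpos_of_nonpos_of_nonneg _ hρ0.le
      rw [min_le_iff]
      rcases ht with ht | ht
      · left; linarith
      · right; linarith
    simp only [hg, max_eq_left ((min_le_right _ _).trans this), zero_div]
  · refine lt_max_of_lt_right (lt_min one_pos (div_pos (lt_min ?_ ?_) hρ0)) <;>
      linarith [ht.1, ht.2]
  · calc g t / ∫ t in α..β, g t ≤ 1 / ((β - α) / (1 + η)) := by gcongr; exact hg1 t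
      _ = _ := by rw [one_div, inv_div]
  · rw [intervalIntegral.integral_div, div_self hI0.ne']

lemma windows {S : Type*} [Fintype S] (lam : S → ℝ) (hlam : ∀ σ, 0 < lam σ) {p q c : ℝ}
    (hc : 0 < c) (hsum : c * ∑ σ, lam σ ≤ q - p) :
    ∃ α : S → ℝ, (∀ σ, p ≤ α σ ∧ α σ + c * lam σ ≤ q) ∧
      ∀ σ σ', σ ≠ σ' → α σ + c * lam σ ≤ α σ' ∨ α σ' + c * lam σ' ≤ α σ := by
  classical
  set e := Fintype.equivFin S
  have key : ∀ σ (s : Finset S), σ ∈ s → (∀ x, e x < e σ → x ∈ s) →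
      ∑ x ∈ Finset.univ.filter (fun x => e x < e σ), lam x + lam σ ≤ ∑ x ∈ s, lam x := by
    intro σ s h1 h2
    rw [add_comm, ← Finset.sum_insert (by simp)]
    refine Finset.sum_le_sum_of_subset_of_nonneg (fun x hx => ?_) fun x _ _ => (hlam x).le
    rcases Finset.mem_insert.1 hx with rfl | hx
    · exact h1
    · exact h2 x (Finset.mem_filter.1 hx).2
  refine ⟨fun σ => p + c * ∑ x ∈ Finset.univ.filter (fun x => e x < e σ), lam x,
    fun σ => ⟨?_, ?_⟩, fun σ σ' hne => ?_⟩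
  · have : 0 ≤ ∑ x ∈ Finset.univ.filter (fun x => e x < e σ), lam x :=
      Finset.sum_nonneg fun x _ => (hlam x).le
    nlinarith
  · have := key σ Finset.univ (by simp) (by simp)
    nlinarith
  · rcases lt_or_gt_of_ne (e.injective.ne hne) with h | h
    · left
      have := key σ (Finset.univ.filter fun x => e x < e σ') (by simpa using h)
        (fun x hx => by simpa using hx.trans h)
      nlinarith
    · right
      have := key σ' (Finset.univ.filter fun x => e x < e σ) (by simpa using h)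
        (fun x hx => by simpa using hx.trans h)
      nlinarith

lemma shift_moment {δ h c : ℝ} {p : ℝ → ℝ} (hp : IsRate δ (3 * δ / 2) p)
    (hp1 : ∫ t in δ..(3 * δ / 2), p t = 1) (h0 : 0 ≤ h) (h1 : h ≤ δ / 2) (hc : 2 * δ ≤ c)
    (N k : ℝ) : ∫ σ in δ..c, p (σ - h) * (N * σ - k) =
      (∫ σ in δ..(3 * δ / 2), p σ * (N * σ - k)) + N * h := by
  have hpc := hp.cont
  have e1 := intervalIntegral.integral_comp_sub_right (a := δ) (b := c)
    (fun σ => p σ * (N * σ - k) + N * h * p σ) h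
  rw [integral_extend' (by fun_prop) (α := δ) (β := 3 * δ / 2) (a := δ - h) (by linarith)
    (by linarith) (fun t ht => by simp [hp.zero t ht]),
    intervalIntegral.integral_add (b := 3 * δ / 2) (Continuous.intervalIntegrable (by fun_prop) _ _)
      (Continuous.intervalIntegrable (by fun_prop) _ _), intervalIntegral.integral_const_mul, hp1,
    mul_one] at e1
  rw [← e1]
  exact intervalIntegral.integral_congr fun σ _ => by ring

lemma abs_sqrt_add_sub {x y : ℝ} (hx : 0 ≤ x) (hy : 0 ≤ y) : |√(x + y) - √x| ≤ √y := by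
  have h1 : √x ≤ √(x + y) := Real.sqrt_le_sqrt (by linarith)
  have h2 : √(x + y) ≤ √x + √y := by
    apply Real.sqrt_le_iff.2 ⟨by positivity, ?_⟩
    nlinarith [Real.sq_sqrt hx, Real.sq_sqrt hy, Real.sqrt_nonneg x, Real.sqrt_nonneg y]
  rw [abs_le]; constructor <;> linarith [Real.sqrt_nonneg y]

end Vale.Agent.P110
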