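import Vale.Agent.P110.Square

open Finset
open scoped Real ComplexConjugate ArithmeticFunction.Moebius

namespace Vale.Agent.P110

def gc {n : ℕ} (l : Fin n → ℤ) : ℕ := univ.gcd fun i => (l i).natAbs

lemma dvd_gc {n g : ℕ} {l : Fin n → ℤ} : g ∣ gc l ↔ ∀ i, (g : ℤ) ∣ l i := by
  simp [gc, Finset.dvd_gcd_iff, Int.natCast_dvd]

lemma gc_neg {n : ℕ} (l : Fin n → ℤ) : gc (-l) = gc l := by simp [gc]

lemma moebius_sum {n K : ℕ} (f : Fin (n + 1) → ℤ → ℂ) (hf : f 0 0 = 0) :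
    ∑ l ∈ Fintype.piFinset fun _ => Icc (-(K : ℤ)) K with gc l = 1, ∏ i, f i (l i) =
      ∑ g ∈ Icc 1 K, (μ g : ℂ) *
        ∏ i, ∑ m ∈ Icc (-(K : ℤ)) K, if (g : ℤ) ∣ m then f i m else 0 := by
  simp_rw [Finset.prod_univ_sum, Finset.mul_sum]
  rw [Finset.sum_comm, Finset.sum_filter]
  refine Finset.sum_congr rfl fun l hl => ?_
  simp_rw [Finset.prod_ite_zero]
  by_cases h0 : l 0 = 0
  · have : ∏ i, f i (l i) = 0 := Finset.prod_eq_zero (mem_univ 0) (by rw [h0, hf])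
    simp [this]
  · have h1 : gc l ∣ (l 0).natAbs := Finset.gcd_dvd (f := fun i => (l i).natAbs) (mem_univ 0)
    have h2 := Nat.le_of_dvd (Int.natAbs_pos.2 h0) h1
    have h3 : gc l ≠ 0 := fun h => h0 (by simpa [h] using h1)
    have h4 := mem_Icc.1 (Fintype.mem_piFinset.1 hl 0)
    have h5 : (Icc 1 K).filter (fun g : ℕ => ∀ i ∈ (univ : Finset (Fin (n + 1))), (g : ℤ) ∣ l i) =
        (gc l).divisors := by
      ext g
      simp only [mem_filter, mem_Icc, mem_univ, true_imp_iff, ← dvd_gc, Nat.mem_divisors]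
      refine ⟨fun h => ⟨h.2, h3⟩, fun h => ⟨⟨Nat.pos_of_dvd_of_pos h.1 (by omega), ?_⟩, h.1⟩⟩
      have := Nat.le_of_dvd (by omega) h.1
      omega
    simp_rw [mul_ite, mul_zero]
    rw [← Finset.sum_filter, h5, ← Finset.sum_mul, ← Int.cast_sum,
      ← ArithmeticFunction.coe_mul_zeta_apply, ArithmeticFunction.moebius_mul_coe_zeta,
      ArithmeticFunction.one_apply]
    split_ifs <;> simp

lemma moebius_bound {d K : ℕ} (hK : 0 < K) (f : Fin (d + 2) → ℤ → ℂ) (hf : f 0 0 = 0)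
    (hg : ∀ g : ℕ, 0 < g → g ≤ K → ∀ i,
      ‖∑ m ∈ Icc (-(K : ℤ)) K, if (g : ℤ) ∣ m then f i m else 0‖ ≤ 1 / g) :
    ‖∑ l ∈ Fintype.piFinset fun _ => Icc (-(K : ℤ)) K with gc l = 1, ∏ i, f i (l i) -
      ∏ i, ∑ m ∈ Icc (-(K : ℤ)) K, f i m‖ ≤ (1 / 2) ^ d := by
  rw [moebius_sum f hf, ← Finset.add_sum_Ioc_eq_sum_Icc (by omega)]
  simp only [ArithmeticFunction.moebius_apply_one, Int.cast_one, one_mul, Nat.cast_one, one_dvd,
    if_true, add_sub_cancel_left]
  refine (norm_sum_le _ _).trans ?_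
  calc _ ≤ ∑ g ∈ Ioc 1 K, (1 / 2 : ℝ) ^ d * ((g : ℝ) ^ 2)⁻¹ := by
        refine Finset.sum_le_sum fun g hg' => ?_
        have h1 := mem_Ioc.1 hg'
        have h2 : (2 : ℝ) ≤ g := by exact_mod_cast h1.1
        have h3 : ‖(μ g : ℂ)‖ ≤ 1 := by
          rw [Complex.norm_intCast]; exact_mod_cast ArithmeticFunction.abs_moebius_le_one
        rw [norm_mul, norm_prod]
        calc _ ≤ 1 * ∏ _i : Fin (d + 2), (1 / g : ℝ) := by
              gcongr with i
              exact hg g (by omega) h1.2 i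
          _ = (1 / g) ^ d * ((g : ℝ) ^ 2)⁻¹ := by
              rw [prod_const, card_univ, Fintype.card_fin, pow_add]; simp
          _ ≤ _ := by gcongr
    _ ≤ _ := by
        rw [← Finset.mul_sum]
        apply mul_le_of_le_one_right (by positivity)
        have := sum_Ioc_inv_sq_le_sub (α := ℝ) one_ne_zero hK
        have h2 : (0 : ℝ) ≤ (K : ℝ)⁻¹ := by positivity
        simp only [Nat.cast_one, inv_one] at this
        linarith

lemma digits_zero {R : ℤ} {n : ℕ} (v : Fin n → ℤ) (hv : ∀ i, |v i| < R)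
    (h : ∑ i, v i * R ^ (i : ℕ) = 0) : v = 0 := by
  induction n with
  | zero => exact Subsingleton.elim _ _
  | succ n ih =>
    have hR : R ≠ 0 := by have := hv 0; have := abs_nonneg (v 0); omega
    rw [Fin.sum_univ_succ] at h
    simp only [Fin.val_zero, pow_zero, mul_one, Fin.val_succ, pow_succ, ← mul_assoc,
      ← Finset.sum_mul] at h
    have h0 : v 0 = 0 := Int.eq_zero_of_abs_lt_dvd ⟨-∑ i : Fin n, v i.succ * R ^ (i : ℕ), by
      linarith⟩ (hv 0)
    rw [h0, zero_add, mul_eq_zero, or_iff_left hR] at h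
    have := ih (fun i => v i.succ) (fun i => hv _) h
    ext i
    refine Fin.cases h0 (fun i => congrFun this i) i

lemma prim_eq {n : ℕ} {l l' : Fin (n + 1) → ℤ} (h : gc l = 1) (h' : gc l' = 1) (h0 : 0 < l 0)
    (h0' : 0 < l' 0) (he : ∀ i, l 0 * l' i = l' 0 * l i) : l = l' := by
  have h1 : (l 0).natAbs = (l' 0).natAbs := by
    have q1 := Finset.gcd_mul_left (s := univ) (f := fun i => (l' i).natAbs) (a := (l 0).natAbs)
    have q2 := Finset.gcd_mul_left (s := univ) (f := fun i => (l i).natAbs) (a := (l' 0).natAbs)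
    unfold gc at h h'
    rw [h'] at q1
    rw [h] at q2
    simp only [← Int.natAbs_mul, he] at q1 q2
    simpa using q1.symm.trans q2
  have h2 : l 0 = l' 0 := by omega
  ext i
  have := he i
  rw [← h2] at this
  exact (mul_left_cancel₀ h0.ne' this).symm

lemma sum_pair {n K : ℕ} (F : (Fin (n + 1) → ℤ) → ℂ) (hF : ∀ l, F (-l) = conj (F l))
    (h0 : ∀ l, l 0 = 0 → F l = 0) :
    ∑ l ∈ Fintype.piFinset fun _ => Icc (-(K : ℤ)) K with gc l = 1, F l =
      ((∑ l ∈ Fintype.piFinset fun _ => Icc (-(K : ℤ)) K with gc l = 1 ∧ 0 < l 0,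
        2 * (F l).re : ℝ) : ℂ) := by
  set L := Fintype.piFinset fun _ : Fin (n + 1) => Icc (-(K : ℤ)) K with hL
  have hneg : ∀ l ∈ L, -l ∈ L := fun l hl => Fintype.mem_piFinset.2 fun i => by
    have := mem_Icc.1 (Fintype.mem_piFinset.1 hl i)
    simp only [Pi.neg_apply, mem_Icc]; omega
  have h1 : ∑ l ∈ L with gc l = 1 ∧ l 0 < 0, F l = ∑ l ∈ L with gc l = 1 ∧ 0 < l 0, conj (F l) := by
    refine Finset.sum_nbij' (fun l => -l) (fun l => -l) (fun l hl => ?_) (fun l hl => ?_)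
      (by simp) (by simp) (fun l _ => by rw [← hF, neg_neg])
    · have := mem_filter.1 hl
      exact mem_filter.2 ⟨hneg l this.1, by rw [gc_neg]; exact this.2.1, by simpa using this.2.2⟩
    · have := mem_filter.1 hl
      exact mem_filter.2 ⟨hneg l this.1, by rw [gc_neg]; exact this.2.1, by simpa using this.2.2⟩
  have h2 : ∑ l ∈ L with gc l = 1, F l =
      ∑ l ∈ L with gc l = 1 ∧ 0 < l 0, F l + ∑ l ∈ L with gc l = 1 ∧ l 0 < 0, F l := by
    simp only [Finset.sum_filter, ← Finset.sum_add_distrib]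
    refine Finset.sum_congr rfl fun l _ => ?_
    by_cases h : gc l = 1
    · rcases lt_trichotomy (l 0) 0 with h3 | h3 | h3
      · simp [h, h3, h3.not_gt]
      · simp [h0 l h3]
      · simp [h, h3, h3.not_gt]
    · simp [h]
  rw [h2, h1, ← Finset.sum_add_distrib, Complex.ofReal_sum]
  exact Finset.sum_congr rfl fun l _ => Complex.add_conj _

lemma energy_part {K g : ℕ} (c : ℤ → ℂ) (hg : 0 < g) (h : ∀ φ : ℝ,
    ‖∑ l ∈ Icc (-(K : ℤ)) K, if (g : ℤ) ∣ l then c l * ee (l * φ) else 0‖ ≤ 1 / g) :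
    ‖∑ m ∈ Icc (-(K : ℤ)) K, if (g : ℤ) ∣ m then ((‖c m‖ ^ 2 : ℝ) : ℂ) else 0‖ ≤ 1 / g := by
  have h1 := parseval_Icc K (2 * K + 1) (by omega) fun l => if (g : ℤ) ∣ l then c l else 0
  simp only [ite_mul, zero_mul] at h1
  have hg' : (1 : ℝ) ≤ g := by exact_mod_cast hg
  have h2 : ∑ j ∈ range (2 * K + 1), ‖∑ l ∈ Icc (-(K : ℤ)) K, if (g : ℤ) ∣ l then
      c l * ee (l * (j / (2 * K + 1 : ℕ))) else 0‖ ^ 2 ≤ ∑ _j ∈ range (2 * K + 1), (1 / g : ℝ) := by
    refine Finset.sum_le_sum fun j _ => ?_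
    have q1 := h (j / (2 * K + 1 : ℕ))
    have q2 : (1 / g : ℝ) ≤ 1 := by rw [div_le_one (by linarith)]; exact hg'
    nlinarith [norm_nonneg (∑ l ∈ Icc (-(K : ℤ)) K, if (g : ℤ) ∣ l then
      c l * ee (l * (j / (2 * K + 1 : ℕ))) else 0)]
  rw [h1, sum_const, card_range, nsmul_eq_mul] at h2
  have h3 := le_of_mul_le_mul_left h2 (by positivity)
  refine le_trans ((norm_sum_le _ _).trans (le_of_eq (Finset.sum_congr rfl fun m _ => ?_))) h3
  split_ifs <;> simp

/-- A nearly flat real trigonometric polynomial with primitive frequencies. -/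
lemma flat_prim {η : ℝ} (hη : 0 < η) (hη1 : η ≤ 1) : ∃ (n K : ℕ) (C : (Fin (n + 1) → ℤ) → ℂ),
    1 - 2 * η ≤ ∑ l ∈ Fintype.piFinset fun _ => Icc (-(K : ℤ)) K with gc l = 1 ∧ 0 < l 0,
      2 * ‖C l‖ ^ 2 ∧ ∀ x : Fin (n + 1) → ℝ,
      |∑ l ∈ Fintype.piFinset fun _ => Icc (-(K : ℤ)) K with gc l = 1 ∧ 0 < l 0,
        2 * (C l * ee (∑ i, l i * x i)).re| ≤ 1 + η := by
  obtain ⟨d, hd⟩ := exists_pow_lt_of_lt_one hη (by norm_num : (1 / 2 : ℝ) < 1)
  obtain ⟨J, hJ⟩ := exists_nat_ge (6 * (d + 2) / η)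
  have hd0 : (0 : ℝ) ≤ d := by positivity
  rw [div_le_iff₀ hη] at hJ
  have hJ2 : (6 : ℝ) ≤ J := by nlinarith [Nat.cast_nonneg (α := ℝ) J]
  obtain ⟨K, c, hK, h0, hc, hs, he⟩ := one_dim (J := J) (by
    have : (2 : ℝ) ≤ J := by linarith
    exact_mod_cast this)
  refine ⟨d + 1, K, fun l => ∏ i, c (l i), ?_, fun x => ?_⟩
  · have q1 := moebius_bound (d := d) hK (fun _ m => ((‖c m‖ ^ 2 : ℝ) : ℂ)) (by simp [h0])
      fun g hg hgK _ => energy_part c hg (hs g hg hgK)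
    rw [sum_pair _ (fun l => by
      simp only [Pi.neg_apply, hc, Complex.norm_conj, map_prod, Complex.conj_ofReal])
      (fun l hl => Finset.prod_eq_zero (mem_univ 0) (by simp [hl, h0]))] at q1
    simp only [← Complex.ofReal_prod, ← Complex.ofReal_sum, Complex.ofReal_re, prod_const,
      card_univ, Fintype.card_fin, Finset.prod_pow, ← norm_prod] at q1
    rw [← Complex.ofReal_pow, ← Complex.ofReal_sub, Complex.norm_real, Real.norm_eq_abs] at q1
    have q2 : (1 - 6 / J : ℝ) ^ (d + 2) ≤ (∑ m ∈ Icc (-(K : ℤ)) K, ‖c m‖ ^ 2) ^ (d + 2) := by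
      gcongr
      rw [sub_nonneg, div_le_one (by linarith)]; exact hJ2
    have q3 := one_add_mul_le_pow (a := (-(6 / J) : ℝ)) (by
      have : (6 / J : ℝ) ≤ 1 := by rw [div_le_one (by linarith)]; exact hJ2
      linarith) (d + 2)
    have q4 : ((d + 2 : ℕ) : ℝ) * (6 / J) ≤ η := by
      rw [← mul_div_assoc, div_le_iff₀ (by linarith)]; push_cast; linarith
    rw [← sub_eq_add_neg] at q3
    linarith [(abs_le.1 q1).1]
  · have q1 := moebius_bound (d := d) hK (fun i m => c m * ee (m * x i)) (by simp [h0])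
      fun g hg hgK i => hs g hg hgK (x i)
    rw [sum_pair _ (fun l => by
      simp only [Pi.neg_apply, hc, map_prod, map_mul, ← ee_neg, Int.cast_neg, neg_mul])
      (fun l hl => Finset.prod_eq_zero (mem_univ 0) (by simp [hl, h0]))] at q1
    have q2 : ‖∏ i, ∑ m ∈ Icc (-(K : ℤ)) K, c m * ee (m * x i)‖ ≤ 1 := by
      rw [norm_prod]
      refine Finset.prod_le_one (fun _ _ => norm_nonneg _) fun i _ => ?_
      simpa using hs 1 one_pos hK (x i)
    have q3 := (norm_sub_norm_le _ _).trans q1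
    rw [Complex.norm_real, Real.norm_eq_abs] at q3
    have e : ∀ l : Fin (d + 1 + 1) → ℤ, (∏ i, c (l i)) * ee (∑ i, l i * x i) =
        ∏ i, c (l i) * ee (l i * x i) := by
      intro l
      rw [Finset.prod_mul_distrib]
      simp only [ee, Complex.ofReal_sum, Finset.mul_sum, Complex.exp_sum]
    simp only [e]
    linarith

theorem flat_data {η : ℝ} (hη : 0 < η) (hη1 : η ≤ 1) :
    ∃ (I : Type) (_ : Fintype I) (_ : DecidableEq I) (A : I → ℕ) (B : I → ℤ) (ρ θ : I → ℝ),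
      (∀ j, 0 < A j) ∧ (∀ i j, i ≠ j → (A i : ℤ) * B j ≠ A j * B i) ∧ (∀ j, 0 < ρ j) ∧
      ∑ j, 2 * ρ j ^ 2 = 1 ∧
      ∀ x y : ℝ, |∑ j, 2 * ρ j * (ee (θ j + A j * x + B j * y)).re| ≤ 1 + η := by
  classical
  obtain ⟨n, K, C, hE, hs⟩ := flat_prim (η := η / 8) (by positivity) (by linarith)
  set P := (Fintype.piFinset fun _ : Fin (n + 1) => Icc (-(K : ℤ)) K).filter
    fun l => gc l = 1 ∧ 0 < l 0 with hP
  set E := ∑ l ∈ P, 2 * ‖C l‖ ^ 2 with hEdef
  have hE0 : 0 < E := by linarith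
  have hsE : 1 - η / 4 ≤ √E := Real.le_sqrt_of_sq_le (by nlinarith)
  have hsE0 : 0 < √E := Real.sqrt_pos.2 hE0
  choose θ hθ using fun l => exists_polar (C l)
  set R : ℤ := 2 * K ^ 2 + 1 with hR
  have hmem : ∀ j : P.filter fun l => C l ≠ 0, (∀ i, |j.1 i| ≤ K) ∧ gc j.1 = 1 ∧ 0 < j.1 0 ∧
      C j.1 ≠ 0 := fun j => by
    have h1 := mem_filter.1 j.2
    have h2 := mem_filter.1 h1.1
    exact ⟨fun i => abs_le.2 (mem_Icc.1 (Fintype.mem_piFinset.1 h2.1 i)), h2.2.1, h2.2.2, h1.2⟩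
  have hA : ∀ j : P.filter fun l => C l ≠ 0, (((j.1 0).natAbs : ℕ) : ℤ) = j.1 0 := fun j =>
    Int.natAbs_of_nonneg (hmem j).2.2.1.le
  refine ⟨P.filter fun l => C l ≠ 0, inferInstance, inferInstance, fun j => (j.1 0).natAbs,
    fun j => ∑ i, j.1 i * R ^ (i : ℕ), fun j => ‖C j.1‖ / √E, fun j => θ j.1,
    fun j => Int.natAbs_pos.2 (hmem j).2.2.1.ne', fun i j hij h => hij ?_,
    fun j => div_pos (norm_pos_iff.2 (hmem j).2.2.2) hsE0, ?_, fun x y => ?_⟩
  · rw [hA, hA] at h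
    have := digits_zero (R := R) (fun t => i.1 0 * j.1 t - j.1 0 * i.1 t) (fun t => by
      refine (abs_sub _ _).trans_lt ?_
      rw [abs_mul, abs_mul]
      have q1 := mul_le_mul ((hmem i).1 0) ((hmem j).1 t) (abs_nonneg _) (by positivity)
      have q2 := mul_le_mul ((hmem j).1 0) ((hmem i).1 t) (abs_nonneg _) (by positivity)
      nlinarith) (by
      simp only [sub_mul, Finset.sum_sub_distrib, mul_assoc, ← Finset.mul_sum]
      exact sub_eq_zero.2 h)
    exact Subtype.ext (prim_eq (hmem i).2.1 (hmem j).2.1 (hmem i).2.2.1 (hmem j).2.2.1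
      fun t => sub_eq_zero.1 (congrFun this t))
  · rw [Finset.sum_coe_sort _ fun l => 2 * (‖C l‖ / √E) ^ 2, Finset.sum_filter_of_ne
      (p := fun l => C l ≠ 0) (fun l _ h h' => h (by simp [h']))]
    simp only [div_pow, Real.sq_sqrt hE0.le, ← mul_div_assoc, ← Finset.sum_div]
    exact div_self hE0.ne'
  · have q := hs fun i => (if i = 0 then x else 0) + (R : ℝ) ^ (i : ℕ) * y
    have e : ∀ j : P.filter fun l => C l ≠ 0, 2 * (‖C j.1‖ / √E) *
        (ee (θ j.1 + ((j.1 0).natAbs : ℕ) * x + ((∑ i, j.1 i * R ^ (i : ℕ) : ℤ) : ℝ) * y)).re =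
        2 * (C j.1 * ee (∑ i, j.1 i * ((if i = 0 then x else 0) + (R : ℝ) ^ (i : ℕ) * y))).re /
          √E := by
      intro j
      have h1 : (((j.1 0).natAbs : ℕ) : ℝ) = j.1 0 := by rw [← Int.cast_natCast, hA j]
      conv_rhs => rw [hθ j.1, mul_assoc, ← ee_add, Complex.re_ofReal_mul]
      simp only [mul_add, Finset.sum_add_distrib, mul_ite, mul_zero, Finset.sum_ite_eq',
        mem_univ, if_true, ← mul_assoc, ← Finset.sum_mul, h1, add_assoc]
      push_cast; ring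
    simp only [e]
    rw [← Finset.sum_div, Finset.sum_coe_sort _ fun l : Fin (n + 1) → ℤ => 2 * (C l *
      ee (∑ i, l i * ((if i = 0 then x else 0) + (R : ℝ) ^ (i : ℕ) * y))).re,
      Finset.sum_filter_of_ne (p := fun l => C l ≠ 0) (fun l _ h h' => h (by simp [h'])),
      abs_div, abs_of_pos hsE0, div_le_iff₀ hsE0]
    nlinarith

end Vale.Agent.P110
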