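import Vale.Agent.P110.Unit

open Complex Set MeasureTheory Filter Topology
open scoped Real ComplexConjugate

namespace Vale.Agent.P110

noncomputable def chi (a b k : ℕ) : ℝ :=
  (∑ i ∈ Finset.range a, if i ≤ k ∧ k < i + b then (1 : ℝ) else 0) / a

lemma chi_nonneg (a b k : ℕ) : 0 ≤ chi a b k := by
  unfold chi
  exact div_nonneg (Finset.sum_nonneg fun i _ => by split_ifs <;> norm_num) (by positivity)

lemma chi_le_one (a b k : ℕ) : chi a b k ≤ 1 := by
  unfold chi
  apply div_le_one_of_le₀ _ (by positivity)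
  calc _ ≤ ∑ _i ∈ Finset.range a, (1 : ℝ) :=
        Finset.sum_le_sum fun i _ => by split_ifs <;> norm_num
    _ = a := by simp

lemma chi_eq_one {a b k : ℕ} (ha : 0 < a) (h1 : a ≤ k + 1) (h2 : k < b) : chi a b k = 1 := by
  unfold chi
  rw [Finset.sum_congr rfl (g := fun _ => (1 : ℝ)) fun i hi => by
    have := Finset.mem_range.1 hi
    rw [if_pos (by omega)]]
  have : (a : ℝ) ≠ 0 := by positivity
  simp [this]

lemma sum_chi {a b N : ℕ} (h : a + b ≤ N + 1) (y : ℝ) :
    ∑ k ∈ Finset.range N, (chi a b k : ℂ) * ee (k * y) = DD a y * DD b y / a := by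
  unfold chi
  push_cast
  simp_rw [div_mul_eq_mul_div, ← Finset.sum_div, Finset.sum_mul]
  congr 1
  rw [Finset.sum_comm, DD, Finset.sum_mul]
  refine Finset.sum_congr rfl fun i hi => ?_
  have hi' := Finset.mem_range.1 hi
  have h1 : ∑ k ∈ Finset.range N, (((if i ≤ k ∧ k < i + b then (1 : ℝ) else 0 : ℝ)) : ℂ) *
      ee (k * y) = ∑ k ∈ Finset.Ico i (i + b), ee (k * y) := by
    rw [← Finset.sum_subset (s₁ := Finset.Ico i (i + b))]
    · refine Finset.sum_congr rfl fun k hk => ?_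
      rw [if_pos (Finset.mem_Ico.1 hk)]; simp
    · intro k hk
      have := Finset.mem_Ico.1 hk
      exact Finset.mem_range.2 (by omega)
    · intro k _ hk
      rw [if_neg (by rwa [Finset.mem_Ico] at hk)]; simp
  rw [h1, Finset.sum_Ico_eq_sum_range, DD, Finset.mul_sum, Nat.add_sub_cancel_left]
  refine Finset.sum_congr rfl fun j _ => ?_
  rw [← ee_add]; congr 1; push_cast; ring

lemma integral_ee_int (n : ℤ) (s : ℝ) :
    ∫ y in s..(s + 1), ee (n * y) = if n = 0 then 1 else 0 := by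
  split_ifs with h
  · simp [h]
  · have hn : (n : ℂ) ≠ 0 := by exact_mod_cast h
    have hp : (π : ℂ) ≠ 0 := by exact_mod_cast Real.pi_ne_zero
    have hd : ∀ y ∈ uIcc s (s + 1), HasDerivAt (fun y : ℝ => ee (n * y) / (2 * π * I * n))
        (ee (n * y)) y := by
      intro y _
      have h1 : HasDerivAt (fun y : ℝ => (n : ℝ) * y) n y := by
        simpa using (hasDerivAt_id y).const_mul (n : ℝ)
      refine (((hasDerivAt_ee _).scomp y h1).div_const (2 * π * I * n)).congr_deriv ?_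
      rw [Complex.real_smul]; push_cast; field_simp
    rw [intervalIntegral.integral_eq_sub_of_hasDerivAt hd
      (Continuous.intervalIntegrable (by fun_prop) _ _), mul_add, mul_one, ee_add_int, sub_self]

lemma side_bound {h : ℝ → ℂ} {a b C : ℝ} (ha : 0 < a) (hab : a ≤ b) (hC : 0 ≤ C)
    (hh : ∀ y ∈ Icc a b, ‖h y‖ ≤ C / y ^ 2) : ‖∫ y in a..b, h y‖ ≤ C / a := by
  have hd : ∀ y ∈ uIcc a b, HasDerivAt (fun y : ℝ => -C * y⁻¹) (C / y ^ 2) y := by
    intro y hy
    rw [uIcc_of_le hab] at hy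
    have : y ≠ 0 := by linarith [hy.1]
    refine ((hasDerivAt_inv this).const_mul (-C)).congr_deriv ?_
    field_simp
  have hi : IntervalIntegrable (fun y : ℝ => C / y ^ 2) volume a b := by
    apply ContinuousOn.intervalIntegrable
    apply ContinuousOn.div (by fun_prop) (by fun_prop)
    intro y hy
    rw [uIcc_of_le hab] at hy
    have : y ≠ 0 := by linarith [hy.1]
    positivity
  refine (intervalIntegral.norm_integral_le_of_norm_le hab
    (Eventually.of_forall fun t ht => hh t (Ioc_subset_Icc_self ht)) hi).trans ?_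
  rw [intervalIntegral.integral_eq_sub_of_hasDerivAt hd hi]
  have : 0 ≤ C * b⁻¹ := mul_nonneg hC (inv_nonneg.2 (by linarith))
  rw [div_eq_mul_inv]; linarith

lemma kernel_bound {g : ℝ → ℂ} (hg : Continuous g) {a b : ℕ} (ha : 0 < a) {r e : ℝ} (hr : 0 < r)
    (hr2 : r ≤ 1 / 2) (h1 : ∀ y, ‖g y‖ ≤ 2) (h2 : ∀ y, |y| ≤ r → ‖g y‖ ≤ e) :
    ‖∫ y in (-(1 / 2) : ℝ)..(1 / 2), g y * (DD a y * DD b y / a)‖ ≤ e * b * (2 * r) + 1 / (a * r) := by
  have ha' : (0 : ℝ) < a := by exact_mod_cast ha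
  have hc : Continuous fun y => g y * (DD a y * DD b y / a) := by fun_prop
  have he : 0 ≤ e := (norm_nonneg _).trans (h2 0 (by simpa using hr.le))
  have hside : ∀ y, r ≤ |y| → |y| ≤ 1 / 2 → ‖g y * (DD a y * DD b y / a)‖ ≤ 1 / (2 * a) / y ^ 2 := by
    intro y hy1 hy2
    have hy0 : 0 < |y| := hr.trans_le hy1
    have q1 : ‖DD a y‖ ≤ 1 / 2 / |y| := by rw [le_div_iff₀ hy0]; exact norm_DD_le' a hy2
    have q2 : ‖DD b y‖ ≤ 1 / 2 / |y| := by rw [le_div_iff₀ hy0]; exact norm_DD_le' b hy2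
    rw [norm_mul, norm_div, norm_mul, Complex.norm_natCast, ← sq_abs]
    calc _ ≤ 2 * (1 / 2 / |y| * (1 / 2 / |y|) / a) := by gcongr; exact h1 y
      _ = _ := by field_simp
  rw [← intervalIntegral.integral_add_adjacent_intervals (b := -r)
      (hc.intervalIntegrable _ _) (hc.intervalIntegrable _ _),
    ← intervalIntegral.integral_add_adjacent_intervals (a := -r) (b := r)
      (hc.intervalIntegrable _ _) (hc.intervalIntegrable _ _)]
  have q1 : ‖∫ y in (-(1 / 2) : ℝ)..(-r), g y * (DD a y * DD b y / a)‖ ≤ 1 / (2 * a) / r := by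
    rw [← intervalIntegral.integral_comp_neg (fun y => g y * (DD a y * DD b y / a))]
    refine side_bound hr hr2 (by positivity) fun y hy => ?_
    have := hside (-y) (by rw [abs_neg, abs_of_pos (hr.trans_le hy.1)]; exact hy.1)
      (by rw [abs_neg, abs_of_pos (hr.trans_le hy.1)]; exact hy.2)
    rwa [neg_sq] at this
  have q3 : ‖∫ y in r..(1 / 2), g y * (DD a y * DD b y / a)‖ ≤ 1 / (2 * a) / r :=
    side_bound hr hr2 (by positivity) fun y hy =>
      hside y (by rw [abs_of_pos (hr.trans_le hy.1)]; exact hy.1)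
        (by rw [abs_of_pos (hr.trans_le hy.1)]; exact hy.2)
  have q2 : ‖∫ y in (-r)..r, g y * (DD a y * DD b y / a)‖ ≤ e * b * (2 * r) := by
    refine (intervalIntegral.norm_integral_le_of_norm_le_const (C := e * b) fun y hy => ?_).trans
      (le_of_eq ?_)
    · rw [uIoc_of_le (by linarith)] at hy
      rw [norm_mul, norm_div, norm_mul, Complex.norm_natCast]
      have q4 : ‖DD a y‖ * ‖DD b y‖ / a ≤ b := by
        rw [div_le_iff₀ ha', mul_comm (b : ℝ)]
        gcongr
        · exact norm_DD_le a y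
        · exact norm_DD_le b y
      gcongr
      exact h2 y (abs_le.2 ⟨hy.1.le, hy.2⟩)
    · rw [show r - -r = 2 * r by ring, abs_of_pos (by linarith)]
  refine (norm_add_le _ _).trans ?_
  have q4 := norm_add_le (∫ y in (-r)..r, g y * (DD a y * DD b y / a))
    (∫ y in r..(1 / 2), g y * (DD a y * DD b y / a))
  have : 1 / (a * r) = 1 / (2 * a) / r + 1 / (2 * a) / r := by field_simp; ring
  linarith

lemma conv_eq {F : ℝ → ℂ} (hF : Continuous F) (hper : Function.Periodic F 1) {a b N : ℕ}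
    (h : a + b ≤ N + 1) (θ : ℝ) :
    ∑ k ∈ Finset.range N, (chi a b k : ℂ) * (∫ y in (0 : ℝ)..1, F y * ee (-(k * y))) * ee (k * θ) =
      ∫ y in (-(1 / 2) : ℝ)..(1 / 2), F (θ - y) * (DD a y * DD b y / a) := by
  simp_rw [← sum_chi h, Finset.mul_sum]
  rw [intervalIntegral.integral_finsetSum fun k _ =>
    Continuous.intervalIntegrable (by fun_prop) _ _]
  refine Finset.sum_congr rfl fun k _ => ?_
  have hp : Function.Periodic (fun y => F y * ee (-(k * y))) 1 := by
    intro y
    simp only [hper y]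
    congr 1
    exact ee_congr (-k) (by push_cast; ring)
  have h1 := hp.intervalIntegral_add_eq 0 (θ - 1 / 2)
  have h2 := intervalIntegral.integral_comp_sub_left (a := -(1 / 2)) (b := 1 / 2)
    (fun y => F y * ee (-(k * y))) θ
  rw [zero_add] at h1
  rw [h1, show θ - 1 / 2 + 1 = θ - -(1 / 2) by ring, ← h2, ← intervalIntegral.integral_const_mul,
    ← intervalIntegral.integral_mul_const]
  refine intervalIntegral.integral_congr fun y _ => ?_
  have : ee (-(k * (θ - y))) * ee (k * θ) = ee (k * y) := by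
    rw [← ee_add]; congr 1; ring
  linear_combination (chi a b k : ℂ) * F (θ - y) * this

lemma kernel_one {a b m : ℕ} (ha : 0 < a) (h1 : a ≤ m + 1) (h2 : m < b) :
    ∫ y in (-(1 / 2) : ℝ)..(1 / 2), ee (-(m * y)) * (DD a y * DD b y / a) = 1 := by
  simp_rw [← sum_chi (a := a) (b := b) (N := a + b) (by omega), Finset.mul_sum]
  rw [intervalIntegral.integral_finsetSum fun k _ =>
    Continuous.intervalIntegrable (by fun_prop) _ _]
  have h3 : ∀ k : ℕ, ∫ y in (-(1 / 2) : ℝ)..(1 / 2), ee (-(m * y)) * ((chi a b k : ℂ) * ee (k * y)) =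
      (chi a b k : ℂ) * if (k : ℤ) - m = 0 then 1 else 0 := by
    intro k
    rw [← integral_ee_int _ (-(1 / 2)), ← intervalIntegral.integral_const_mul,
      show (-(1 / 2) + 1 : ℝ) = 1 / 2 by norm_num]
    refine intervalIntegral.integral_congr fun y _ => ?_
    have : ee (-(m * y)) * ee (k * y) = ee ((((k : ℤ) - m : ℤ) : ℝ) * y) := by
      rw [← ee_add]; congr 1; push_cast; ring
    linear_combination (chi a b k : ℂ) * this
  simp_rw [h3]
  rw [Finset.sum_eq_single m]
  · simp [chi_eq_one ha h1 h2]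
  · intro k _ hk
    rw [if_neg (by omega), mul_zero]
  · intro h; exact absurd (Finset.mem_range.2 (by omega)) h

lemma local_phase {T : ℝ → ℝ} (hT : Continuous T) {N m θ y r ω : ℝ} (hN : 0 ≤ N) (hy : |y| ≤ r)
    (hm : |N * T θ - m| ≤ 1) (hω : ∀ x, |x - θ| ≤ r → |T x - T θ| ≤ ω) :
    ‖ee (N * ∫ x in (0 : ℝ)..(θ - y), T x) - ee (N * ∫ x in (0 : ℝ)..θ, T x) * ee (-(m * y))‖ ≤
      2 * π * ((N * ω + 1) * r) := by
  rw [← ee_add]
  refine (norm_ee_sub_ee _ _).trans ?_
  have h1 : (N * ∫ x in (0 : ℝ)..(θ - y), T x) - ((N * ∫ x in (0 : ℝ)..θ, T x) + -(m * y)) =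
      ∫ x in θ..(θ - y), (N * T x - m) := by
    rw [intervalIntegral.integral_sub (Continuous.intervalIntegrable (by fun_prop) _ _)
      (Continuous.intervalIntegrable (by fun_prop) _ _), intervalIntegral.integral_const_mul,
      ← intervalIntegral.integral_interval_sub_left (a := 0) (c := θ) (hT.intervalIntegrable _ _)
        (hT.intervalIntegrable _ _), intervalIntegral.integral_const, smul_eq_mul]
    ring
  have hp := Real.pi_pos
  have hω0 : 0 ≤ ω := (abs_nonneg _).trans (hω θ (by simpa using (abs_nonneg _).trans hy))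
  rw [h1, ← Real.norm_eq_abs]
  gcongr
  refine (intervalIntegral.norm_integral_le_of_norm_le_const (C := N * ω + 1) fun x hx => ?_).trans ?_
  · have h2 : |x - θ| ≤ r := by
      have := abs_sub_left_of_mem_uIcc (uIoc_subset_uIcc hx)
      rw [sub_sub_cancel_left, abs_neg] at this
      exact this.trans hy
    have h3 : N * T x - m = N * (T x - T θ) + (N * T θ - m) := by ring
    rw [Real.norm_eq_abs, h3]
    refine (abs_add_le _ _).trans ?_
    rw [abs_mul, abs_of_nonneg hN]
    gcongr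
    exact hω x h2
  · rw [sub_sub_cancel_left, abs_neg]; gcongr

theorem kernel_approx {T : ℝ → ℝ} (hT : Continuous T) (hper : Function.Periodic T 1) {δ : ℝ}
    (hδ : 0 < δ) (hb : ∀ x, δ ≤ T x ∧ T x ≤ 1 - δ) {ε : ℝ} (hε : 0 < ε) :
    ∀ᶠ N : ℕ in atTop, (∃ z : ℤ, N * ∫ x in (0 : ℝ)..1, T x = z) →
      ∃ χ : ℕ → ℝ, (∀ k, 0 ≤ χ k ∧ χ k ≤ 1) ∧ ∀ θ, |θ| ≤ 1 →
        ‖∑ k ∈ Finset.range N, (χ k : ℂ) *
          (∫ y in (0 : ℝ)..1, ee (N * ∫ x in (0 : ℝ)..y, T x) * ee (-(k * y))) * ee (k * θ) -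
          ee (N * ∫ x in (0 : ℝ)..θ, T x)‖ ≤ ε := by
  have hp := Real.pi_pos
  set B := 4 / (δ * ε) with hB
  have hB0 : 0 < B := by positivity
  set ω := ε / (16 * π * B ^ 2) with hω
  have hω0 : 0 < ω := by positivity
  obtain ⟨ρ, hρ0, hρ⟩ := Metric.uniformContinuousOn_iff_le.1
    ((isCompact_Icc (a := -2) (b := 2)).uniformContinuousOn_of_continuous hT.continuousOn) ω hω0
  have ht := tendsto_natCast_atTop_atTop (R := ℝ)
  filter_upwards [ht.eventually_ge_atTop (2 / δ), ht.eventually_ge_atTop (2 * B),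
    ht.eventually_ge_atTop (B / ρ), ht.eventually_ge_atTop (1 / ω)] with N n1 n2 n3 n4
  rintro ⟨z, hz⟩
  have hN : (0 : ℝ) < N := lt_of_lt_of_le (by positivity) n1
  rw [div_le_iff₀ hδ] at n1
  set a := ⌊δ * N⌋₊ with ha
  have ha1 : (a : ℝ) ≤ δ * N := Nat.floor_le (by positivity)
  have ha2 : δ * N < a + 1 := Nat.lt_floor_add_one _
  have ha0 : 0 < a := Nat.floor_pos.2 (by linarith)
  have hδ1 : δ ≤ 1 - δ := (hb 0).1.trans (hb 0).2
  have haN : a ≤ N := by
    have : (a : ℝ) ≤ N := by nlinarith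
    exact_mod_cast this
  set F : ℝ → ℂ := fun y => ee (N * ∫ x in (0 : ℝ)..y, T x) with hF
  have hFc : Continuous F := by
    have := continuous_prim hT 0
    fun_prop
  have hFp : Function.Periodic F 1 := by
    intro y
    simp only [hF]
    rw [hper.intervalIntegral_add_eq_add 0 y fun _ _ => hT.intervalIntegrable _ _, zero_add]
    exact ee_congr z (by rw [mul_add, hz])
  refine ⟨chi a (N - a + 1), fun k => ⟨chi_nonneg _ _ _, chi_le_one _ _ _⟩, fun θ hθ => ?_⟩
  set m := ⌊N * T θ⌋₊ with hm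
  have hm1 : (m : ℝ) ≤ N * T θ := Nat.floor_le (by nlinarith [hb θ])
  have hm2 : N * T θ < m + 1 := Nat.lt_floor_add_one _
  have ham : a ≤ m := Nat.floor_le_floor (by nlinarith [hb θ])
  have hmb : m + a ≤ N := by
    have : (m : ℝ) + a ≤ N := by nlinarith [hb θ]
    exact_mod_cast this
  have hc := conv_eq hFc hFp (a := a) (b := N - a + 1) (N := N) (by omega) θ
  have h1 := kernel_one (b := N - a + 1) (m := m) ha0 (by omega) (by omega)
  change ‖∑ k ∈ Finset.range N, (chi a (N - a + 1) k : ℂ) *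
    (∫ y in (0 : ℝ)..1, F y * ee (-(k * y))) * ee (k * θ) - F θ‖ ≤ ε
  rw [hc, ← mul_one (F θ), ← h1, ← intervalIntegral.integral_const_mul,
    ← intervalIntegral.integral_sub (Continuous.intervalIntegrable (by fun_prop) _ _)
      (Continuous.intervalIntegrable (by fun_prop) _ _)]
  simp_rw [← mul_assoc (F θ), ← sub_mul]
  have hr0 : 0 < B / N := by positivity
  have hr1 : B / N ≤ 1 / 2 := by rw [div_le_iff₀ hN]; linarith
  have hr2 : B / N ≤ ρ := by rw [div_le_iff₀ hN]; rw [div_le_iff₀ hρ0] at n3; linarith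
  refine (kernel_bound (g := fun y => F (θ - y) - F θ * ee (-(m * y))) (by fun_prop) ha0 hr0 hr1
    (e := 2 * π * ((N * ω + 1) * (B / N))) (fun y => ?_) fun y hy => ?_).trans ?_
  · refine (norm_sub_le _ _).trans ?_
    simp [hF]; norm_num
  · refine local_phase hT hN.le hy (abs_le.2 ⟨by linarith, by linarith⟩) fun x hx => ?_
    rw [abs_le] at hθ
    have hx' := abs_le.1 hx
    exact hρ x ⟨by linarith, by linarith⟩ θ ⟨by linarith, by linarith⟩ (hx.trans hr2)
  · have q1 : ((N - a + 1 : ℕ) : ℝ) ≤ N := by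
      have : N - a + 1 ≤ N := by omega
      exact_mod_cast this
    have q2 : N * ω + 1 ≤ 2 * N * ω := by rw [div_le_iff₀ hω0] at n4; linarith
    have q3 : 2 * π * ((N * ω + 1) * (B / N)) * ((N - a + 1 : ℕ) : ℝ) * (2 * (B / N)) ≤ ε / 2 := by
      calc _ ≤ 2 * π * ((2 * N * ω) * (B / N)) * N * (2 * (B / N)) := by gcongr
        _ = ε / 2 := by rw [hω]; field_simp; ring
    have q4 : 1 / (a * (B / N)) ≤ ε / 2 := by
      calc _ ≤ 1 / (δ * N / 2 * (B / N)) := by gcongr; linarith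
        _ = ε / 2 := by rw [hB]; field_simp; ring
    linarith

end Vale.Agent.P110
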