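import Vale.Agent.P110.Flat
import Vale.Agent.P110.Blocks

open Finset Filter
open scoped Real

namespace Vale.Agent.P110

theorem design {η : ℝ} (hη : 0 < η) (hη1 : η ≤ 1) : Design η := by
  obtain ⟨I, _, _, A, B, ρ, θ, hA, hD, hρ, hρ1, hF⟩ := flat_data (η := η / 10) (by positivity)
    (by linarith)
  have hI : (0 : ℝ) ≤ Fintype.card I := by positivity
  have h := cells_of (η' := η / 10 / (4 * (Fintype.card I + 1))) (by positivity) (by
      rw [← mul_div_assoc, ← mul_div_assoc, div_le_iff₀ (by positivity)]; nlinarith) (by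
      rw [div_le_iff₀ (by positivity)]; nlinarith) hA hD hρ hρ1 hF
    (colData hA hD hρ hρ1 (by positivity))
  have := design_of_cells (by positivity) (by linarith) h
  rwa [show 5 * (2 * (η / 10)) = η by ring] at this

theorem ultraflat {c : ℝ} (hc : 0 < c) (N₀ : ℕ) : ∃ N ≥ N₀, ∃ ε : ℕ → ℝ,
    (∀ k, ε k = 1 ∨ ε k = -1) ∧ ∀ z : ℂ, ‖z‖ = 1 →
      |‖∑ k ∈ range N, (ε k : ℂ) * z ^ k‖ - √N| ≤ c * √N := by
  set κ := min 1 (c / 7207) with hκ
  have hκ0 : 0 < κ := lt_min one_pos (by positivity)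
  have hκ1 : κ ≤ 1 := min_le_left _ _
  have hκ2 : 7207 * κ ≤ c := by
    have : κ ≤ c / 7207 := min_le_right _ _
    linarith
  have h := core hκ0 hκ1 (design (by positivity) (by
    have := pow_le_one₀ hκ0.le hκ1 (n := 4)
    linarith))
  obtain ⟨N, hN, ε, hε, h2⟩ := frequently_atTop.1 h N₀
  refine ⟨N, hN, ε, hε, fun z hz => ?_⟩
  obtain ⟨x, rfl⟩ := exists_ee hz
  have e : ee x = ee (Int.fract x) := ee_congr ⌊x⌋ (by simp)
  have := h2 (Int.fract x) (by
    rw [abs_of_nonneg (Int.fract_nonneg x)]; exact (Int.fract_lt_one x).le)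
  simp only [ee_nat_mul, ← e] at this
  exact this.trans (by gcongr)

end Vale.Agent.P110
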