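import Vale.Agent.P110.Kernel

open Complex Set MeasureTheory Filter Topology
open scoped Real ComplexConjugate

namespace Vale.Agent.P110

structure Tiling {U : Type*} [Fintype U] (a l : U → ℝ) : Prop where
  pos : ∀ i, 0 < l i
  lo : ∀ i, 0 ≤ a i
  hi : ∀ i, a i + l i ≤ 1
  disj : ∀ i j, i ≠ j → a i + l i ≤ a j ∨ a j + l j ≤ a i
  total : ∑ i, l i = 1

lemma Tiling.integral_eq {U : Type*} [Fintype U] {a l : U → ℝ} (h : Tiling a l) {g : ℝ → ℂ}
    (hg : Continuous g) : ∫ x in (0 : ℝ)..1, g x = ∑ i, ∫ x in (a i)..(a i + l i), g x := by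
  have hd : Pairwise (Function.onFun Disjoint fun i => Ioc (a i) (a i + l i)) := by
    intro i j hij
    rw [Function.onFun, Set.disjoint_left]
    intro x hx hx'
    rcases h.disj i j hij with h1 | h1
    · linarith [hx.2, hx'.1]
    · linarith [hx.1, hx'.2]
  have hae : (⋃ i, Ioc (a i) (a i + l i)) =ᵐ[volume] Ioc (0 : ℝ) 1 := by
    apply ae_eq_of_subset_of_measure_ge
    · exact iUnion_subset fun i => Ioc_subset_Ioc (h.lo i) (h.hi i)
    · rw [measure_iUnion hd fun _ => measurableSet_Ioc, tsum_fintype]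
      simp only [Real.volume_Ioc, add_sub_cancel_left, sub_zero]
      rw [← ENNReal.ofReal_sum_of_nonneg fun i _ => (h.pos i).le, h.total]
    · exact (MeasurableSet.iUnion fun _ => measurableSet_Ioc).nullMeasurableSet
    · simp
  rw [intervalIntegral.integral_of_le zero_le_one, ← setIntegral_congr_set hae,
    integral_iUnion_fintype (fun _ => measurableSet_Ioc) hd
      fun i => (hg.intervalIntegrable _ _).1]
  exact Finset.sum_congr rfl fun i _ =>
    (intervalIntegral.integral_of_le (by linarith [h.pos i])).symm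

lemma integral_extend' {f : ℝ → ℝ} (hf : Continuous f) {α β a b : ℝ} (ha : a ≤ α) (hb : β ≤ b)
    (hz : ∀ t, t ≤ α ∨ β ≤ t → f t = 0) : ∫ t in a..b, f t = ∫ t in α..β, f t := by
  have := integral_extend (f := fun t => (f t : ℂ)) (by fun_prop) ha hb
    (fun t ht => by simp [hz t ht])
  simp only [intervalIntegral.integral_ofReal] at this
  exact_mod_cast this

lemma integral_zero_of {f : ℝ → ℝ} {a b : ℝ} (hab : a ≤ b) (hz : ∀ t, t ≤ b → f t = 0) :
    ∫ t in a..b, f t = 0 := by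
  rw [intervalIntegral.integral_congr (g := fun _ => 0) fun t ht => ?_]
  · simp
  · rw [uIcc_of_le hab] at ht; exact hz t ht.2

section
variable {U : Type*} [Fintype U] {a l : U → ℝ} (h : Tiling a l) {τ : U → ℝ → ℝ}
  (hc : ∀ i, Continuous (τ i)) (hz : ∀ i x, x ≤ a i ∨ a i + l i ≤ x → τ i x = 0)
include h hz

lemma Tiling.sum_eq (i : U) {x : ℝ} (h1 : a i ≤ x) (h2 : x ≤ a i + l i) :
    ∑ j, τ j x = τ i x := by
  refine Finset.sum_eq_single i (fun j _ hj => hz j x ?_) (by simp)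
  rcases h.disj j i hj with h3 | h3
  · right; linarith
  · left; linarith

lemma Tiling.sum_le {β : ℝ} (hβ : 0 ≤ β) (hb : ∀ i x, τ i x ≤ β) (x : ℝ) : ∑ j, τ j x ≤ β := by
  by_cases h0 : ∀ j, τ j x = 0
  · simp [h0, hβ]
  · push Not at h0
    obtain ⟨i, hi⟩ := h0
    have : ¬ (x ≤ a i ∨ a i + l i ≤ x) := fun h' => hi (hz i x h')
    push Not at this
    rw [h.sum_eq hz i this.1.le this.2.le]; exact hb i x

include hc

lemma Tiling.start_int {N : ℝ} (hm : ∀ j, ∃ z : ℤ, N * ∫ x in (a j)..(a j + l j), τ j x = z)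
    (i : U) : ∃ z : ℤ, N * ∫ x in (0 : ℝ)..(a i), ∑ j, τ j x = z := by
  have : ∀ j, ∃ z : ℤ, N * ∫ x in (0 : ℝ)..(a i), τ j x = z := by
    intro j
    by_cases h1 : a j + l j ≤ a i
    · rw [integral_extend' (hc j) (h.lo j) h1 (hz j)]; exact hm j
    · have h2 : a i ≤ a j := by
        by_cases hij : j = i
        · rw [hij]
        · rcases h.disj j i hij with h3 | h3
          · exact absurd h3 h1
          · linarith [h.pos i]
      rw [integral_zero_of (h.lo i) fun t ht => hz j t (Or.inl (ht.trans h2))]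
      exact ⟨0, by simp⟩
  choose z hz' using this
  refine ⟨∑ j, z j, ?_⟩
  rw [intervalIntegral.integral_finsetSum fun j _ => (hc j).intervalIntegrable _ _,
    Finset.mul_sum]
  push_cast
  exact Finset.sum_congr rfl fun j _ => hz' j

lemma Tiling.total_int {N : ℝ} (hm : ∀ j, ∃ z : ℤ, N * ∫ x in (a j)..(a j + l j), τ j x = z) :
    ∃ z : ℤ, N * ∫ x in (0 : ℝ)..1, ∑ j, τ j x = z := by
  choose z hz' using hm
  refine ⟨∑ j, z j, ?_⟩
  rw [intervalIntegral.integral_finsetSum fun j _ => (hc j).intervalIntegrable _ _,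
    Finset.mul_sum]
  push_cast
  refine Finset.sum_congr rfl fun j _ => ?_
  rw [integral_extend' (hc j) (h.lo j) (h.hi j) (hz j)]; exact hz' j

lemma Tiling.piece {N : ℝ} (hm : ∀ j, ∃ z : ℤ, N * ∫ x in (a j)..(a j + l j), τ j x = z)
    (δ k : ℝ) (i : U) :
    ∫ y in (a i)..(a i + l i), ee (∫ x in (0 : ℝ)..y, (N * (δ + ∑ j, τ j x) - k)) =
      ee ((N * δ - k) * a i) *
        ∫ y in (a i)..(a i + l i), ee (∫ x in (a i)..y, (N * (δ + τ i x) - k)) := by
  obtain ⟨z, hz'⟩ := h.start_int hc hz hm i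
  have hS : Continuous fun x => ∑ j, τ j x := continuous_finsetSum _ fun j _ => hc j
  rw [← intervalIntegral.integral_const_mul]
  refine intervalIntegral.integral_congr fun y hy => ?_
  rw [uIcc_of_le (by linarith [h.pos i])] at hy
  have hc2 : Continuous fun x => N * (δ + ∑ j, τ j x) - k := by fun_prop
  rw [← ee_add, ← intervalIntegral.integral_add_adjacent_intervals (b := a i)
    (hc2.intervalIntegrable _ _) (hc2.intervalIntegrable _ _)]
  have e1 : ∫ x in (a i)..y, (N * (δ + ∑ j, τ j x) - k) =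
      ∫ x in (a i)..y, (N * (δ + τ i x) - k) := by
    refine intervalIntegral.integral_congr fun x hx => ?_
    rw [uIcc_of_le hy.1] at hx
    rw [h.sum_eq hz i hx.1 (hx.2.trans hy.2)]
  have e2 : ∫ x in (0 : ℝ)..(a i), (N * (δ + ∑ j, τ j x) - k) = (N * δ - k) * a i + z := by
    rw [← hz', ← intervalIntegral.integral_const_mul]
    have : ∀ x, N * (δ + ∑ j, τ j x) - k = (N * δ - k) + N * ∑ j, τ j x := fun x => by ring
    simp_rw [this]
    rw [intervalIntegral.integral_add (by simp) (Continuous.intervalIntegrable (by fun_prop) _ _),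
      intervalIntegral.integral_const, smul_eq_mul]
    ring
  rw [e1, e2]
  exact ee_congr z (by ring)

end

lemma reflect_piece {S : ℝ → ℝ} (hS : Continuous S) (hsym : ∀ x, S (1 - x) = S x)
    (hz : ∃ z : ℤ, ∫ x in (0 : ℝ)..1, S x = z) (a l : ℝ) :
    ∫ y in (1 - a - l)..(1 - a - l + l), ee (∫ x in (0 : ℝ)..y, S x) =
      conj (∫ y in a..(a + l), ee (∫ x in (0 : ℝ)..y, S x)) := by
  obtain ⟨z, hz⟩ := hz
  have := intervalIntegral.integral_comp_sub_left (a := a) (b := a + l)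
    (fun y => ee (∫ x in (0 : ℝ)..y, S x)) 1
  rw [show 1 - a - l + l = 1 - a by ring, show 1 - a - l = 1 - (a + l) by ring, ← this,
    ← intervalIntegral.intervalIntegral_conj]
  refine intervalIntegral.integral_congr fun y _ => ?_
  have h2 := intervalIntegral.integral_comp_sub_left (a := 0) (b := y) S 1
  simp only [hsym, sub_zero] at h2
  rw [← ee_neg, h2]
  refine ee_congr z ?_
  rw [← hz, ← intervalIntegral.integral_add_adjacent_intervals (a := 0) (b := 1 - y) (c := 1)
    (hS.intervalIntegrable _ _) (hS.intervalIntegrable _ _)]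
  ring

lemma coef_formula {U : Type*} [Fintype U] {a l : U → ℝ}
    (h : Tiling (Sum.elim a fun i => 1 - a i - l i) (Sum.elim l l)) {τ : U → ℝ → ℝ}
    (hc : ∀ i, Continuous (τ i)) (hz : ∀ i x, x ≤ a i ∨ a i + l i ≤ x → τ i x = 0)
    {N δ : ℝ} (hδ : ∃ z : ℤ, N * δ = z)
    (hm : ∀ j, ∃ z : ℤ, N * ∫ x in (a j)..(a j + l j), τ j x = z) :
    (∃ z : ℤ, N * ∫ x in (0 : ℝ)..1, (δ + (∑ i, τ i x + ∑ i, τ i (1 - x))) = z) ∧ ∀ k : ℕ,
      ∫ y in (0 : ℝ)..1, ee (N * ∫ x in (0 : ℝ)..y, (δ + (∑ i, τ i x + ∑ i, τ i (1 - x)))) *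
        ee (-(k * y)) = ((∑ i, 2 * (ee ((N * δ - k) * a i) *
          ∫ y in (a i)..(a i + l i), ee (∫ x in (a i)..y, (N * (δ + τ i x) - k))).re : ℝ) : ℂ) := by
  set τ' : U ⊕ U → ℝ → ℝ := Sum.elim τ fun i x => τ i (1 - x) with hτ'
  have hc' : ∀ i, Continuous (τ' i) := by
    rintro (i | i)
    · exact hc i
    · have := hc i
      simp only [hτ', Sum.elim_inr]; fun_prop
  have hz' : ∀ i x, x ≤ Sum.elim a (fun i => 1 - a i - l i) i ∨
      Sum.elim a (fun i => 1 - a i - l i) i + Sum.elim l l i ≤ x → τ' i x = 0 := by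
    rintro (i | i) x hx
    · exact hz i x hx
    · simp only [Sum.elim_inr] at hx
      refine hz i (1 - x) ?_
      rcases hx with hx | hx
      · right; linarith
      · left; linarith
  have hm' : ∀ j, ∃ z : ℤ, N * ∫ x in (Sum.elim a (fun i => 1 - a i - l i) j)..(
      Sum.elim a (fun i => 1 - a i - l i) j + Sum.elim l l j), τ' j x = z := by
    rintro (i | i)
    · exact hm i
    · simp only [hτ', Sum.elim_inr]
      rw [intervalIntegral.integral_comp_sub_left (τ i) 1,
        show 1 - (1 - a i - l i + l i) = a i by ring, show 1 - (1 - a i - l i) = a i + l i by ring]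
      exact hm i
  have hsum : ∀ x, ∑ i, τ i x + ∑ i, τ i (1 - x) = ∑ j, τ' j x := fun x => by
    rw [Fintype.sum_sum_type]; rfl
  have hS : Continuous fun x => ∑ j, τ' j x := continuous_finsetSum _ fun j _ => hc' j
  have hsym : ∀ x, ∑ j, τ' j (1 - x) = ∑ j, τ' j x := fun x => by
    rw [← hsum, ← hsum, sub_sub_cancel, add_comm]
  simp_rw [hsum]
  obtain ⟨z₁, hz₁⟩ := hδ
  obtain ⟨z₂, hz₂⟩ := h.total_int hc' hz' hm'
  have htot : N * ∫ x in (0 : ℝ)..1, (δ + ∑ j, τ' j x) = (z₁ + z₂ : ℤ) := by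
    rw [intervalIntegral.integral_add (by simp) (hS.intervalIntegrable _ _),
      intervalIntegral.integral_const, smul_eq_mul, mul_add, hz₂]
    push_cast; linarith
  refine ⟨⟨_, htot⟩, fun k => ?_⟩
  have hint : ∀ y, ∫ x in (0 : ℝ)..y, (N * (δ + ∑ j, τ' j x) - k) =
      N * (∫ x in (0 : ℝ)..y, (δ + ∑ j, τ' j x)) + -(k * y) := by
    intro y
    rw [intervalIntegral.integral_sub (Continuous.intervalIntegrable (by fun_prop) _ _) (by simp),
      intervalIntegral.integral_const_mul, intervalIntegral.integral_const, smul_eq_mul]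
    ring
  simp_rw [← ee_add, ← hint]
  have hS2 : Continuous fun x => N * (δ + ∑ j, τ' j x) - k := by fun_prop
  rw [h.integral_eq (g := fun y => ee (∫ x in (0 : ℝ)..y, (N * (δ + ∑ j, τ' j x) - k)))
      (continuous_ee.comp (continuous_prim hS2 0)),
    Fintype.sum_sum_type, ← Finset.sum_add_distrib]
  push_cast
  refine Finset.sum_congr rfl fun i _ => ?_
  have e1 := h.piece hc' hz' hm' δ k (Sum.inl i)
  have e2 := reflect_piece hS2 (fun x => by rw [hsym])
    ⟨z₁ + z₂ - k, by rw [hint, htot]; push_cast; ring⟩ (a i) (l i)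
  simp only [Sum.elim_inl, Sum.elim_inr] at e1 ⊢
  rw [e2, e1, Complex.add_conj]
  simp [hτ']

theorem path_exists {U : Type*} [Fintype U] {a l : U → ℝ}
    (h : Tiling (Sum.elim a fun i => 1 - a i - l i) (Sum.elim l l)) {δ : ℝ} (hδ : δ ≤ 1 - δ)
    {u v : U → ℝ → ℝ} (hu : ∀ i, IsRate δ (1 - δ) (u i)) (hv : ∀ i, IsRate δ (1 - δ) (v i))
    (hl : ∀ i, (∫ t in δ..(1 - δ), u i t) + ∫ t in δ..(1 - δ), v i t = l i) :
    ∃ T : ℝ → ℝ, Continuous T ∧ Function.Periodic T 1 ∧ (∀ x, δ ≤ T x ∧ T x ≤ 1 - δ) ∧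
      ∀ ε : ℝ, 0 < ε → ∀ᶠ N : ℕ in atTop, (∃ z : ℤ, N * δ = z) →
        (∀ i, ∃ z : ℤ, N * ((∫ σ in δ..(1 - δ), u i σ * (σ - δ)) +
          ∫ σ in δ..(1 - δ), v i σ * (σ - δ)) = z) →
        (∃ z : ℤ, N * ∫ x in (0 : ℝ)..1, T x = z) ∧ ∀ k : ℕ, ∃ r : ℝ,
          (√N : ℝ) * (∫ y in (0 : ℝ)..1, ee (N * ∫ x in (0 : ℝ)..y, T x) * ee (-(k * y))) = r ∧
          |r - ∑ i, 2 * (ee ((N * δ - k) * a i + (∫ σ in δ..(k / N), u i σ * (N * σ - k)) +
            1 / 8)).re * √(u i (k / N))| ≤ ∑ i, 2 * √(v i (k / N)) + ε := by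
  choose τ hc hz hb hm hsp using fun i => unit_sp hδ (hu i) (hv i) (a i) (l i) (hl i)
  set T₀ : ℝ → ℝ := fun x => δ + (∑ i, τ i x + ∑ i, τ i (1 - x)) with hT₀
  have hT₀c : Continuous T₀ := by
    simp only [hT₀]; fun_prop
  have h01 : T₀ 0 = T₀ 1 := by simp [hT₀, add_comm]
  have hTeq : ∀ y ∈ Icc (0 : ℝ) 1, ∫ x in (0 : ℝ)..y, (T₀ ∘ Int.fract) x =
      ∫ x in (0 : ℝ)..y, T₀ x := by
    intro y hy
    refine intervalIntegral.integral_congr fun x hx => ?_
    rw [uIcc_of_le hy.1] at hx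
    rcases (hx.2.trans hy.2).eq_or_lt with h1 | h1
    · rw [h1]; simp [h01]
    · simp [Int.fract_eq_self.2 ⟨hx.1, h1⟩]
  refine ⟨T₀ ∘ Int.fract, ContinuousOn.comp_fract'' hT₀c.continuousOn h01, fun x => by simp,
    fun x => ⟨?_, ?_⟩, fun ε hε => ?_⟩
  · simp only [hT₀, Function.comp]
    have h1 : ∀ y, 0 ≤ ∑ i, τ i y := fun y => Finset.sum_nonneg fun i _ => (hb i y).1
    linarith [h1 (Int.fract x), h1 (1 - Int.fract x)]
  · have := h.sum_le (τ := Sum.elim τ fun i x => τ i (1 - x)) (β := 1 - δ - δ) (by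
      rintro (i | i) x hx
      · exact hz i x hx
      · simp only [Sum.elim_inr] at hx
        refine hz i (1 - x) ?_
        rcases hx with hx | hx
        · right; linarith
        · left; linarith) (by linarith) (by
      rintro (i | i) x
      · exact (hb i x).2
      · exact (hb i (1 - x)).2) (Int.fract x)
    rw [Fintype.sum_sum_type] at this
    simp only [Sum.elim_inl, Sum.elim_inr] at this
    simp only [hT₀, Function.comp]
    linarith
  · set e := ε / (2 * (Fintype.card U + 1)) with he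
    have he0 : 0 < e := by positivity
    filter_upwards [(tendsto_natCast_atTop_atTop (R := ℝ)).eventually
      (eventually_all.2 fun i => hsp i e he0)] with N hN hNδ hNm
    obtain ⟨c1, c2⟩ := coef_formula h hc hz hNδ fun j => by rw [hm j]; exact hNm j
    refine ⟨by rw [hTeq 1 ⟨zero_le_one, le_rfl⟩]; exact c1, fun k => ⟨√N * ∑ i, 2 *
      (ee ((N * δ - k) * a i) *
        ∫ y in (a i)..(a i + l i), ee (∫ x in (a i)..y, (N * (δ + τ i x) - k))).re, ?_, ?_⟩⟩
    · rw [Complex.ofReal_mul, ← c2 k]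
      congr 1
      refine intervalIntegral.integral_congr fun y hy => ?_
      rw [uIcc_of_le zero_le_one] at hy
      rw [hTeq y hy]
    · rw [Finset.mul_sum, ← Finset.sum_sub_distrib]
      refine (Finset.abs_sum_le_sum_abs _ _).trans ?_
      have h2 : ε / (Fintype.card U + 1) * Fintype.card U ≤ ε := by
        rw [div_mul_eq_mul_div, div_le_iff₀ (by positivity)]; nlinarith
      have h3 : ∑ i, (2 * √(v i (k / N)) + 2 * e) =
          ∑ i, 2 * √(v i (k / N)) + ε / (Fintype.card U + 1) * Fintype.card U := by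
        rw [Finset.sum_add_distrib, Finset.sum_const, Finset.card_univ, nsmul_eq_mul, he]
        field_simp
      refine le_trans (Finset.sum_le_sum fun i _ => ?_) (h3.le.trans (by linarith))
      have q := hN i k
      set X := ∫ y in (a i)..(a i + l i), ee (∫ x in (a i)..y, (N * (δ + τ i x) - k))
      set H := ∫ σ in δ..(k / N), u i σ * (N * σ - k)
      have q2 : √N * (2 * (ee ((N * δ - k) * a i) * X).re) -
          2 * (ee ((N * δ - k) * a i + H + 1 / 8)).re * √(u i (k / N)) =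
          2 * (ee ((N * δ - k) * a i) *
            ((√N : ℝ) * X - ee (H + 1 / 8) * (√(u i (k / N)) : ℝ))).re := by
        rw [add_assoc, ee_add, mul_sub, Complex.sub_re, mul_left_comm (ee _), ← mul_assoc (ee _),
          Complex.re_ofReal_mul, Complex.re_mul_ofReal]
        ring
      rw [q2, abs_mul, abs_two]
      have q3 := Complex.abs_re_le_norm (ee ((N * δ - k) * a i) *
        ((√N : ℝ) * X - ee (H + 1 / 8) * (√(u i (k / N)) : ℝ)))
      rw [norm_mul, norm_ee, one_mul] at q3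
      linarith

end Vale.Agent.P110
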