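import Mathlib

open Finset

namespace Vale.Agent.P110

section
variable {β γ : Type*} [Fintype β] [DecidableEq β] [Fintype γ] [DecidableEq γ]

lemma mean_one (w : γ → ℝ) (hw : ∑ x, w x = 1) : ∑ c : β → γ, ∏ b, w (c b) = 1 := by
  rw [← Fintype.prod_sum (fun (_ : β) x => w x)]; simp [hw]

lemma mean_eq {ι : Type*} (w : γ → ℝ) (hw : ∑ x, w x = 1) (s : Finset ι) (f : ι → β) (col : ι → γ)
    (hf : ∀ r ∈ s, ∀ r' ∈ s, f r = f r' → r = r') :
    ∑ c : β → γ, (∏ b, w (c b)) * (if ∀ r ∈ s, c (f r) = col r then 1 else 0) =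
      ∏ r ∈ s, w (col r) := by
  have h1 : ∀ c : β → γ, (∏ b, w (c b)) * (if ∀ r ∈ s, c (f r) = col r then 1 else 0) =
      ∏ b, (w (c b) * ∏ r ∈ s with f r = b, (if c b = col r then (1 : ℝ) else 0)) := by
    intro c
    rw [Finset.prod_mul_distrib, ← Finset.prod_boole,
      ← Finset.prod_fiberwise s f fun r => if c (f r) = col r then (1 : ℝ) else 0]
    congr 1
    refine Finset.prod_congr rfl fun b _ => Finset.prod_congr rfl fun r hr => ?_
    rw [(mem_filter.1 hr).2]
  simp_rw [h1]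
  rw [← Fintype.prod_sum (fun b x => w x * ∏ r ∈ s with f r = b,
    (if x = col r then (1 : ℝ) else 0)), ← Finset.prod_fiberwise s f fun r => w (col r)]
  refine Finset.prod_congr rfl fun b _ => ?_
  by_cases h : ∃ r ∈ s, f r = b
  · obtain ⟨r, hr, rfl⟩ := h
    have : (s.filter fun r' => f r' = f r) = {r} := by
      ext r'
      simp only [mem_filter, mem_singleton]
      exact ⟨fun h => hf _ h.1 _ hr h.2, fun h => by rw [h]; exact ⟨hr, rfl⟩⟩
    simp [this]
  · have : (s.filter fun r' => f r' = b) = ∅ := by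
      rw [Finset.filter_eq_empty_iff]
      exact fun r hr h' => h ⟨r, hr, h'⟩
    simp [this, hw]

lemma mean_le {ι : Type*} (w : γ → ℝ) (hw0 : ∀ x, 0 ≤ w x) (hw : ∑ x, w x = 1) (s : Finset ι)
    (f : ι → β) (col : ι → γ) (hf : ∀ r ∈ s, ∀ r' ∈ s, f r = f r' → col r = col r' → r = r') :
    ∑ c : β → γ, (∏ b, w (c b)) * (if ∀ r ∈ s, c (f r) = col r then 1 else 0) ≤
      ∏ r ∈ s, w (col r) := by
  by_cases h : ∀ r ∈ s, ∀ r' ∈ s, f r = f r' → r = r'
  · exact (mean_eq w hw s f col h).le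
  · push Not at h
    obtain ⟨r, hr, r', hr', h1, h2⟩ := h
    rw [Finset.sum_eq_zero fun c _ => ?_]
    · exact Finset.prod_nonneg fun _ _ => hw0 _
    · rw [if_neg, mul_zero]
      intro h3
      exact h2 (hf r hr r' hr' h1 (by rw [← h3 r hr, ← h3 r' hr', h1]))

end

lemma exists_ge_mean {α : Type*} [Fintype α] (P f : α → ℝ) (hP : ∀ c, 0 ≤ P c)
    (hP1 : ∑ c, P c = 1) {m : ℝ} (h : m ≤ ∑ c, P c * f c) : ∃ c, m ≤ f c := by
  by_contra hc
  push Not at hc
  obtain ⟨c, -, hc0⟩ := Finset.exists_ne_zero_of_sum_ne_zero (s := univ) (f := P)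
    (by rw [hP1]; exact one_ne_zero)
  have : ∑ c, P c * f c < ∑ c, P c * m :=
    Finset.sum_lt_sum (fun c _ => mul_le_mul_of_nonneg_left (hc c).le (hP c))
      ⟨c, mem_univ _, mul_lt_mul_of_pos_left (hc c) ((hP c).lt_of_ne' hc0)⟩
  rw [← Finset.sum_mul, hP1, one_mul] at this
  linarith

lemma tail_le {N μ η : ℝ} (hμ : 0 < μ) (hη : 0 < η) :
    N * (if (1 + η) * μ < N then 1 else 0) ≤ (1 + η) / (η ^ 2 * μ) * (N - μ) ^ 2 := by
  split_ifs with h
  · rw [mul_one, div_mul_eq_mul_div, le_div_iff₀ (by positivity)]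
    have h1 : η * μ ≤ N - μ := by linarith
    have h2 : η * N ≤ (1 + η) * (N - μ) := by linarith
    have h3 : 0 ≤ η * μ := by positivity
    calc N * (η ^ 2 * μ) = η * N * (η * μ) := by ring
      _ ≤ (1 + η) * (N - μ) * (N - μ) := by
          apply mul_le_mul h2 h1 h3; nlinarith
      _ = _ := by ring
  · rw [mul_zero]; positivity

/-- Deterministic pruning. -/
lemma prune {I Ω G : Type*} [Fintype I] [DecidableEq I] [Fintype Ω] [DecidableEq Ω] [Fintype G]
    [DecidableEq G] (m : I → Ω → G) (ok : Ω → I → Prop) [∀ ω i, Decidable (ok ω i)]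
    (T : Finset Ω) (μ : I → ℝ) (hμ : ∀ j, 0 < μ j) {η : ℝ} (hη : 0 < η) :
    ∃ S ⊆ T, (∀ ω ∈ S, ∀ i, ok ω i) ∧
      (∀ j y, ((S.filter fun ω => m j ω = y).card : ℝ) ≤ (1 + η) * μ j) ∧
      ∑ ω ∈ T, (if ∀ i ∈ (univ : Finset I), ok ω i then (1 : ℝ) else 0) -
        ∑ j, (1 + η) / (η ^ 2 * μ j) * ∑ y, (∑ ω with m j ω = y,
          (if ∀ i ∈ univ.erase j, ok ω i then (1 : ℝ) else 0) - μ j) ^ 2 ≤ S.card := by
  set X : I → Ω → ℝ := fun j ω => if ∀ i ∈ univ.erase j, ok ω i then (1 : ℝ) else 0 with hX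
  have hX0 : ∀ j ω, 0 ≤ X j ω := fun j ω => by simp only [hX]; split_ifs <;> norm_num
  set N : I → G → ℝ := fun j y => ∑ ω with m j ω = y, X j ω with hN
  set S := T.filter fun ω => (∀ i, ok ω i) ∧ ∀ j, N j (m j ω) ≤ (1 + η) * μ j with hS
  refine ⟨S, filter_subset _ _, fun ω hω => (mem_filter.1 hω).2.1, fun j y => ?_, ?_⟩
  · rcases (S.filter fun ω => m j ω = y).eq_empty_or_nonempty with h | ⟨ω₀, h⟩
    · rw [h]; have := hμ j; simp; positivity
    · have h1 := (mem_filter.1 (mem_filter.1 h).1).2.2 j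
      rw [(mem_filter.1 h).2] at h1
      refine le_trans ?_ h1
      calc _ = ∑ ω ∈ S.filter fun ω => m j ω = y, X j ω := by
            rw [Finset.sum_congr rfl (g := fun _ => (1 : ℝ)) fun ω hω => ?_]
            · simp
            · exact if_pos fun i _ => (mem_filter.1 (mem_filter.1 hω).1).2.1 i
        _ ≤ _ := Finset.sum_le_sum_of_subset_of_nonneg
            (Finset.filter_subset_filter _ (subset_univ _)) fun ω _ _ => hX0 j ω
  · have h1 : ∀ ω ∈ T, (if ∀ i ∈ (univ : Finset I), ok ω i then (1 : ℝ) else 0) ≤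
        (if (∀ i, ok ω i) ∧ ∀ j, N j (m j ω) ≤ (1 + η) * μ j then 1 else 0) +
          ∑ j, X j ω * (if (1 + η) * μ j < N j (m j ω) then 1 else 0) := by
      intro ω _
      have h2 : ∀ j, 0 ≤ X j ω * (if (1 + η) * μ j < N j (m j ω) then 1 else 0) := fun j =>
        mul_nonneg (hX0 j ω) (by split_ifs <;> norm_num)
      have h3 := Finset.sum_nonneg (s := univ) fun j _ => h2 j
      by_cases h4 : ∀ i, ok ω i
      · by_cases h5 : ∀ j, N j (m j ω) ≤ (1 + η) * μ j
        · rw [if_pos fun i _ => h4 i, if_pos ⟨h4, h5⟩]; linarith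
        · push Not at h5
          obtain ⟨j, hj⟩ := h5
          have h6 := Finset.single_le_sum (fun j _ => h2 j) (mem_univ j)
          have h7 : X j ω = 1 := if_pos fun i _ => h4 i
          rw [if_pos hj, h7] at h6
          rw [if_pos fun i _ => h4 i]
          split_ifs <;> linarith
      · rw [if_neg fun h => h4 fun i => h i (mem_univ i)]
        split_ifs <;> linarith
    have h2 := Finset.sum_le_sum h1
    rw [Finset.sum_add_distrib, Finset.sum_comm, Finset.sum_boole fun ω =>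
      (∀ i, ok ω i) ∧ ∀ j, N j (m j ω) ≤ (1 + η) * μ j] at h2
    have h3 : ∑ j, ∑ ω ∈ T, X j ω * (if (1 + η) * μ j < N j (m j ω) then 1 else 0) ≤
        ∑ j, (1 + η) / (η ^ 2 * μ j) * ∑ y, (N j y - μ j) ^ 2 := by
      refine Finset.sum_le_sum fun j _ => ?_
      calc _ ≤ ∑ ω, X j ω * (if (1 + η) * μ j < N j (m j ω) then 1 else 0) :=
            Finset.sum_le_sum_of_subset_of_nonneg (subset_univ _) fun ω _ _ =>
              mul_nonneg (hX0 j ω) (by split_ifs <;> norm_num)
        _ = ∑ y, N j y * (if (1 + η) * μ j < N j y then 1 else 0) := by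
            rw [← Finset.sum_fiberwise univ (m j)]
            refine Finset.sum_congr rfl fun y _ => ?_
            simp only [hN]
            rw [Finset.sum_mul]
            refine Finset.sum_congr rfl fun ω hω => ?_
            rw [(mem_filter.1 hω).2]
        _ ≤ _ := by
            rw [Finset.mul_sum]
            exact Finset.sum_le_sum fun y _ => tail_le (hμ j) hη
    exact sub_le_iff_le_add.2 (h2.trans (add_le_add le_rfl h3))

end Vale.Agent.P110
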