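import Vale.Agent.P110.Basic

open Complex Set MeasureTheory Filter Topology
open scoped Real

namespace Vale.Agent.P110

lemma ibp_bound {E : ℝ → ℂ} {u : ℝ → ℝ} (hu : Continuous u) {z : ℂ} (hz : z ≠ 0) {t₀ ρ a b : ℝ}
    (hρ : 0 < ρ) (hab : a ≤ b) (h : t₀ + ρ ≤ a ∨ b ≤ t₀ - ρ)
    (hE : ∀ t, HasDerivAt E (z * u t * ((t - t₀ : ℝ) : ℂ) * E t) t) (hE1 : ∀ t, ‖E t‖ ≤ 1) :
    ‖∫ t in a..b, u t * E t‖ ≤ 3 / (‖z‖ * ρ) := by
  have hEc : Continuous E := continuous_iff_continuousAt.2 fun t => (hE t).continuousAt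
  have hz' : 0 < ‖z‖ := norm_pos_iff.2 hz
  have hne : ∀ t ∈ uIcc a b, ρ ≤ |t - t₀| := by
    intro t ht
    rw [uIcc_of_le hab] at ht
    rcases h with h | h
    · rw [abs_of_nonneg (by linarith [ht.1])]; linarith [ht.1]
    · rw [abs_of_nonpos (by linarith [ht.2])]; linarith [ht.2]
  have hne' : ∀ t ∈ uIcc a b, t - t₀ ≠ 0 := by
    intro t ht h0
    have := hne t ht
    rw [h0, abs_zero] at this; linarith
  have hG : ∀ t ∈ uIcc a b, HasDerivAt (fun t => E t / (z * ((t - t₀ : ℝ) : ℂ)))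
      (u t * E t - E t / (z * ((t - t₀ : ℝ) : ℂ) ^ 2)) t := by
    intro t ht
    have h1 : ((t - t₀ : ℝ) : ℂ) ≠ 0 := by exact_mod_cast hne' t ht
    have h2 : HasDerivAt (fun t : ℝ => z * ((t - t₀ : ℝ) : ℂ)) z t := by
      simpa using ((hasDerivAt_id t).sub_const t₀).ofReal_comp.const_mul z
    refine ((hE t).div h2 (mul_ne_zero hz h1)).congr_deriv ?_
    field_simp
  have hc1 : IntervalIntegrable (fun t => (u t : ℂ) * E t) volume a b :=
    Continuous.intervalIntegrable (by fun_prop) _ _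
  have hc2 : IntervalIntegrable (fun t => E t / (z * ((t - t₀ : ℝ) : ℂ) ^ 2)) volume a b := by
    apply ContinuousOn.intervalIntegrable
    apply ContinuousOn.div (by fun_prop) (by fun_prop)
    intro t ht
    have h1 : ((t - t₀ : ℝ) : ℂ) ≠ 0 := by exact_mod_cast hne' t ht
    exact mul_ne_zero hz (pow_ne_zero _ h1)
  have hftc := intervalIntegral.integral_eq_sub_of_hasDerivAt hG (hc1.sub hc2)
  rw [intervalIntegral.integral_sub hc1 hc2] at hftc
  have hb : ∀ t ∈ uIcc a b, ‖E t / (z * ((t - t₀ : ℝ) : ℂ))‖ ≤ 1 / (‖z‖ * ρ) := by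
    intro t ht
    rw [norm_div, norm_mul, Complex.norm_real, Real.norm_eq_abs]
    have := hne t ht
    gcongr
    exact hE1 t
  have hg : ∀ t ∈ uIcc a b, HasDerivAt (fun t => -(‖z‖ * (t - t₀))⁻¹)
      (1 / (‖z‖ * (t - t₀) ^ 2)) t := by
    intro t ht
    have h1 := hne' t ht
    have h2 : HasDerivAt (fun t : ℝ => ‖z‖ * (t - t₀)) ‖z‖ t := by
      simpa using ((hasDerivAt_id t).sub_const t₀).const_mul ‖z‖
    refine ((h2.inv (mul_ne_zero hz'.ne' h1)).neg).congr_deriv ?_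
    field_simp
  have hc3 : IntervalIntegrable (fun t => 1 / (‖z‖ * (t - t₀) ^ 2)) volume a b := by
    apply ContinuousOn.intervalIntegrable
    apply ContinuousOn.div (by fun_prop) (by fun_prop)
    intro t ht
    exact mul_ne_zero hz'.ne' (pow_ne_zero _ (hne' t ht))
  have hftc2 := intervalIntegral.integral_eq_sub_of_hasDerivAt hg hc3
  have h3 : ‖∫ t in a..b, E t / (z * ((t - t₀ : ℝ) : ℂ) ^ 2)‖ ≤ 1 / (‖z‖ * ρ) := by
    refine (intervalIntegral.norm_integral_le_of_norm_le hab (Eventually.of_forall fun t _ => ?_)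
      hc3).trans ?_
    · rw [norm_div, norm_mul, norm_pow, Complex.norm_real, Real.norm_eq_abs, sq_abs]
      gcongr
      exact hE1 t
    · rw [hftc2, one_div]
      rcases h with h | h
      · have h4 : (‖z‖ * (a - t₀))⁻¹ ≤ (‖z‖ * ρ)⁻¹ :=
          inv_anti₀ (by positivity) (by gcongr; linarith)
        have h5 : 0 ≤ (‖z‖ * (b - t₀))⁻¹ := inv_nonneg.2 (mul_nonneg hz'.le (by linarith))
        linarith
      · have h4 : (‖z‖ * (t₀ - b))⁻¹ ≤ (‖z‖ * ρ)⁻¹ :=
          inv_anti₀ (by positivity) (by gcongr; linarith)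
        have h5 : (‖z‖ * (a - t₀))⁻¹ ≤ 0 :=
          inv_nonpos.2 (mul_nonpos_of_nonneg_of_nonpos hz'.le (by linarith))
        have h6 : -(‖z‖ * (b - t₀))⁻¹ = (‖z‖ * (t₀ - b))⁻¹ := by
          rw [← inv_neg]; congr 1; ring
        linarith
  rw [sub_eq_iff_eq_add] at hftc
  rw [hftc]
  refine (norm_add_le _ _).trans ?_
  have h4 := norm_sub_le (E b / (z * ((b - t₀ : ℝ) : ℂ))) (E a / (z * ((a - t₀ : ℝ) : ℂ)))
  have h5 := hb a left_mem_uIcc
  have h6 := hb b right_mem_uIcc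
  have : 3 / (‖z‖ * ρ) = 3 * (1 / (‖z‖ * ρ)) := by ring
  linarith

lemma gauss_tail {e R : ℝ} (he : 0 < e) (hR : 0 < R) :
    ‖(π / (π * (e - I)) : ℂ) ^ (1 / 2 : ℂ) -
      ∫ w in -R..R, cexp (-(π * (e - I)) * (w : ℂ) ^ 2)‖ ≤ 1 / R := by
  set b : ℂ := π * (e - I) with hb
  have hp := Real.pi_pos
  have hre : 0 < b.re := by simp [hb]; positivity
  have hnb : π ≤ ‖b‖ := by
    have := Complex.abs_im_le_norm b
    simpa [hb, abs_of_pos hp] using this
  have hb0 : b ≠ 0 := by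
    intro h; rw [h] at hre; simp at hre
  set E : ℝ → ℂ := fun w => cexp (-b * (w : ℂ) ^ 2) with hE
  have hEc : Continuous E := by fun_prop
  have hd : ∀ t : ℝ, HasDerivAt E (-2 * b * ((fun _ => (1 : ℝ)) t : ℝ) * ((t - 0 : ℝ) : ℂ) * E t) t := by
    intro t
    have h1 : HasDerivAt (fun w : ℝ => -b * (w : ℂ) ^ 2) (-b * (2 * t)) t := by
      simpa using (((hasDerivAt_id t).ofReal_comp).pow 2).const_mul (-b)
    convert h1.cexp using 1
    simp [hE]; ring
  have hE1 : ∀ t, ‖E t‖ ≤ 1 := by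
    intro t
    rw [hE, Complex.norm_exp, Real.exp_le_one_iff, ← Complex.ofReal_pow, mul_comm,
      Complex.re_ofReal_mul, Complex.neg_re]
    nlinarith [sq_nonneg t]
  have hlim := intervalIntegral_tendsto_integral (integrable_cexp_neg_mul_sq hre)
    tendsto_neg_atTop_atBot tendsto_id
  rw [integral_gaussian_complex hre] at hlim
  refine le_of_tendsto ((hlim.sub_const (∫ w in -R..R, E w)).norm) ?_
  filter_upwards [eventually_ge_atTop R] with L hL
  have hz : (-2 * b) ≠ 0 := mul_ne_zero (by norm_num) hb0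
  have h1 := ibp_bound continuous_const hz hR (a := -L) (b := -R) (by linarith)
    (Or.inr (by linarith)) hd hE1
  have h2 := ibp_bound continuous_const hz hR (a := R) (b := L) hL (Or.inl (by linarith)) hd hE1
  simp only [ofReal_one, one_mul] at h1 h2
  have h3 : (∫ x in -L..id L, E x) - ∫ w in -R..R, E w =
      (∫ x in -L..-R, E x) + ∫ x in R..L, E x := by
    rw [id, ← intervalIntegral.integral_add_adjacent_intervals (a := -L) (b := -R) (c := L)
      (hEc.intervalIntegrable _ _) (hEc.intervalIntegrable _ _),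
      ← intervalIntegral.integral_add_adjacent_intervals (a := -R) (b := R) (c := L)
      (hEc.intervalIntegrable _ _) (hEc.intervalIntegrable _ _)]
    ring
  change ‖(∫ x in -L..id L, E x) - ∫ w in -R..R, E w‖ ≤ 1 / R
  rw [h3]
  refine (norm_add_le _ _).trans ?_
  have h4 : 3 / (‖-2 * b‖ * R) ≤ 1 / (2 * R) := by
    rw [norm_mul, norm_neg, Complex.norm_two, div_le_div_iff₀ (by positivity) (by positivity)]
    nlinarith [Real.pi_gt_three]
  have : 1 / R = 1 / (2 * R) + 1 / (2 * R) := by field_simp; ring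
  linarith

lemma fresnel {R : ℝ} (hR : 0 < R) : ‖(∫ w in -R..R, ee (w ^ 2 / 2)) - ee (1 / 8)‖ ≤ 1 / R := by
  have hp : (π : ℂ) ≠ 0 := by exact_mod_cast Real.pi_ne_zero
  have h0 : (π / (π * ((0 : ℝ) - I)) : ℂ) = I := by
    simp; field_simp; simp
  have h1 : ContinuousAt (fun e : ℝ => (π / (π * (e - I)) : ℂ) ^ (1 / 2 : ℂ)) 0 := by
    apply ContinuousAt.cpow
    · apply ContinuousAt.div (by fun_prop) (by fun_prop)
      simp [hp]
    · fun_prop
    · rw [h0]; right; simp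
  have h2 : Continuous fun e : ℝ => ∫ w in -R..R, cexp (-(π * (e - I)) * (w : ℂ) ^ 2) :=
    intervalIntegral.continuous_parametric_intervalIntegral_of_continuous' (by
      unfold Function.uncurry; fun_prop) _ _
  have h3 := ((h1.sub h2.continuousAt).norm).tendsto.mono_left (nhdsWithin_le_nhds (s := Ioi 0))
  have h4 := le_of_tendsto h3 (b := 1 / R) (by
    filter_upwards [self_mem_nhdsWithin] with e he
    exact gauss_tail he hR)
  simp only [Pi.sub_apply] at h4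
  rw [h0, norm_sub_rev] at h4
  have e1 : ∫ w in -R..R, ee (w ^ 2 / 2) =
      ∫ w in -R..R, cexp (-(π * ((0 : ℝ) - I)) * (w : ℂ) ^ 2) := by
    refine intervalIntegral.integral_congr fun w _ => ?_
    simp only [ee]; congr 1; push_cast; ring
  have e2 : ee (1 / 8) = I ^ (1 / 2 : ℂ) := by
    rw [Complex.cpow_def_of_ne_zero I_ne_zero, Complex.log_I, ee]; congr 1; push_cast; ring
  rw [e1, e2]; exact h4

lemma fresnel_scaled {N u₀ A t₀ : ℝ} (hN : 0 < N) (hu : 0 ≤ u₀) (hA : 0 < A) :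
    ‖(√N : ℝ) * (∫ t in (t₀ - A / √N)..(t₀ + A / √N), u₀ * ee (N * (u₀ * (t - t₀) ^ 2 / 2))) -
      ee (1 / 8) * (√u₀ : ℝ)‖ ≤ 1 / A := by
  rcases hu.eq_or_lt with rfl | hu
  · simp; positivity
  have hs : 0 < √N := Real.sqrt_pos.2 hN
  have hr : 0 < √u₀ := Real.sqrt_pos.2 hu
  have h1 := intervalIntegral.smul_integral_comp_mul_add (a := t₀ - A / √N) (b := t₀ + A / √N)
    (fun w => ee (w ^ 2 / 2)) (√N * √u₀) (-(√N * √u₀ * t₀))
  have h2 : √N * √u₀ * (t₀ - A / √N) + -(√N * √u₀ * t₀) = -(A * √u₀) := by field_simp; ring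
  have h3 : √N * √u₀ * (t₀ + A / √N) + -(√N * √u₀ * t₀) = A * √u₀ := by field_simp; ring
  have h4 : ∀ t : ℝ, (√N * √u₀ * t + -(√N * √u₀ * t₀)) ^ 2 / 2 = N * (u₀ * (t - t₀) ^ 2 / 2) := by
    intro t
    have : (√N * √u₀ * t + -(√N * √u₀ * t₀)) ^ 2 = √N ^ 2 * √u₀ ^ 2 * (t - t₀) ^ 2 := by ring
    rw [this, Real.sq_sqrt hN.le, Real.sq_sqrt hu.le]; ring
  simp only [h2, h3, h4] at h1
  have h5 := fresnel (R := A * √u₀) (by positivity)
  rw [← h1] at h5
  rw [intervalIntegral.integral_const_mul]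
  have h6 : (u₀ : ℂ) = (√u₀ : ℝ) * (√u₀ : ℝ) := by
    rw [← Complex.ofReal_mul, Real.mul_self_sqrt hu.le]
  set J := ∫ t in (t₀ - A / √N)..(t₀ + A / √N), ee (N * (u₀ * (t - t₀) ^ 2 / 2))
  have h7 : (√N : ℝ) * (u₀ * J) - ee (1 / 8) * (√u₀ : ℝ) =
      (√u₀ : ℝ) * ((√N * √u₀) • J - ee (1 / 8)) := by
    rw [Complex.real_smul]; push_cast
    linear_combination (√N : ℝ) * J * h6
  rw [h7, norm_mul, Complex.norm_real, Real.norm_eq_abs, abs_of_pos hr]
  calc _ ≤ √u₀ * (1 / (A * √u₀)) := by gcongr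
    _ = _ := by field_simp

lemma hasDerivAt_phase {u : ℝ → ℝ} (hu : Continuous u) (N t₀ t : ℝ) :
    HasDerivAt (fun t => ee (N * ∫ σ in t₀..t, u σ * (σ - t₀)))
      (2 * π * I * N * u t * ((t - t₀ : ℝ) : ℂ) * ee (N * ∫ σ in t₀..t, u σ * (σ - t₀))) t := by
  have h1 : HasDerivAt (fun t => N * ∫ σ in t₀..t, u σ * (σ - t₀)) (N * (u t * (t - t₀))) t :=
    (Continuous.integral_hasStrictDerivAt (f := fun σ => u σ * (σ - t₀)) (by fun_prop) t₀
      t).hasDerivAt.const_mul N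
  refine ((hasDerivAt_ee _).scomp t h1).congr_deriv ?_
  rw [Complex.real_smul]; push_cast; ring

lemma inner_bound {u : ℝ → ℝ} (hu : Continuous u) {N t₀ ρ e U : ℝ} (hN : 0 ≤ N) (hρ : 0 ≤ ρ)
    (hU0 : 0 ≤ u t₀) (hU : u t₀ ≤ U) (he : ∀ t, |t - t₀| ≤ ρ → |u t - u t₀| ≤ e) :
    ‖(∫ t in (t₀ - ρ)..(t₀ + ρ), u t * ee (N * ∫ σ in t₀..t, u σ * (σ - t₀))) -
      ∫ t in (t₀ - ρ)..(t₀ + ρ), u t₀ * ee (N * (u t₀ * (t - t₀) ^ 2 / 2))‖ ≤
      (e + U * (2 * π * (N * (e * ρ * ρ)))) * (2 * ρ) := by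
  have hEc : Continuous fun t => ee (N * ∫ σ in t₀..t, u σ * (σ - t₀)) :=
    continuous_iff_continuousAt.2 fun t => (hasDerivAt_phase hu N t₀ t).continuousAt
  have he0 : 0 ≤ e := (abs_nonneg _).trans (he t₀ (by simpa using hρ))
  rw [← intervalIntegral.integral_sub (Continuous.intervalIntegrable (by fun_prop) _ _)
    (Continuous.intervalIntegrable (by fun_prop) _ _)]
  refine (intervalIntegral.norm_integral_le_of_norm_le_const (C := e + U * (2 * π * (N * (e * ρ * ρ))))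
    fun t ht => ?_).trans (le_of_eq ?_)
  · have ht' : |t - t₀| ≤ ρ := by
      rw [uIoc_of_le (by linarith)] at ht
      rw [abs_le]; constructor <;> linarith [ht.1, ht.2]
    have h1 : (∫ σ in t₀..t, u σ * (σ - t₀)) - u t₀ * (t - t₀) ^ 2 / 2 =
        ∫ σ in t₀..t, (u σ - u t₀) * (σ - t₀) := by
      have h2 : ∫ σ in t₀..t, u t₀ * (σ - t₀) = u t₀ * (t - t₀) ^ 2 / 2 := by
        rw [intervalIntegral.integral_const_mul,
          intervalIntegral.integral_comp_sub_right (fun x => x) t₀]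
        simp; ring
      rw [← h2, ← intervalIntegral.integral_sub (Continuous.intervalIntegrable (by fun_prop) _ _)
        (Continuous.intervalIntegrable (by fun_prop) _ _)]
      exact intervalIntegral.integral_congr fun σ _ => by ring
    have h2 : |(∫ σ in t₀..t, u σ * (σ - t₀)) - u t₀ * (t - t₀) ^ 2 / 2| ≤ e * ρ * ρ := by
      rw [h1, ← Real.norm_eq_abs]
      refine (intervalIntegral.norm_integral_le_of_norm_le_const (C := e * ρ)
        fun σ hσ => ?_).trans (by gcongr)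
      have h3 : |σ - t₀| ≤ ρ := by
        refine le_trans ?_ ht'
        exact abs_sub_left_of_mem_uIcc (uIoc_subset_uIcc hσ)
      rw [Real.norm_eq_abs, abs_mul]
      gcongr
      exact he σ h3
    have h3 := norm_ee_sub_ee (N * ∫ σ in t₀..t, u σ * (σ - t₀)) (N * (u t₀ * (t - t₀) ^ 2 / 2))
    rw [← mul_sub, abs_mul, abs_of_nonneg hN] at h3
    set E1 := ee (N * ∫ σ in t₀..t, u σ * (σ - t₀))
    set E2 := ee (N * (u t₀ * (t - t₀) ^ 2 / 2))
    have h4 : (u t : ℂ) * E1 - u t₀ * E2 = ((u t - u t₀ : ℝ) : ℂ) * E1 + u t₀ * (E1 - E2) := by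
      push_cast; ring
    rw [h4]
    refine (norm_add_le _ _).trans ?_
    rw [norm_mul, norm_mul, norm_ee, mul_one, Complex.norm_real, Complex.norm_real,
      Real.norm_eq_abs, Real.norm_eq_abs, abs_of_nonneg hU0]
    have hp := Real.pi_pos
    gcongr
    · exact he t ht'
    · exact hU0.trans hU
    · exact h3.trans (by gcongr)
  · rw [show t₀ + ρ - (t₀ - ρ) = 2 * ρ by ring, abs_of_nonneg (by linarith)]

lemma integral_extend {f : ℝ → ℂ} (hf : Continuous f) {α β a b : ℝ} (ha : a ≤ α) (hb : β ≤ b)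
    (hz : ∀ t, t ≤ α ∨ β ≤ t → f t = 0) : ∫ t in a..b, f t = ∫ t in α..β, f t := by
  rw [← intervalIntegral.integral_add_adjacent_intervals (a := a) (b := α) (c := b)
      (hf.intervalIntegrable _ _) (hf.intervalIntegrable _ _),
    ← intervalIntegral.integral_add_adjacent_intervals (a := α) (b := β) (c := b)
      (hf.intervalIntegrable _ _) (hf.intervalIntegrable _ _)]
  have h1 : ∫ t in a..α, f t = 0 := by
    rw [intervalIntegral.integral_congr (g := fun _ => 0) fun t ht => ?_]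
    · simp
    · rw [uIcc_of_le ha] at ht; exact hz t (Or.inl ht.2)
  have h2 : ∫ t in β..b, f t = 0 := by
    rw [intervalIntegral.integral_congr (g := fun _ => 0) fun t ht => ?_]
    · simp
    · rw [uIcc_of_le hb] at ht; exact hz t (Or.inr ht.1)
  rw [h1, h2]; ring

/-- Stationary phase, uniformly in the stationary point. -/
theorem stat_phase {u : ℝ → ℝ} (hu : Continuous u) (h0 : ∀ t, 0 ≤ u t) {α β : ℝ}
    (hz : ∀ t, t ≤ α ∨ β ≤ t → u t = 0) {ε : ℝ} (hε : 0 < ε) :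
    ∃ N₀ : ℝ, ∀ N, N₀ ≤ N → ∀ t₀,
      ‖(√N : ℝ) * (∫ t in α..β, u t * ee (N * ∫ σ in t₀..t, u σ * (σ - t₀))) -
        ee (1 / 8) * (√(u t₀) : ℝ)‖ ≤ ε := by
  have hcs : HasCompactSupport u := by
    refine HasCompactSupport.intro (isCompact_Icc (a := α) (b := β)) fun t ht => hz t ?_
    rw [mem_Icc, not_and_or, not_le, not_le] at ht
    exact ht.imp le_of_lt le_of_lt
  obtain ⟨U, hU⟩ := hu.bounded_above_of_compact_support hcs
  have hU' : ∀ t, u t ≤ U := fun t => (le_abs_self _).trans (hU t)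
  have hU0 : 0 ≤ U := (h0 0).trans (hU' 0)
  have hp := Real.pi_pos
  set A := 3 / ε with hA
  have hA0 : 0 < A := by positivity
  set e := ε / (3 * ((1 + U * (2 * π * (A * A))) * (2 * A))) with he
  have he0 : 0 < e := by positivity
  obtain ⟨ρ₀, hρ₀, hρ⟩ := Metric.uniformContinuous_iff_le.1
    (hcs.uniformContinuous_of_continuous hu) e he0
  refine ⟨(A / ρ₀) ^ 2, fun N hN t₀ => ?_⟩
  have hN0 : 0 < N := lt_of_lt_of_le (by positivity) hN
  have hs : 0 < √N := Real.sqrt_pos.2 hN0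
  have hss : √N * √N = N := Real.mul_self_sqrt hN0.le
  set ρ := A / √N with hρdef
  have hρ0 : 0 < ρ := by positivity
  have hρ1 : ρ ≤ ρ₀ := by
    have : A / ρ₀ ≤ √N := Real.le_sqrt_of_sq_le hN
    rw [hρdef, div_le_iff₀ hs]; rw [div_le_iff₀ hρ₀] at this; linarith
  set E := fun t => ee (N * ∫ σ in t₀..t, u σ * (σ - t₀)) with hE
  have hEc : Continuous E :=
    continuous_iff_continuousAt.2 fun t => (hasDerivAt_phase hu N t₀ t).continuousAt
  have hc : Continuous fun t => (u t : ℂ) * E t := by fun_prop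
  have hz0 : (2 * π * I * N : ℂ) ≠ 0 := by simp [hp.ne', hN0.ne']
  have hzn : ‖(2 * π * I * N : ℂ)‖ = 2 * π * N := by
    simp [abs_of_pos hp, abs_of_pos hN0]
  have h1 := ibp_bound hu hz0 hρ0 (a := min α (t₀ - ρ)) (b := t₀ - ρ) (min_le_right _ _)
    (Or.inr le_rfl) (hasDerivAt_phase hu N t₀) (fun t => (norm_ee _).le)
  have h2 := ibp_bound hu hz0 hρ0 (a := t₀ + ρ) (b := max β (t₀ + ρ)) (le_max_right _ _)
    (Or.inl le_rfl) (hasDerivAt_phase hu N t₀) (fun t => (norm_ee _).le)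
  have h3 := inner_bound hu hN0.le hρ0.le (h0 t₀) (hU' t₀) (e := e) fun t ht =>
    hρ (show dist t t₀ ≤ ρ₀ from ht.trans hρ1)
  have h4 := fresnel_scaled (t₀ := t₀) hN0 (h0 t₀) hA0
  rw [← hρdef] at h4
  rw [hzn] at h1 h2
  change ‖(√N : ℝ) * (∫ t in α..β, u t * E t) - _‖ ≤ ε
  rw [← integral_extend hc (min_le_left α (t₀ - ρ)) (le_max_left β (t₀ + ρ))
    (fun t ht => by simp [hz t ht]),
    ← intervalIntegral.integral_add_adjacent_intervals (b := t₀ - ρ)
      (hc.intervalIntegrable _ _) (hc.intervalIntegrable _ _),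
    ← intervalIntegral.integral_add_adjacent_intervals (a := t₀ - ρ) (b := t₀ + ρ)
      (hc.intervalIntegrable _ _) (hc.intervalIntegrable _ _)]
  set J1 := ∫ t in min α (t₀ - ρ)..(t₀ - ρ), (u t : ℂ) * E t
  set J2 := ∫ t in (t₀ - ρ)..(t₀ + ρ), (u t : ℂ) * E t
  set J3 := ∫ t in (t₀ + ρ)..max β (t₀ + ρ), (u t : ℂ) * E t
  set J4 := ∫ t in (t₀ - ρ)..(t₀ + ρ), (u t₀ : ℂ) * ee (N * (u t₀ * (t - t₀) ^ 2 / 2))
  have h5 : (√N : ℝ) * (J1 + (J2 + J3)) - ee (1 / 8) * (√(u t₀) : ℝ) =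
      (√N : ℝ) * (J1 + J3 + (J2 - J4)) + ((√N : ℝ) * J4 - ee (1 / 8) * (√(u t₀) : ℝ)) := by ring
  rw [h5]
  refine (norm_add_le _ _).trans ?_
  rw [norm_mul, Complex.norm_real, Real.norm_eq_abs, abs_of_pos hs]
  have h6 : ‖J1 + J3 + (J2 - J4)‖ ≤ 3 / (2 * π * N * ρ) + 3 / (2 * π * N * ρ) +
      (e + U * (2 * π * (N * (e * ρ * ρ)))) * (2 * ρ) :=
    (norm_add_le _ _).trans (add_le_add ((norm_add_le _ _).trans (add_le_add h1 h2)) h3)
  have h7 : √N * (3 / (2 * π * N * ρ) + 3 / (2 * π * N * ρ) +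
      (e + U * (2 * π * (N * (e * ρ * ρ)))) * (2 * ρ)) = 3 / π * (1 / A) + ε / 3 := by
    have h8 : N * (e * ρ * ρ) = e * (A * A) := by
      rw [hρdef]; field_simp; nlinarith
    have h9 : √N * ρ = A := by rw [hρdef]; field_simp
    have h10 : √N * (3 / (2 * π * N * ρ)) = 3 / π * (1 / A) / 2 := by
      rw [← h9]; nth_rewrite 2 [← hss]; field_simp
    have h11 : (e + U * (2 * π * (e * (A * A)))) * (2 * A) = ε / 3 := by
      rw [he]; field_simp
    rw [h8, mul_add, mul_add, h10, ← h11, ← h9]; ring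
  have h8 : 1 / A = ε / 3 := by rw [hA]; field_simp
  have h9 : 3 / π ≤ 1 := by rw [div_le_one hp]; exact Real.pi_gt_three.le
  have h10 : √N * ‖J1 + J3 + (J2 - J4)‖ ≤ 3 / π * (1 / A) + ε / 3 := by
    rw [← h7]; gcongr
  rw [h8] at h10 h4
  nlinarith

end Vale.Agent.P110
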