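import Vale.Agent.P110.Basic

open Finset
open scoped Real ComplexConjugate

namespace Vale.Agent.P110

lemma sum_shift {M : Type*} [AddCommGroup M] (f : ℕ → M) (D : ℕ) (hf : ∀ a, f (a + D) = f a)
    (s : ℕ) : ∑ a ∈ range D, f (a + s) = ∑ a ∈ range D, f a := by
  induction s with
  | zero => simp
  | succ s ih =>
    have h1 := Finset.sum_range_succ (fun a => f (a + s)) D
    have h2 := Finset.sum_range_succ' (fun a => f (a + s)) D
    rw [h1, zero_add, add_comm D s, hf, ih] at h2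
    rw [add_right_cancel h2]
    exact Finset.sum_congr rfl fun a _ => by congr 1; omega

lemma sum_div_nat {g : ℕ} (hg : 0 < g) (m : ℕ) : ∑ r ∈ range g, (m + r) / g = m := by
  induction m with
  | zero => exact Finset.sum_eq_zero fun r hr => Nat.div_eq_of_lt (by simpa using hr)
  | succ m ih =>
    have h1 := Finset.sum_range_succ (fun r => (m + r) / g) g
    have h2 := Finset.sum_range_succ' (fun r => (m + r) / g) g
    rw [h1, ih, Nat.add_div_right _ hg, add_zero] at h2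
    have h3 : ∑ r ∈ range g, (m + 1 + r) / g = ∑ r ∈ range g, (m + (r + 1)) / g :=
      Finset.sum_congr rfl fun r _ => by congr 1; omega
    omega

lemma hermite {g h : ℕ} (hg : 0 < g) (hh : 0 < h) (a : ℕ) :
    ∑ r ∈ range g, (a + r * h) / (g * h) = a / h := by
  rw [← sum_div_nat hg (a / h)]
  refine Finset.sum_congr rfl fun r _ => ?_
  rw [mul_comm g, ← Nat.div_div_eq_div_mul, Nat.add_mul_div_right _ _ hh]

/-- Discrete square wave of period `2E`. -/
def sqw (E a : ℕ) : ℝ := 1 + 2 * (a / (2 * E) : ℕ) - 2 * ((a + E) / (2 * E) : ℕ)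

lemma sqw_periodic {E : ℕ} (hE : 0 < E) (a : ℕ) : sqw E (a + 2 * E) = sqw E a := by
  unfold sqw
  rw [add_right_comm, Nat.add_div_right _ (by omega), Nat.add_div_right _ (by omega)]
  push_cast; ring

lemma sqw_lo {E a : ℕ} (h : a < E) : sqw E a = 1 := by
  unfold sqw
  rw [Nat.div_eq_of_lt (by omega), Nat.div_eq_of_lt (by omega)]; simp

lemma sqw_hi {E a : ℕ} (h : E ≤ a) (h' : a < 2 * E) : sqw E a = -1 := by
  unfold sqw
  rw [Nat.div_eq_of_lt h', Nat.div_eq_of_lt_le (k := 1) (by omega) (by omega)]; norm_num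

lemma sum_sqw {E g h : ℕ} (hg : 0 < g) (hh : 0 < h) (hE : 2 * E = g * h) (a : ℕ) :
    ∑ r ∈ range g, sqw E (a + r * h) = g + 2 * (a / h : ℕ) - 2 * ((a + E) / h : ℕ) := by
  unfold sqw
  rw [Finset.sum_sub_distrib, Finset.sum_add_distrib, ← Finset.mul_sum, ← Finset.mul_sum,
    ← Nat.cast_sum, ← Nat.cast_sum, hE, hermite hg hh, ← hermite hg hh (a + E)]
  simp only [add_right_comm, sum_const, card_range, nsmul_eq_mul, mul_one]

lemma abs_sum_sqw {E g h : ℕ} (hg : 0 < g) (hh : 0 < h) (hE : 2 * E = g * h) (a : ℕ) :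
    |∑ r ∈ range g, sqw E (a + r * h)| ≤ 1 := by
  rw [sum_sqw hg hh hE]
  have q1 := Nat.div_mul_le_self a h
  have q2 := Nat.lt_div_mul_add hh (a := a)
  have q3 := Nat.div_mul_le_self (a + E) h
  have q4 := Nat.lt_div_mul_add hh (a := a + E)
  generalize a / h = x at *
  generalize (a + E) / h = y at *
  have h1 : g + 2 * x < 2 * y + 2 := by
    apply lt_of_mul_lt_mul_right (a := h) _ hh.le; nlinarith
  have h2 : 2 * y < g + 2 * x + 2 := by
    apply lt_of_mul_lt_mul_right (a := h) _ hh.le; nlinarith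
  have h3 : (g : ℝ) + 2 * x ≤ 2 * y + 1 := by exact_mod_cast Nat.lt_succ_iff.1 h1
  have h4 : (2 * y : ℝ) ≤ g + 2 * x + 1 := by exact_mod_cast Nat.lt_succ_iff.1 h2
  rw [abs_le]; constructor <;> linarith

/-- Fejer weights. -/
noncomputable def fej (K : ℕ) (l : ℤ) : ℝ :=
  (∑ i ∈ range K, ∑ j ∈ range K, if (i : ℤ) - j = l then (1 : ℝ) else 0) / K

lemma fej_neg (K : ℕ) (l : ℤ) : fej K (-l) = fej K l := by
  unfold fej
  rw [Finset.sum_comm]
  congr 1
  refine Finset.sum_congr rfl fun i _ => Finset.sum_congr rfl fun j _ => ?_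
  congr 1
  exact propext (by omega)

lemma sum_fej (K : ℕ) (y : ℝ) :
    ∑ l ∈ Icc (-(K : ℤ)) K, (fej K l : ℂ) * ee (-(l * y)) = ((‖DD K y‖ ^ 2 / K : ℝ) : ℂ) := by
  unfold fej
  push_cast
  simp_rw [div_mul_eq_mul_div, ← Finset.sum_div, Finset.sum_mul]
  congr 1
  rw [← Complex.conj_mul', DD, map_sum, Finset.sum_mul_sum, Finset.sum_comm]
  refine Finset.sum_congr rfl fun i hi => ?_
  rw [Finset.sum_comm]
  refine Finset.sum_congr rfl fun j hj => ?_
  have := mem_range.1 hi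
  have := mem_range.1 hj
  rw [Finset.sum_eq_single ((i : ℤ) - j) (fun l _ hl => by simp [hl.symm])
    (fun h => absurd (mem_Icc.2 (by omega)) h), if_pos rfl, ← ee_neg, ← ee_add]
  push_cast
  rw [one_mul]; congr 1; ring

/-- Discrete Fourier coefficient. -/
noncomputable def hat (D : ℕ) (s : ℕ → ℝ) (l : ℤ) : ℂ :=
  (∑ a ∈ range D, (s a : ℂ) * ee (-(l * (a / D)))) / D

lemma conv_fej (K D : ℕ) (s : ℕ → ℝ) (φ : ℝ) :
    ∑ l ∈ Icc (-(K : ℤ)) K, (fej K l : ℂ) * hat D s l * ee (l * φ) =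
      (((∑ a ∈ range D, s a * (‖DD K (a / D - φ)‖ ^ 2 / K)) / D : ℝ) : ℂ) := by
  unfold hat
  rw [Complex.ofReal_div, Complex.ofReal_sum, Finset.sum_div]
  simp_rw [Complex.ofReal_mul, ← sum_fej, Finset.sum_div, Finset.mul_sum, Finset.sum_mul,
    Finset.sum_div]
  rw [Finset.sum_comm]
  refine Finset.sum_congr rfl fun a _ => Finset.sum_congr rfl fun l _ => ?_
  have : ee (-(l * (a / D - φ))) = ee (-(l * (a / D))) * ee (l * φ) := by
    rw [← ee_add]; congr 1; ring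
  rw [this]; push_cast; ring

lemma sum_kernel {K D : ℕ} (hK : 0 < K) (hD : K ≤ D) (φ : ℝ) :
    ∑ a ∈ range D, ‖DD K (a / D - φ)‖ ^ 2 / K = D := by
  have : (K : ℝ) ≠ 0 := by positivity
  rw [← Finset.sum_div, parseval_DD K D (by omega) hD]; field_simp

lemma norm_conv_le {K D : ℕ} (hK : 0 < K) (hD : K ≤ D) (s : ℕ → ℝ) {b : ℝ}
    (hs : ∀ a < D, |s a| ≤ b) (φ : ℝ) :
    ‖∑ l ∈ Icc (-(K : ℤ)) K, (fej K l : ℂ) * hat D s l * ee (l * φ)‖ ≤ b := by
  have hD' : (0 : ℝ) < D := by exact_mod_cast hK.trans_le hD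
  rw [conv_fej, Complex.norm_real, Real.norm_eq_abs, abs_div, abs_of_pos hD', div_le_iff₀ hD']
  nth_rewrite 2 [← sum_kernel hK hD φ]
  rw [Finset.mul_sum]
  refine (Finset.abs_sum_le_sum_abs _ _).trans (Finset.sum_le_sum fun a ha => ?_)
  rw [abs_mul, abs_of_nonneg (a := _ / _) (by positivity)]
  gcongr
  exact hs a (mem_range.1 ha)

lemma hat_avg {g h : ℕ} (hg : 0 < g) (hh : 0 < h) (s : ℕ → ℝ) (hs : ∀ a, s (a + g * h) = s a)
    (l : ℤ) : hat (g * h) (fun a => (∑ r ∈ range g, s (a + r * h)) / g) l =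
      if (g : ℤ) ∣ l then hat (g * h) s l else 0 := by
  have hg' : (g : ℝ) ≠ 0 := by positivity
  have hh' : (h : ℝ) ≠ 0 := by positivity
  have h1 : ∀ r : ℕ, ∑ a ∈ range (g * h), (s (a + r * h) : ℂ) * ee (-(l * (a / (g * h : ℕ)))) =
      ee (l * r / g) * ∑ a ∈ range (g * h), (s a : ℂ) * ee (-(l * (a / (g * h : ℕ)))) := by
    intro r
    rw [← sum_shift (fun a => (s a : ℂ) * ee (-(l * (a / (g * h : ℕ))))) (g * h) (fun a => by
      rw [hs]; congr 1
      exact ee_congr (-l) (by push_cast; field_simp; ring)) (r * h), Finset.mul_sum]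
    refine Finset.sum_congr rfl fun a _ => ?_
    rw [mul_left_comm, ← ee_add]; congr 2; push_cast; field_simp; ring
  unfold hat
  push_cast [- Nat.cast_mul]
  simp_rw [div_mul_eq_mul_div, ← Finset.sum_div, Finset.sum_mul]
  rw [Finset.sum_comm]
  simp_rw [h1]
  rw [← Finset.sum_mul, sum_ee_grid g hg]
  split_ifs
  · have : (g : ℂ) ≠ 0 := by exact_mod_cast hg.ne'
    rw [mul_div_cancel_left₀ _ this]
  · simp

lemma far_bound {x t : ℝ} (h0 : 0 ≤ t) (h1 : t ≤ |x|) (h2 : |x| ≤ 1 - t) : 4 * t ≤ ‖ee x - 1‖ := by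
  by_cases h : |x| ≤ 1 / 2
  · linarith [norm_ee_sub_one_ge h]
  · push Not at h
    rcases abs_cases x with h3 | h3
    · have e : ee x = ee (x - 1) := ee_congr 1 (by simp)
      have := norm_ee_sub_one_ge (x := x - 1) (by
        rw [abs_le]; constructor <;> linarith [abs_nonneg x])
      rw [e]; rw [abs_of_nonpos (by linarith)] at this; linarith
    · have e : ee x = ee (x + 1) := ee_congr (-1) (by simp)
      have := norm_ee_sub_one_ge (x := x + 1) (by
        rw [abs_le]; constructor <;> linarith [abs_nonneg x])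
      rw [e]; rw [abs_of_nonneg (by linarith)] at this; linarith

lemma kernel_far {K : ℕ} (hK : 0 < K) {x t : ℝ} (h0 : 0 < t) (h1 : t ≤ |x|) (h2 : |x| ≤ 1 - t) :
    ‖DD K x‖ ^ 2 / K ≤ 1 / (4 * K * t ^ 2) := by
  have q1 := far_bound h0.le h1 h2
  have q2 := norm_DD_mul_le K x
  have q3 : ‖DD K x‖ ≤ 1 / (2 * t) := by
    rw [le_div_iff₀ (by positivity)]; nlinarith [norm_nonneg (DD K x)]
  calc _ ≤ (1 / (2 * t)) ^ 2 / K := by gcongr
    _ = _ := by field_simp; ring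

lemma good_point {K E w b : ℕ} (hK : 0 < K) (hKE : K ≤ 2 * E) (hw : 0 < w)
    (hb : (w ≤ b ∧ b + w < E) ∨ (E + w ≤ b ∧ b + w < 2 * E)) :
    1 - 2 * (1 / (4 * K * (w / (2 * E : ℕ) : ℝ) ^ 2)) ≤
      |(∑ a ∈ range (2 * E), sqw E a * (‖DD K (a / (2 * E : ℕ) - b / (2 * E : ℕ))‖ ^ 2 / K)) /
        (2 * E : ℕ)| := by
  have hD : (0 : ℝ) < (2 * E : ℕ) := by exact_mod_cast hK.trans_le hKE
  have hw' : (0 : ℝ) < w := by exact_mod_cast hw
  have hb1 : |sqw E b| = 1 := by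
    rcases hb with hb | hb
    · rw [sqw_lo (by omega), abs_one]
    · rw [sqw_hi (by omega) (by omega), abs_neg, abs_one]
  rw [← one_mul |_|, ← hb1, ← abs_mul]
  refine le_trans ?_ (le_abs_self _)
  rw [hb1, ← mul_div_assoc (sqw E b), le_div_iff₀ hD, Finset.mul_sum]
  set β := 1 / (4 * K * (w / (2 * E : ℕ) : ℝ) ^ 2) with hβ
  have hβ0 : 0 ≤ β := by positivity
  have h1 : ∀ a ∈ range (2 * E), ‖DD K (a / (2 * E : ℕ) - b / (2 * E : ℕ))‖ ^ 2 / K - 2 * β ≤
      sqw E b * (sqw E a * (‖DD K (a / (2 * E : ℕ) - b / (2 * E : ℕ))‖ ^ 2 / K)) := by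
    intro a ha
    have ha' := mem_range.1 ha
    have far : ((w : ℝ) ≤ |(a : ℝ) - b| ∧ |(a : ℝ) - b| + w ≤ (2 * E : ℕ)) →
        ‖DD K (a / (2 * E : ℕ) - b / (2 * E : ℕ))‖ ^ 2 / K ≤ β := by
      intro h
      refine kernel_far hK (by positivity) ?_ ?_
      · rw [← sub_div, abs_div, abs_of_pos hD]; gcongr; exact h.1
      · rw [← sub_div, abs_div, abs_of_pos hD, le_sub_iff_add_le, ← add_div, div_le_one hD]
        exact h.2
    rcases hb with hb | hb <;> rcases lt_or_ge a E with h | h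
    · rw [sqw_lo (by omega), sqw_lo h]; linarith
    · rw [sqw_lo (by omega), sqw_hi h ha']
      have q1 : (b : ℝ) + w ≤ a := by exact_mod_cast (by omega : b + w ≤ a)
      have q2 : (a : ℝ) + w ≤ (2 * E : ℕ) + b := by exact_mod_cast (by omega : a + w ≤ 2 * E + b)
      have := far (by rw [abs_of_nonneg (by linarith)]; constructor <;> linarith)
      linarith
    · rw [sqw_hi (by omega) (by omega), sqw_lo h]
      have q1 : (a : ℝ) + w ≤ b := by exact_mod_cast (by omega : a + w ≤ b)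
      have q2 : (b : ℝ) + w ≤ (2 * E : ℕ) + a := by exact_mod_cast (by omega : b + w ≤ 2 * E + a)
      have := far (by rw [abs_of_nonpos (by linarith)]; constructor <;> linarith)
      linarith
    · rw [sqw_hi (by omega) (by omega), sqw_hi h ha']; linarith
  refine le_trans (le_of_eq ?_) (Finset.sum_le_sum h1)
  rw [Finset.sum_sub_distrib, sum_kernel hK hKE, sum_const, card_range, nsmul_eq_mul]
  ring

lemma parseval_Icc (K D : ℕ) (hD : 2 * K < D) (c : ℤ → ℂ) :
    ∑ j ∈ range D, ‖∑ l ∈ Icc (-(K : ℤ)) K, c l * ee (l * (j / D))‖ ^ 2 =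
      D * ∑ l ∈ Icc (-(K : ℤ)) K, ‖c l‖ ^ 2 := by
  rw [← parseval_grid (Icc (-(K : ℤ)) K) id c D (by omega) (fun _ _ _ _ h => h)
    (fun i hi i' hi' => by
      have := mem_Icc.1 hi; have := mem_Icc.1 hi'
      simp only [id]; rw [abs_lt]; constructor <;> omega)]
  simp only [id, mul_div_assoc]

lemma energy_ge {K E w : ℕ} (hK : 0 < K) (hKE : K < E) (hw : 0 < w) (hwE : 2 * w ≤ E) :
    (1 - 2 * w / E) * (1 - 4 * (1 / (4 * K * (w / (2 * E : ℕ) : ℝ) ^ 2))) ≤
      ∑ l ∈ Icc (-(K : ℤ)) K, ‖(fej K l : ℂ) * hat (2 * E) (sqw E) l‖ ^ 2 := by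
  have hE : (0 : ℝ) < E := by exact_mod_cast hK.trans hKE
  have hwE' : 2 * (w : ℝ) ≤ E := by exact_mod_cast hwE
  have h1 := parseval_Icc K (2 * E) (by omega) fun l => (fej K l : ℂ) * hat (2 * E) (sqw E) l
  simp only [conv_fej, Complex.norm_real, Real.norm_eq_abs] at h1
  have h2 := fun b hb => good_point (b := b) hK (E := E) (by omega) hw hb
  set β := 1 / (4 * K * (w / (2 * E : ℕ) : ℝ) ^ 2) with hβ
  by_cases hβ1 : 1 - 4 * β < 0
  · refine le_trans (mul_nonpos_of_nonneg_of_nonpos ?_ hβ1.le) (by positivity)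
    rw [sub_nonneg, div_le_one hE]; exact hwE'
  push Not at hβ1
  have h3 : ∑ _b ∈ Ico w (E - w) ∪ Ico (E + w) (2 * E - w), (1 - 4 * β) ≤
      (2 * E : ℕ) * ∑ l ∈ Icc (-(K : ℤ)) K, ‖(fej K l : ℂ) * hat (2 * E) (sqw E) l‖ ^ 2 := by
    rw [← h1]
    refine le_trans (Finset.sum_le_sum fun b hb => ?_) (Finset.sum_le_sum_of_subset_of_nonneg
      (fun b hb => ?_) fun _ _ _ => by positivity)
    · have q := h2 b (by simp only [mem_union, mem_Ico] at hb; omega)
      have q2 := pow_le_pow_left₀ (by linarith) q 2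
      nlinarith [sq_nonneg β]
    · simp only [mem_union, mem_Ico, mem_range] at hb ⊢; omega
  rw [sum_const, card_union_of_disjoint (by
    rw [Finset.disjoint_left]; intro x h1 h2; simp only [mem_Ico] at h1 h2; omega),
    Nat.card_Ico, Nat.card_Ico, nsmul_eq_mul,
    show E - w - w + (2 * E - w - (E + w)) = 2 * E - 4 * w by omega,
    Nat.cast_sub (by omega)] at h3
  push_cast at h3
  have h4 : 2 * E * ((1 - 2 * w / E) * (1 - 4 * β)) = (2 * E - 4 * w) * (1 - 4 * β) := by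
    field_simp; ring
  exact le_of_mul_le_mul_left (h4.le.trans h3) (by positivity)

theorem one_dim {J : ℕ} (hJ : 2 ≤ J) : ∃ (K : ℕ) (c : ℤ → ℂ), 0 < K ∧ c 0 = 0 ∧
    (∀ l, c (-l) = conj (c l)) ∧ (∀ g : ℕ, 0 < g → g ≤ K → ∀ φ : ℝ,
      ‖∑ l ∈ Icc (-(K : ℤ)) K, if (g : ℤ) ∣ l then c l * ee (l * φ) else 0‖ ≤ 1 / g) ∧
      1 - 6 / J ≤ ∑ l ∈ Icc (-(K : ℤ)) K, ‖c l‖ ^ 2 := by
  set K := J ^ 3 with hK
  set w := (K + 1).factorial with hw
  have hK0 : 0 < K := by positivity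
  have hw0 : 0 < w := Nat.factorial_pos _
  have hw1 : K + 1 ≤ w := Nat.self_le_factorial _
  have hE : 2 * w ≤ J * w := Nat.mul_le_mul_right w hJ
  refine ⟨K, fun l => (fej K l : ℂ) * hat (2 * (J * w)) (sqw (J * w)) l, hK0, ?_, fun l => ?_,
    fun g hg hgK φ => ?_, ?_⟩
  · have := sum_sqw (E := J * w) (g := 2 * (J * w)) (h := 1) (by omega) one_pos (by simp) 0
    simp only [mul_one, zero_add, Nat.div_one] at this
    simp only [hat, Int.cast_zero, zero_mul, neg_zero, ee_zero, mul_one]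
    rw [← Complex.ofReal_sum, this]; simp
  · simp only [hat, fej_neg, map_mul, map_div₀, map_sum, Complex.conj_ofReal, Complex.conj_natCast,
      ← ee_neg, Int.cast_neg, neg_mul]
  · obtain ⟨h, hh⟩ : g ∣ 2 * (J * w) :=
      ((Nat.dvd_factorial hg (by omega)).mul_left J).mul_left 2
    have hh0 : 0 < h := Nat.pos_of_mul_pos_left (hh ▸ (by omega : 0 < 2 * (J * w)))
    have q := norm_conv_le hK0 (D := g * h) (by omega)
      (fun a => (∑ r ∈ range g, sqw (J * w) (a + r * h)) / g) (b := 1 / g) (fun a _ => by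
        rw [abs_div, Nat.abs_cast]; gcongr; exact abs_sum_sqw hg hh0 hh a) φ
    simp only [hat_avg hg hh0 _ (fun a => hh ▸ sqw_periodic (by omega) a), mul_ite, ite_mul,
      mul_zero, zero_mul] at q
    simpa only [hh] using q
  · refine le_trans ?_ (energy_ge hK0 (by omega) hw0 hE)
    have hJ' : (2 : ℝ) ≤ J := by exact_mod_cast hJ
    have hw' : (0 : ℝ) < w := by exact_mod_cast hw0
    have e1 : 2 * (w : ℝ) / (J * w : ℕ) = 2 * (1 / J) := by push_cast; field_simp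
    have e2 : 1 / (4 * K * (w / (2 * (J * w) : ℕ) : ℝ) ^ 2) = 1 / J := by
      rw [hK]; push_cast; field_simp; ring
    rw [e1, e2, div_eq_mul_one_div]
    nlinarith [sq_nonneg (1 / J : ℝ)]

end Vale.Agent.P110
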