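import Vale.Agent.P110.SP

open Complex Set MeasureTheory Filter Topology
open scoped Real ComplexConjugate

namespace Vale.Agent.P110

structure IsRate (α β : ℝ) (u : ℝ → ℝ) : Prop where
  cont : Continuous u
  nonneg : ∀ t, 0 ≤ u t
  zero : ∀ t, t ≤ α ∨ β ≤ t → u t = 0
  pos : ∀ t ∈ Ioo α β, 0 < u t

lemma exists_inverse {α β : ℝ} (hαβ : α ≤ β) {u : ℝ → ℝ} (hu : IsRate α β u) :
    ∃ φ : ℝ → ℝ, Continuous φ ∧ (∀ x, x ≤ 0 → φ x = α) ∧ (∀ x, ∫ t in α..β, u t ≤ x → φ x = β) ∧
      (∀ x, α ≤ φ x ∧ φ x ≤ β) ∧ ∀ t ∈ Icc α β, φ (∫ σ in α..t, u σ) = t := by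
  set W : ℝ → ℝ := fun t => (∫ σ in α..t, u σ) + min (t - α) 0 + max (t - β) 0 with hW
  have hUc : Continuous fun t => ∫ σ in α..t, u σ :=
    continuous_iff_continuousAt.2 fun t =>
      (hu.cont.integral_hasStrictDerivAt α t).hasDerivAt.continuousAt
  have hWc : Continuous W := by fun_prop
  have hsub : ∀ s t, (∫ σ in α..t, u σ) - ∫ σ in α..s, u σ = ∫ σ in s..t, u σ := fun s t =>
    intervalIntegral.integral_interval_sub_left (hu.cont.intervalIntegrable _ _)
      (hu.cont.intervalIntegrable _ _)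
  have hmono : ∀ s t, s ≤ t → (∫ σ in α..s, u σ) ≤ ∫ σ in α..t, u σ := by
    intro s t hst
    have := hsub s t
    have h2 : 0 ≤ ∫ σ in s..t, u σ :=
      intervalIntegral.integral_nonneg hst fun σ _ => hu.nonneg σ
    linarith
  have hW1 : StrictMono W := by
    intro s t hst
    have h1 := hmono s t hst.le
    have h2 : min (s - α) 0 ≤ min (t - α) 0 := min_le_min_right _ (by linarith)
    have h3 : max (s - β) 0 ≤ max (t - β) 0 := max_le_max_right _ (by linarith)
    simp only [hW]
    by_cases hs : s < α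
    · have : min (s - α) 0 < min (t - α) 0 := by
        rw [min_eq_left (by linarith), lt_min_iff]; constructor <;> linarith
      linarith
    by_cases ht : β < t
    · have : max (s - β) 0 < max (t - β) 0 := by
        rw [max_eq_left (a := t - β) (by linarith), max_lt_iff]; constructor <;> linarith
      linarith
    push Not at hs ht
    have h4 : 0 < ∫ σ in s..t, u σ :=
      intervalIntegral.intervalIntegral_pos_of_pos_on (hu.cont.intervalIntegrable _ _)
        (fun x hx => hu.pos x ⟨by linarith [hx.1], by linarith [hx.2]⟩) hst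
    linarith [hsub s t]
  have hW2 : Function.Surjective W := by
    apply hWc.surjective
    · refine tendsto_atTop_mono' atTop (f₁ := fun t => t + -β) ?_
        (tendsto_atTop_add_const_right _ _ tendsto_id)
      filter_upwards [eventually_ge_atTop α] with t ht
      have h1 := hmono α t ht
      simp only [intervalIntegral.integral_same] at h1
      simp only [hW]
      rw [min_eq_right (by linarith)]
      linarith [le_max_left (t - β) 0]
    · refine tendsto_atBot_mono' atBot (f₁ := fun t => t + -α) ?_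
        (tendsto_atBot_add_const_right _ _ tendsto_id)
      filter_upwards [eventually_le_atBot α] with t ht
      have h1 := hmono t α ht
      simp only [intervalIntegral.integral_same] at h1
      simp only [hW]
      rw [max_eq_right (by linarith)]
      linarith [min_le_left (t - α) 0]
  set e := hW1.orderIsoOfSurjective W hW2 with he
  have he1 : ∀ t, e.symm (W t) = t := fun t => hW1.orderIsoOfSurjective_symm_apply_self W hW2 t
  have hWU : ∀ t ∈ Icc α β, W t = ∫ σ in α..t, u σ := by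
    intro t ht
    simp only [hW]
    rw [min_eq_right (by linarith [ht.1]), max_eq_right (by linarith [ht.2])]; ring
  refine ⟨fun x => max α (min β (e.symm x)), ?_, fun x hx => ?_, fun x hx => ?_, fun x => ?_,
    fun t ht => ?_⟩
  · have := e.symm.continuous
    fun_prop
  · have h1 : W α = 0 := by rw [hWU α ⟨le_rfl, hαβ⟩]; simp
    have h2 : e.symm x ≤ α := by
      rw [← he1 α]; exact e.symm.monotone (by linarith)
    exact max_eq_left ((min_le_right _ _).trans h2)
  · have h2 : β ≤ e.symm x := by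
      rw [← he1 β]; exact e.symm.monotone (by rw [hWU β ⟨hαβ, le_rfl⟩]; exact hx)
    simp only [min_eq_left h2, max_eq_right hαβ]
  · exact ⟨le_max_left _ _, max_le hαβ (min_le_left _ _)⟩
  · simp only [← hWU t ht, he1, min_eq_right ht.2, max_eq_right ht.1]

lemma continuous_prim {g : ℝ → ℝ} (hg : Continuous g) (a : ℝ) :
    Continuous fun t => ∫ σ in a..t, g σ :=
  continuous_iff_continuousAt.2 fun t => (hg.integral_hasStrictDerivAt a t).hasDerivAt.continuousAt

lemma half_unit {α β : ℝ} (hαβ : α ≤ β) {u : ℝ → ℝ} (hu : IsRate α β u) :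
    ∃ φ : ℝ → ℝ, Continuous φ ∧ (∀ x, x ≤ 0 → φ x = α) ∧ (∀ x, ∫ t in α..β, u t ≤ x → φ x = β) ∧
      (∀ x, α ≤ φ x ∧ φ x ≤ β) ∧ ∀ N k : ℝ,
        (∫ y in (0 : ℝ)..(∫ t in α..β, u t), (N * φ y - k) = ∫ σ in α..β, u σ * (N * σ - k)) ∧
        ∫ x in (0 : ℝ)..(∫ t in α..β, u t), ee (∫ y in (0 : ℝ)..x, (N * φ y - k)) =
          ∫ t in α..β, u t * ee (∫ σ in α..t, u σ * (N * σ - k)) := by
  obtain ⟨φ, h1, h2, h3, h4, h5⟩ := exists_inverse hαβ hu
  refine ⟨φ, h1, h2, h3, h4, fun N k => ?_⟩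
  have hd : ∀ t, HasDerivAt (fun t => ∫ σ in α..t, u σ) (u t) t := fun t =>
    (hu.cont.integral_hasStrictDerivAt α t).hasDerivAt
  have key : ∀ t ∈ Icc α β, ∫ y in (0 : ℝ)..(∫ σ in α..t, u σ), (N * φ y - k) =
      ∫ σ in α..t, u σ * (N * σ - k) := by
    intro t ht
    have := intervalIntegral.integral_deriv_smul_comp (a := α) (b := t) (g := fun y => N * φ y - k)
      (fun x _ => hd x) hu.cont.continuousOn (by fun_prop)
    simp only [intervalIntegral.integral_same] at this
    rw [← this]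
    refine intervalIntegral.integral_congr fun σ hσ => ?_
    rw [uIcc_of_le ht.1] at hσ
    simp only [Function.comp, smul_eq_mul]
    rw [h5 σ ⟨hσ.1, hσ.2.trans ht.2⟩]
  refine ⟨key β ⟨hαβ, le_rfl⟩, ?_⟩
  have hc : Continuous fun x => ∫ y in (0 : ℝ)..x, (N * φ y - k) := continuous_prim (by fun_prop) 0
  have := intervalIntegral.integral_deriv_smul_comp (a := α) (b := β)
    (g := fun x => ee (∫ y in (0 : ℝ)..x, (N * φ y - k)))
    (fun x _ => hd x) hu.cont.continuousOn (by fun_prop)
  simp only [intervalIntegral.integral_same] at this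
  rw [← this]
  refine intervalIntegral.integral_congr fun σ hσ => ?_
  rw [uIcc_of_le hαβ] at hσ
  simp only [Function.comp, Complex.real_smul]
  rw [key σ hσ]

lemma full_unit {α β : ℝ} (hαβ : α ≤ β) {u v : ℝ → ℝ} (hu : IsRate α β u) (hv : IsRate α β v)
    (a l : ℝ) (hl : (∫ t in α..β, u t) + ∫ t in α..β, v t = l) :
    ∃ τ : ℝ → ℝ, Continuous τ ∧ (∀ x, x ≤ a ∨ a + l ≤ x → τ x = 0) ∧
      (∀ x, 0 ≤ τ x ∧ τ x ≤ β - α) ∧
      (∫ x in a..(a + l), τ x = (∫ σ in α..β, u σ * (σ - α)) + ∫ σ in α..β, v σ * (σ - α)) ∧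
      ∀ N k : ℝ, ‖(∫ x in a..(a + l), ee (∫ y in a..x, (N * (α + τ y) - k))) -
          ∫ t in α..β, u t * ee (∫ σ in α..t, u σ * (N * σ - k))‖ =
        ‖∫ t in α..β, v t * ee (∫ σ in α..t, v σ * (N * σ - k))‖ := by
  obtain ⟨φ, h1, h2, h3, h4, h5⟩ := half_unit hαβ hu
  obtain ⟨ψ, g1, g2, g3, g4, g5⟩ := half_unit hαβ hv
  set l₁ := ∫ t in α..β, u t
  set l₂ := ∫ t in α..β, v t
  have hl₁ : 0 ≤ l₁ := intervalIntegral.integral_nonneg hαβ fun t _ => hu.nonneg t
  have hl₂ : 0 ≤ l₂ := intervalIntegral.integral_nonneg hαβ fun t _ => hv.nonneg t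
  set τ : ℝ → ℝ := fun x => φ (x - a) + ψ (a + l - x) - α - β with hτ
  have hτc : Continuous τ := by fun_prop
  have e1 : ∀ x, x ≤ a + l₁ → α + τ x = φ (x - a) := by
    intro x hx
    simp only [hτ]; rw [g3 (a + l - x) (by linarith)]; ring
  have e2 : ∀ x, a + l₁ ≤ x → α + τ x = ψ (a + l - x) := by
    intro x hx
    simp only [hτ]; rw [h3 (x - a) (by linarith)]; ring
  have p1 : ∀ N k x : ℝ, a ≤ x → x ≤ a + l₁ → ∫ y in a..x, (N * (α + τ y) - k) =
      ∫ y in (0 : ℝ)..(x - a), (N * φ y - k) := by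
    intro N k x hx1 hx2
    have := intervalIntegral.integral_comp_sub_right (a := a) (b := x) (fun y => N * φ y - k) a
    rw [sub_self] at this
    rw [← this]
    refine intervalIntegral.integral_congr fun y hy => ?_
    rw [uIcc_of_le hx1] at hy
    rw [e1 y (hy.2.trans hx2)]
  have p2 : ∀ N k x : ℝ, a + l₁ ≤ x → x ≤ a + l → ∫ y in x..(a + l), (N * (α + τ y) - k) =
      ∫ y in (0 : ℝ)..(a + l - x), (N * ψ y - k) := by
    intro N k x hx1 hx2
    have := intervalIntegral.integral_comp_sub_left (a := x) (b := a + l)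
      (fun y => N * ψ y - k) (a + l)
    rw [sub_self] at this
    rw [← this]
    refine intervalIntegral.integral_congr fun y hy => ?_
    rw [uIcc_of_le hx2] at hy
    rw [e2 y (hx1.trans hy.1)]
  refine ⟨τ, hτc, fun x hx => ?_, fun x => ?_, ?_, fun N k => ?_⟩
  · rcases hx with hx | hx
    · have := e1 x (by linarith); rw [h2 _ (by linarith)] at this; linarith
    · have := e2 x (by linarith); rw [g2 _ (by linarith)] at this; linarith
  · rcases le_total x (a + l₁) with hx | hx
    · have := e1 x hx; constructor <;> linarith [h4 (x - a)]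
    · have := e2 x hx; constructor <;> linarith [g4 (a + l - x)]
  · rw [← intervalIntegral.integral_add_adjacent_intervals (b := a + l₁)
      (hτc.intervalIntegrable _ _) (hτc.intervalIntegrable _ _)]
    have q1 := p1 1 α (a + l₁) (by linarith) le_rfl
    have q2 := p2 1 α (a + l₁) le_rfl (by linarith)
    rw [show a + l₁ - a = l₁ by ring, (h5 1 α).1] at q1
    rw [show a + l - (a + l₁) = l₂ by linarith, (g5 1 α).1] at q2
    simp only [one_mul, add_sub_cancel_left] at q1 q2
    rw [q1, q2]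
  · have hc : Continuous fun x => ee (∫ y in a..x, (N * (α + τ y) - k)) :=
      continuous_ee.comp (continuous_prim (by fun_prop) a)
    rw [← intervalIntegral.integral_add_adjacent_intervals (b := a + l₁)
      (hc.intervalIntegrable _ _) (hc.intervalIntegrable _ _), ← (h5 N k).2, ← (g5 N k).2]
    have q1 : ∫ x in a..(a + l₁), ee (∫ y in a..x, (N * (α + τ y) - k)) =
        ∫ x in (0 : ℝ)..l₁, ee (∫ y in (0 : ℝ)..x, (N * φ y - k)) := by
      have := intervalIntegral.integral_comp_sub_right (a := a) (b := a + l₁)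
        (fun x => ee (∫ y in (0 : ℝ)..x, (N * φ y - k))) a
      rw [sub_self, add_sub_cancel_left] at this
      rw [← this]
      refine intervalIntegral.integral_congr fun x hx => ?_
      rw [uIcc_of_le (by linarith)] at hx
      rw [p1 N k x hx.1 hx.2]
    have q2 : ∫ x in (a + l₁)..(a + l), ee (∫ y in a..x, (N * (α + τ y) - k)) =
        ee (∫ y in a..(a + l), (N * (α + τ y) - k)) *
          conj (∫ x in (0 : ℝ)..l₂, ee (∫ y in (0 : ℝ)..x, (N * ψ y - k))) := by
      have := intervalIntegral.integral_comp_sub_left (a := a + l₁) (b := a + l)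
        (fun x => ee (∫ y in (0 : ℝ)..x, (N * ψ y - k))) (a + l)
      rw [sub_self, show a + l - (a + l₁) = l₂ by linarith] at this
      rw [← this, ← intervalIntegral.intervalIntegral_conj, ← intervalIntegral.integral_const_mul]
      refine intervalIntegral.integral_congr fun x hx => ?_
      rw [uIcc_of_le (by linarith)] at hx
      have hc2 : Continuous fun y => N * (α + τ y) - k := by fun_prop
      rw [← p2 N k x hx.1 hx.2, ← ee_sub,
        ← intervalIntegral.integral_add_adjacent_intervals (a := a) (b := x) (c := a + l)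
        (hc2.intervalIntegrable _ _) (hc2.intervalIntegrable _ _), add_sub_cancel_right]
    rw [q1, q2, add_sub_cancel_left, norm_mul, norm_ee, one_mul, Complex.norm_conj]

lemma stat_phase' {α β : ℝ} {u : ℝ → ℝ} (hu : IsRate α β u) {ε : ℝ} (hε : 0 < ε) :
    ∀ᶠ N : ℝ in atTop, ∀ k : ℝ,
      ‖(√N : ℝ) * (∫ t in α..β, u t * ee (∫ σ in α..t, u σ * (N * σ - k))) -
        ee ((∫ σ in α..(k / N), u σ * (N * σ - k)) + 1 / 8) * (√(u (k / N)) : ℝ)‖ ≤ ε := by
  obtain ⟨N₀, hN₀⟩ := stat_phase hu.cont hu.nonneg hu.zero hε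
  filter_upwards [eventually_ge_atTop N₀, eventually_gt_atTop 0] with N hN hN0 k
  have h1 := hN₀ N hN (k / N)
  have hc : Continuous fun σ => u σ * (N * σ - k) := by have := hu.cont; fun_prop
  have h2 : ∀ t, ee (∫ σ in α..t, u σ * (N * σ - k)) =
      ee (∫ σ in α..(k / N), u σ * (N * σ - k)) *
        ee (N * ∫ σ in (k / N)..t, u σ * (σ - k / N)) := by
    intro t
    rw [← ee_add, ← intervalIntegral.integral_add_adjacent_intervals (a := α) (b := k / N) (c := t)
      (hc.intervalIntegrable _ _) (hc.intervalIntegrable _ _),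
      ← intervalIntegral.integral_const_mul]
    congr 2
    refine intervalIntegral.integral_congr fun σ _ => ?_
    field_simp
  have h3 : ∫ t in α..β, u t * ee (∫ σ in α..t, u σ * (N * σ - k)) =
      ∫ t in α..β, ee (∫ σ in α..(k / N), u σ * (N * σ - k)) *
        (u t * ee (N * ∫ σ in (k / N)..t, u σ * (σ - k / N))) :=
    intervalIntegral.integral_congr fun t _ => by rw [h2 t]; ring
  rw [h3, intervalIntegral.integral_const_mul, ee_add, mul_left_comm, mul_assoc, ← mul_sub, norm_mul,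
    norm_ee, one_mul]
  exact h1

/-- One unit of the path with its stationary-phase asymptotics. -/
theorem unit_sp {α β : ℝ} (hαβ : α ≤ β) {u v : ℝ → ℝ} (hu : IsRate α β u) (hv : IsRate α β v)
    (a l : ℝ) (hl : (∫ t in α..β, u t) + ∫ t in α..β, v t = l) :
    ∃ τ : ℝ → ℝ, Continuous τ ∧ (∀ x, x ≤ a ∨ a + l ≤ x → τ x = 0) ∧
      (∀ x, 0 ≤ τ x ∧ τ x ≤ β - α) ∧
      (∫ x in a..(a + l), τ x = (∫ σ in α..β, u σ * (σ - α)) + ∫ σ in α..β, v σ * (σ - α)) ∧
      ∀ ε : ℝ, 0 < ε → ∀ᶠ N : ℝ in atTop, ∀ k : ℝ,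
        ‖(√N : ℝ) * (∫ x in a..(a + l), ee (∫ y in a..x, (N * (α + τ y) - k))) -
          ee ((∫ σ in α..(k / N), u σ * (N * σ - k)) + 1 / 8) * (√(u (k / N)) : ℝ)‖ ≤
          √(v (k / N)) + ε := by
  obtain ⟨τ, h1, h2, h3, h4, h5⟩ := full_unit hαβ hu hv a l hl
  refine ⟨τ, h1, h2, h3, h4, fun ε hε => ?_⟩
  filter_upwards [stat_phase' hu (half_pos hε), stat_phase' hv (half_pos hε)] with N hN1 hN2 k
  have q1 := hN1 k
  have q2 := hN2 k
  have q3 := h5 N k
  set X := ∫ x in a..(a + l), ee (∫ y in a..x, (N * (α + τ y) - k))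
  set Y := ∫ t in α..β, u t * ee (∫ σ in α..t, u σ * (N * σ - k))
  set Z := ∫ t in α..β, v t * ee (∫ σ in α..t, v σ * (N * σ - k))
  set P := ee ((∫ σ in α..(k / N), u σ * (N * σ - k)) + 1 / 8) * (√(u (k / N)) : ℝ)
  have q4 : ‖(√N : ℝ) * Z‖ ≤ √(v (k / N)) + ε / 2 := by
    have := norm_sub_norm_le ((√N : ℝ) * Z)
      (ee ((∫ σ in α..(k / N), v σ * (N * σ - k)) + 1 / 8) * (√(v (k / N)) : ℝ))
    rw [norm_mul (ee _), norm_ee, one_mul, Complex.norm_real, Real.norm_eq_abs,
      abs_of_nonneg (Real.sqrt_nonneg _)] at this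
    linarith
  have q5 : (√N : ℝ) * X - P = (√N : ℝ) * (X - Y) + ((√N : ℝ) * Y - P) := by ring
  rw [q5]
  refine (norm_add_le _ _).trans ?_
  rw [norm_mul, q3, ← norm_mul]
  linarith

end Vale.Agent.P110
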